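import Crest.Agent.Prop334.CapD

/-! Propeller inequality (S0334), parts CAP and HALF: the results are `halfspace_bound` (file
`CapA`) and `cone_bound_3`, `cone_bound_4`, `cone_bound_5`, `cone_bound_7` (file `CapD`). -/
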