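import Crest.Agent.Prop334.Defs

/-! Propeller inequality (S0334): one dimensional Gaussian facts. -/

set_option autoImplicit false

open MeasureTheory ProbabilityTheory Filter Topology Set
open scoped RealInnerProductSpace

namespace Crest.Agent.Prop334

/-- density of the one-dimensional standard Gaussian -/
lemma pdf_eq (x : ℝ) : gaussianPDFReal 0 1 x = Real.exp (-x ^ 2 / 2) / √(2 * Real.pi) := by
  rw [gaussianPDFReal_def]
  simp
  rw [div_eq_mul_inv]
  ring

instance : NullSingletonClass (gaussianReal 0 1) :=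
  nullSingletonClass_gaussianReal one_ne_zero

lemma g1_Ici (t : ℝ) : (gaussianReal 0 1).real (Ici t) = (gaussianReal 0 1).real (Ioi t) := by
  rw [measureReal_def, measureReal_def, measure_congr Ioi_ae_eq_Ici]

lemma g1_mass (t : ℝ) : (gaussianReal 0 1).real (Ioi t)
    = ∫ s in Ioi t, Real.exp (-s ^ 2 / 2) / √(2 * Real.pi) := by
  rw [measureReal_def, gaussianReal_apply_eq_integral 0 one_ne_zero]
  rw [ENNReal.toReal_ofReal]
  · simp only [pdf_eq]
  · exact integral_nonneg fun x => gaussianPDFReal_nonneg _ _ _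

lemma hasDerivAt_phi (x : ℝ) : HasDerivAt (fun s : ℝ => -(Real.exp (-s ^ 2 / 2) / √(2 * Real.pi)))
    (x * (Real.exp (-x ^ 2 / 2) / √(2 * Real.pi))) x := by
  have h1 : HasDerivAt (fun s : ℝ => -s ^ 2 / 2) (-x) x := by
    have := ((hasDerivAt_pow 2 x).neg).div_const 2
    convert! this using 1
    ring
  have h2 := (h1.exp.div_const (√(2 * Real.pi))).neg
  convert! h2 using 1
  ring

lemma tendsto_phi : Tendsto (fun s : ℝ => -(Real.exp (-s ^ 2 / 2) / √(2 * Real.pi))) atTop (𝓝 0) := by
  have h1 : Tendsto (fun s : ℝ => -s ^ 2 / 2) atTop atBot := by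
    have h0 : Tendsto (fun s : ℝ => s ^ 2 / 2) atTop atTop :=
      (tendsto_pow_atTop two_ne_zero).atTop_div_const two_pos
    have := tendsto_neg_atTop_atBot.comp h0
    refine this.congr fun s => ?_
    simp only [Function.comp]
    ring
  have h2 := (Real.tendsto_exp_atBot.comp h1).div_const (√(2 * Real.pi))
  have h3 := h2.neg
  simpa [Function.comp] using h3

lemma integrable_mul_phi : Integrable (fun s : ℝ => s * (Real.exp (-s ^ 2 / 2) / √(2 * Real.pi))) := by
  have h := integrable_mul_exp_neg_mul_sq (b := 1 / 2) (by norm_num)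
  have h2 := h.div_const (√(2 * Real.pi))
  refine h2.congr (Eventually.of_forall fun s => ?_)
  have : Real.exp (-(1 / 2) * s ^ 2) = Real.exp (-s ^ 2 / 2) := by
    congr 1; ring
  simp only [this]
  ring

lemma g1_mean (t : ℝ) : ∫ s in Ioi t, s ∂(gaussianReal 0 1)
    = Real.exp (-t ^ 2 / 2) / √(2 * Real.pi) := by
  rw [← integral_indicator measurableSet_Ioi,
    integral_gaussianReal_eq_integral_smul (one_ne_zero)]
  have h1 : (fun x : ℝ => gaussianPDFReal 0 1 x • (Ioi t).indicator (fun s : ℝ => s) x)
      = (Ioi t).indicator (fun s : ℝ => s * (Real.exp (-s ^ 2 / 2) / √(2 * Real.pi))) := by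
    funext x
    by_cases hx : x ∈ Ioi t
    · simp [indicator_of_mem hx, pdf_eq]
      ring
    · simp [indicator_of_notMem hx]
  rw [h1, integral_indicator measurableSet_Ioi,
    integral_Ioi_of_hasDerivAt_of_tendsto' (fun x _ => hasDerivAt_phi x)
      integrable_mul_phi.integrableOn tendsto_phi]
  ring

lemma g1_half : (gaussianReal 0 1).real (Ioi 0) = 1 / 2 := by
  have h1 : (gaussianReal 0 1).real (Iio 0) = (gaussianReal 0 1).real (Ioi 0) := by
    have h := gaussianReal_map_neg (μ := 0) (v := 1)
    rw [neg_zero] at h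
    rw [measureReal_def, measureReal_def]
    conv_lhs => rw [← h]
    rw [Measure.map_apply (by fun_prop) measurableSet_Iio]
    congr 2
    ext x
    simp
  have h2 : (gaussianReal 0 1).real (Iic 0) = (gaussianReal 0 1).real (Iio 0) := by
    rw [measureReal_def, measureReal_def, measure_congr Iio_ae_eq_Iic]
  have h3 : (gaussianReal 0 1).real (Iic 0) + (gaussianReal 0 1).real (Ioi 0) = 1 := by
    rw [← measureReal_union (by
      rw [Set.disjoint_left]
      intro x hx hx'
      simp only [mem_Iic, mem_Ioi] at hx hx'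
      linarith) measurableSet_Ioi]
    rw [Iic_union_Ioi]
    simp
  linarith

/-- the law of a unit linear functional under the standard Gaussian -/
lemma gam_map_inner {n : ℕ} (u : V n) (hu : ‖u‖ = 1) :
    (gam n).map (fun x => ⟪x, u⟫) = gaussianReal 0 1 := by
  have h := IsGaussian.map_eq_gaussianReal (μ := gam n) (innerSL ℝ u)
  rw [integral_strongDual_stdGaussian, variance_dual_stdGaussian] at h
  have h1 : ‖innerSL ℝ u‖ = 1 := by rw [innerSL_apply_norm, hu]
  rw [h1] at h
  have h2 : ((1 : ℝ) ^ 2).toNNReal = 1 := by simp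
  rw [h2] at h
  rw [← h]
  congr 1
  funext x
  rw [innerSL_apply_apply, real_inner_comm]

/-- bathtub principle for half spaces -/
theorem halfspace_bound (n : ℕ) (A : Set (V n)) (hA : MeasurableSet A) (u : V n) (hu : ‖u‖ = 1)
    (s : ℝ) : ∫ x in A, ⟪x, u⟫ ∂(gam n) ≤ Real.exp (-s ^ 2 / 2) / √(2 * Real.pi)
      + s * ((gam n).real A - (gaussianReal 0 1).real (Set.Ioi s)) := by
  have hmap := gam_map_inner u hu
  have hmeas : Measurable (fun x : V n => ⟪x, u⟫) := by fun_prop
  have hid : Integrable (fun t : ℝ => t) (gaussianReal 0 1) := by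
    have := (memLp_id_gaussianReal (μ := 0) (v := 1) 1).integrable (by simp)
    exact this
  have hint : Integrable (fun x : V n => ⟪x, u⟫) (gam n) := by
    have : Integrable ((fun t : ℝ => t) ∘ (fun x : V n => ⟪x, u⟫)) (gam n) := by
      rw [← integrable_map_measure _ hmeas.aemeasurable]
      · rw [hmap]; exact hid
      · exact measurable_id.aestronglyMeasurable
    exact this
  have hint2 : Integrable (fun x : V n => ⟪x, u⟫ - s) (gam n) :=
    hint.sub (integrable_const s)
  have hbath := setIntegral_le_nonneg (μ := gam n) (f := fun x : V n => ⟪x, u⟫ - s) hA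
    (by fun_prop : Measurable (fun x : V n => ⟪x, u⟫ - s)).stronglyMeasurable hint2
  have hl : ∫ x in A, (⟪x, u⟫ - s) ∂(gam n) = ∫ x in A, ⟪x, u⟫ ∂(gam n) - s * (gam n).real A := by
    rw [integral_sub hint.integrableOn (integrable_const s).integrableOn]
    simp
    ring
  have hr : ∫ x in {x : V n | 0 ≤ ⟪x, u⟫ - s}, (⟪x, u⟫ - s) ∂(gam n)
      = Real.exp (-s ^ 2 / 2) / √(2 * Real.pi) - s * (gaussianReal 0 1).real (Set.Ioi s) := by
    have h1 : ∫ x in {x : V n | 0 ≤ ⟪x, u⟫ - s}, (⟪x, u⟫ - s) ∂(gam n)
        = ∫ t in Ici s, (t - s) ∂(gaussianReal 0 1) := by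
      rw [← hmap, setIntegral_map measurableSet_Ici (by fun_prop) hmeas.aemeasurable]
      congr 1
      congr 1
      ext x
      simp
    rw [h1, integral_Ici_eq_integral_Ioi,
      integral_sub hid.integrableOn (integrable_const s).integrableOn, g1_mean]
    simp
    ring
  rw [hl, hr] at hbath
  linarith

end Crest.Agent.Prop334
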