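import Crest.Agent.Prop334.CapA

/-! Propeller inequality (S0334): density of the standard Gaussian, scaling and cones. -/

set_option autoImplicit false

open MeasureTheory ProbabilityTheory Filter Topology Set
open scoped RealInnerProductSpace

namespace Crest.Agent.Prop334

/-- radial profile of the density of the standard Gaussian -/
noncomputable def rad (n : ℕ) (r : ℝ) : ℝ := ((2 * Real.pi) ^ ((n : ℝ) / 2))⁻¹ * Real.exp (-(r ^ 2) / 2)

lemma rad_nonneg (n : ℕ) (r : ℝ) : 0 ≤ rad n r := by
  unfold rad; positivity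

lemma measurable_rad (n : ℕ) : Measurable (rad n) := by
  unfold rad; fun_prop

lemma integrable_exp_norm (n : ℕ) : Integrable (fun x : V n => Real.exp (-(1 / 2) * ‖x‖ ^ 2)) := by
  have h := GaussianFourier.integral_rexp_neg_mul_sq_norm (V := V n) (b := 1 / 2) (by norm_num)
  by_contra hcon
  rw [integral_undef hcon] at h
  have : (0 : ℝ) < (Real.pi / (1 / 2)) ^ (Module.finrank ℝ (V n) / 2 : ℝ) := by positivity
  linarith

lemma integrable_rad (n : ℕ) : Integrable (fun x : V n => rad n ‖x‖) := by
  have := (integrable_exp_norm n).const_mul (((2 * Real.pi) ^ ((n : ℝ) / 2))⁻¹)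
  refine this.congr (Eventually.of_forall fun x => ?_)
  simp only [rad]
  congr 2
  ring

/-- density of the standard Gaussian -/
lemma gam_eq_withDensity (n : ℕ) :
    gam n = (volume : Measure (V n)).withDensity (fun x => ENNReal.ofReal (rad n ‖x‖)) := by
  have : IsFiniteMeasure ((volume : Measure (V n)).withDensity
      (fun x => ENNReal.ofReal (rad n ‖x‖))) :=
    isFiniteMeasure_withDensity_ofReal (integrable_rad n).2
  apply Measure.ext_of_charFun
  funext t
  rw [charFun_stdGaussian, charFun_apply, integral_withDensity_eq_integral_toReal_smul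
    (by have := measurable_rad n; fun_prop) (Eventually.of_forall fun x => ENNReal.ofReal_lt_top)]
  have h1 : ∀ x : V n, (ENNReal.ofReal (rad n ‖x‖)).toReal • Complex.exp (⟪x, t⟫ * Complex.I)
      = (((2 * Real.pi) ^ ((n : ℝ) / 2))⁻¹ : ℝ) *
        Complex.exp (-(1 / 2 : ℂ) * ‖x‖ ^ 2 + Complex.I * ⟪t, x⟫) := by
    intro x
    rw [ENNReal.toReal_ofReal (rad_nonneg n _), rad, Complex.exp_add, real_inner_comm]
    rw [Complex.real_smul]
    push_cast
    rw [mul_assoc]
    congr 2
    · congr 1; ring
    · congr 1; ring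
  simp_rw [h1]
  rw [integral_const_mul, GaussianFourier.integral_cexp_neg_mul_sq_norm_add (by norm_num)]
  simp only [finrank_euclideanSpace, Fintype.card_fin]
  have h2 : ((Real.pi : ℂ) / (1 / 2)) ^ ((n : ℂ) / 2) = (((2 * Real.pi) ^ ((n : ℝ) / 2) : ℝ) : ℂ) := by
    rw [Complex.ofReal_cpow (by positivity)]
    push_cast
    congr 1
    ring
  rw [h2, ← mul_assoc, ← Complex.ofReal_mul, inv_mul_cancel₀ (by positivity)]
  rw [Complex.ofReal_one, one_mul]
  congr 1
  rw [Complex.I_sq]
  ring

lemma integral_gam {E : Type*} [NormedAddCommGroup E] [NormedSpace ℝ E] (n : ℕ) (f : V n → E) :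
    ∫ x, f x ∂(gam n) = ∫ x, rad n ‖x‖ • f x := by
  rw [gam_eq_withDensity, integral_withDensity_eq_integral_toReal_smul
    (by have := measurable_rad n; fun_prop) (Eventually.of_forall fun x => ENNReal.ofReal_lt_top)]
  simp only [ENNReal.toReal_ofReal (rad_nonneg n _)]

/-- scaling -/
lemma scale_gam (n : ℕ) (f : V n → ℝ) (l : ℝ) (hl : 0 < l) :
    ∫ x, f (l • x) * Real.exp (-((l ^ 2 - 1) * ‖x‖ ^ 2) / 2) ∂(gam n)
      = (l ^ n)⁻¹ * ∫ x, f x ∂(gam n) := by
  rw [integral_gam, integral_gam]
  have h := Measure.integral_comp_smul (volume : Measure (V n)) (fun x => rad n ‖x‖ • f x) l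
  rw [finrank_euclideanSpace, Fintype.card_fin, abs_of_pos (by positivity)] at h
  rw [smul_eq_mul] at h
  rw [← h]
  congr 1
  funext x
  rw [norm_smul, Real.norm_of_nonneg hl.le]
  simp only [rad, smul_eq_mul]
  have : Real.exp (-(l * ‖x‖) ^ 2 / 2) = Real.exp (-‖x‖ ^ 2 / 2) * Real.exp (-((l ^ 2 - 1) * ‖x‖ ^ 2) / 2) := by
    rw [← Real.exp_add]
    congr 1
    ring
  rw [this]
  ring

/-- polar decomposition on a measurable cone -/
lemma cone_polar (n : ℕ) (hn : 0 < n) (A : Set (V n)) (hA : MeasurableSet A)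
    (hcone : ∀ x ∈ A, ∀ t : ℝ, 0 < t → t • x ∈ A) (g : ℝ → ℝ) :
    ∫ x in A, g ‖x‖ ∂(gam n) =
      ((volume : Measure (V n)).toSphere.real (Subtype.val ⁻¹' A)) *
        ∫ r, rad n r.1 * g r.1 ∂(Measure.volumeIoiPow (n - 1)) := by
  have : Nonempty (Fin n) := ⟨⟨0, hn⟩⟩
  have : Nontrivial (V n) := by infer_instance
  rw [← integral_indicator hA, integral_gam]
  have key : ∀ x : ({0}ᶜ : Set (V n)), (rad n ‖x.1‖ • A.indicator (fun x => g ‖x‖) x.1)
      = (fun z : (Metric.sphere (0 : V n) 1 × Ioi (0 : ℝ)) =>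
          ((Subtype.val ⁻¹' A).indicator (fun _ => (1 : ℝ)) z.1) * (rad n z.2.1 * g z.2.1))
          (homeomorphUnitSphereProd (V n) x) := by
    intro x
    have hx : x.1 ≠ 0 := x.2
    have hx' : 0 < ‖x.1‖ := norm_pos_iff.2 hx
    simp only [homeomorphUnitSphereProd_apply_snd_coe]
    by_cases hxA : x.1 ∈ A
    · have h1 : (homeomorphUnitSphereProd (V n) x).1 ∈ (Subtype.val ⁻¹' A : Set (Metric.sphere (0 : V n) 1)) := by
        simp only [mem_preimage, homeomorphUnitSphereProd_apply_fst_coe]
        exact hcone _ hxA _ (by positivity)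
      rw [indicator_of_mem hxA, indicator_of_mem h1]
      simp
    · have h1 : (homeomorphUnitSphereProd (V n) x).1 ∉ (Subtype.val ⁻¹' A : Set (Metric.sphere (0 : V n) 1)) := by
        simp only [mem_preimage, homeomorphUnitSphereProd_apply_fst_coe]
        intro hc
        apply hxA
        have := hcone _ hc ‖x.1‖ hx'
        rwa [smul_smul, mul_inv_cancel₀ hx'.ne', one_smul] at this
      rw [indicator_of_notMem hxA, indicator_of_notMem h1]
      simp
  calc ∫ x, rad n ‖x‖ • A.indicator (fun x => g ‖x‖) x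
      = ∫ x : ({(0)}ᶜ : Set (V n)), rad n ‖x.1‖ • A.indicator (fun x => g ‖x‖) x.1
          ∂((volume : Measure (V n)).comap Subtype.val) := by
        rw [integral_subtype_comap (measurableSet_singleton _).compl
          fun x => rad n ‖x‖ • A.indicator (fun x => g ‖x‖) x, restrict_compl_singleton]
    _ = ∫ z, (fun z : (Metric.sphere (0 : V n) 1 × Ioi (0 : ℝ)) =>
          ((Subtype.val ⁻¹' A).indicator (fun _ => (1 : ℝ)) z.1) * (rad n z.2.1 * g z.2.1)) z
          ∂((volume : Measure (V n)).toSphere.prod (.volumeIoiPow (Module.finrank ℝ (V n) - 1))) := by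
        rw [← (volume : Measure (V n)).measurePreserving_homeomorphUnitSphereProd.integral_comp
          (Homeomorph.measurableEmbedding _)]
        congr 1
        funext x
        exact key x
    _ = (∫ z, (Subtype.val ⁻¹' A).indicator (fun _ => (1 : ℝ)) z ∂(volume : Measure (V n)).toSphere)
          * ∫ r : Ioi (0 : ℝ), rad n r.1 * g r.1 ∂(Measure.volumeIoiPow (Module.finrank ℝ (V n) - 1)) := by
        exact integral_prod_mul (μ := (volume : Measure (V n)).toSphere)
          (ν := Measure.volumeIoiPow (Module.finrank ℝ (V n) - 1))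
          ((Subtype.val ⁻¹' A).indicator (fun _ => (1 : ℝ))) (fun r : Ioi (0 : ℝ) => rad n r.1 * g r.1)
    _ = _ := by
        rw [integral_indicator (measurable_subtype_coe hA)]
        simp only [finrank_euclideanSpace, Fintype.card_fin]
        simp

/-- on a cone the radius is independent of the direction -/
lemma cone_norm (n : ℕ) (hn : 0 < n) (A : Set (V n)) (hA : MeasurableSet A)
    (hcone : ∀ x ∈ A, ∀ t : ℝ, 0 < t → t • x ∈ A) :
    ∫ x in A, ‖x‖ ∂(gam n) = (gam n).real A * ∫ x, ‖x‖ ∂(gam n) := by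
  have h1 := cone_polar n hn A hA hcone (fun r => r)
  have h2 := cone_polar n hn A hA hcone (fun _ => 1)
  have h3 := cone_polar n hn univ MeasurableSet.univ (by simp) (fun r => r)
  have h4 := cone_polar n hn univ MeasurableSet.univ (by simp) (fun _ => 1)
  simp only [Measure.restrict_univ, integral_const, smul_eq_mul, mul_one, preimage_univ] at h1 h2 h3 h4
  rw [measureReal_restrict_apply MeasurableSet.univ, univ_inter] at h2
  have h5 : (gam n).real univ = 1 := by simp
  rw [h5] at h4
  rw [h1, h2, h3]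
  linear_combination ((volume : Measure (V n)).toSphere.real (Subtype.val ⁻¹' A) *
        (∫ r : Ioi (0 : ℝ), rad n r.1 * r.1 ∂(Measure.volumeIoiPow (n - 1)))) * h4

end Crest.Agent.Prop334
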