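import Crest.Agent.Prop334.CapB

/-! Propeller inequality (S0334): splitting off one direction; mass and mean of caps. -/

set_option autoImplicit false

open MeasureTheory ProbabilityTheory Filter Topology Set
open scoped RealInnerProductSpace

namespace Crest.Agent.Prop334

/-- joint law of `⟪x, u⟫` and `‖x‖ ^ 2` under the standard Gaussian -/
lemma gam_split (m : ℕ) (u : V (m + 1)) (hu : ‖u‖ = 1) :
    (gam (m + 1)).map (fun x => ((⟪x, u⟫, ‖x‖ ^ 2) : ℝ × ℝ))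
      = ((gaussianReal 0 1).prod (gam m)).map (fun z => (z.1, z.1 ^ 2 + ‖z.2‖ ^ 2)) := by
  obtain ⟨b, hb⟩ := Orthonormal.exists_orthonormalBasis_extension_of_card_eq (𝕜 := ℝ)
    (E := V (m + 1)) (ι := Fin (m + 1)) (by simp) (v := fun _ => u) (s := {0}) (by
      refine ⟨fun i => by simpa using hu, fun i j hij => ?_⟩
      exact absurd (Subsingleton.elim i j) hij)
  have hb0 : b 0 = u := hb 0 (by simp)
  have hL : (gam (m + 1)).map (fun x => ((⟪x, u⟫, ‖x‖ ^ 2) : ℝ × ℝ))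
      = (Measure.pi fun _ : Fin (m + 1) => gaussianReal 0 1).map
        (fun x => (x 0, ∑ i, x i ^ 2)) := by
    rw [gam, stdGaussian_eq_map_pi_orthonormalBasis b, Measure.map_map (by fun_prop) (by fun_prop)]
    congr 1
    funext x
    simp only [Function.comp]
    congr 1
    · rw [← hb0, sum_inner]
      simp only [inner_smul_left, b.inner_eq_ite]
      simp
    · rw [← real_inner_self_eq_norm_sq, sum_inner]
      refine Finset.sum_congr rfl fun i _ => ?_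
      rw [inner_sum]
      simp only [inner_smul_left, inner_smul_right, b.inner_eq_ite]
      simp
      ring
  have hR : ((gaussianReal 0 1).prod (gam m)).map
        (fun z => ((z.1, z.1 ^ 2 + ‖z.2‖ ^ 2) : ℝ × ℝ))
      = ((gaussianReal 0 1).prod (Measure.pi fun _ : Fin m => gaussianReal 0 1)).map
        (fun z => (z.1, z.1 ^ 2 + ∑ i, z.2 i ^ 2)) := by
    rw [gam, ← map_pi_eq_stdGaussian]
    have hp := Measure.map_prod_map (f := (id : ℝ → ℝ))
      (g := (WithLp.toLp 2 : (Fin m → ℝ) → EuclideanSpace ℝ (Fin m)))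
      (gaussianReal 0 1) (Measure.pi fun _ : Fin m => gaussianReal 0 1) measurable_id (by fun_prop)
    rw [Measure.map_id] at hp
    rw [hp, Measure.map_map (by fun_prop) (by fun_prop)]
    congr 1
    funext z
    simp only [Function.comp, Prod.map, id]
    congr 2
    rw [EuclideanSpace.real_norm_sq_eq]
  rw [hL, hR]
  have h := (measurePreserving_piFinSuccAbove (n := m) (α := fun _ => ℝ)
    (fun _ => gaussianReal 0 1) 0).map_eq
  rw [← h, Measure.map_map (by fun_prop) (by fun_prop)]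
  congr 1
  funext x
  simp only [Function.comp]
  congr 1
  rw [Fin.sum_univ_succ]
  rfl

lemma integral_split (m : ℕ) (u : V (m + 1)) (hu : ‖u‖ = 1) (F : ℝ × ℝ → ℝ) (hF : Measurable F) :
    ∫ x, F (⟪x, u⟫, ‖x‖ ^ 2) ∂(gam (m + 1))
      = ∫ z, F (z.1, z.1 ^ 2 + ‖z.2‖ ^ 2) ∂((gaussianReal 0 1).prod (gam m)) := by
  have h1 := integral_map (μ := gam (m + 1)) (φ := fun x => ((⟪x, u⟫, ‖x‖ ^ 2) : ℝ × ℝ))
    (by fun_prop) (f := F) hF.aestronglyMeasurable
  have h2 := integral_map (μ := (gaussianReal 0 1).prod (gam m))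
    (φ := fun z => ((z.1, z.1 ^ 2 + ‖z.2‖ ^ 2) : ℝ × ℝ))
    (by fun_prop) (f := F) hF.aestronglyMeasurable
  rw [← h1, ← h2, gam_split m u hu]

lemma cap_cond {c : ℝ} (hc0 : 0 ≤ c) (hc1 : c < 1) (s r : ℝ) (hr : 0 ≤ r) :
    0 ≤ s - c * √(s ^ 2 + r ^ 2) ↔ c / √(1 - c ^ 2) * r ≤ s := by
  have h1 : 0 < 1 - c ^ 2 := by nlinarith
  have hq : 0 < √(1 - c ^ 2) := Real.sqrt_pos.2 h1
  have hq2 : √(1 - c ^ 2) ^ 2 = 1 - c ^ 2 := Real.sq_sqrt h1.le
  have hR : 0 ≤ s ^ 2 + r ^ 2 := by positivity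
  have hR2 : √(s ^ 2 + r ^ 2) ^ 2 = s ^ 2 + r ^ 2 := Real.sq_sqrt hR
  constructor
  · intro h
    have hs : 0 ≤ s := by
      have : 0 ≤ c * √(s ^ 2 + r ^ 2) := by positivity
      linarith
    have h2 : (c * √(s ^ 2 + r ^ 2)) ^ 2 ≤ s ^ 2 :=
      pow_le_pow_left₀ (by positivity) (by linarith) 2
    rw [mul_pow, hR2] at h2
    have h3 : (c * r) ^ 2 ≤ (√(1 - c ^ 2) * s) ^ 2 := by
      rw [mul_pow, mul_pow, hq2]
      nlinarith
    have h4 : c * r ≤ √(1 - c ^ 2) * s := by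
      exact (sq_le_sq₀ (by positivity) (by positivity)).1 h3
    rw [div_mul_eq_mul_div, div_le_iff₀ hq]
    linarith
  · intro h
    rw [div_mul_eq_mul_div, div_le_iff₀ hq] at h
    have hs : 0 ≤ s := by
      by_contra hcon
      push Not at hcon
      have : 0 ≤ c * r := by positivity
      nlinarith
    have h3 : (c * r) ^ 2 ≤ (√(1 - c ^ 2) * s) ^ 2 := by
      apply pow_le_pow_left₀ (by positivity)
      linarith
    rw [mul_pow, mul_pow, hq2] at h3
    have h4 : (c * √(s ^ 2 + r ^ 2)) ^ 2 ≤ s ^ 2 := by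
      rw [mul_pow, hR2]
      nlinarith
    have h5 := (sq_le_sq₀ (by positivity) hs).1 h4
    linarith

lemma cap_fubini (m : ℕ) (u : V (m + 1)) (hu : ‖u‖ = 1) (c : ℝ) (hc0 : 0 ≤ c) (hc1 : c < 1)
    (G : ℝ → ℝ) (hG : Measurable G) (hGi : Integrable G (gaussianReal 0 1)) :
    ∫ x in {x : V (m + 1) | 0 ≤ ⟪x, u⟫ - c * ‖x‖}, G ⟪x, u⟫ ∂(gam (m + 1))
      = ∫ y, (∫ s in Ici (c / √(1 - c ^ 2) * ‖y‖), G s ∂(gaussianReal 0 1)) ∂(gam m) := by
  have hCm : MeasurableSet {x : V (m + 1) | 0 ≤ ⟪x, u⟫ - c * ‖x‖} :=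
    measurableSet_le measurable_const (by fun_prop)
  set F : ℝ × ℝ → ℝ := {p : ℝ × ℝ | 0 ≤ p.1 - c * √p.2}.indicator (fun p => G p.1) with hFdef
  have hFm : Measurable F := by
    apply Measurable.indicator (by fun_prop)
    exact measurableSet_le measurable_const (by fun_prop)
  rw [← integral_indicator hCm]
  have h1 : ∀ x : V (m + 1), {x : V (m + 1) | 0 ≤ ⟪x, u⟫ - c * ‖x‖}.indicator
      (fun x => G ⟪x, u⟫) x = F (⟪x, u⟫, ‖x‖ ^ 2) := by
    intro x
    simp only [hFdef, indicator, mem_ofPred_eq, Real.sqrt_sq (norm_nonneg x)]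
  simp_rw [h1]
  rw [integral_split m u hu F hFm]
  have h2 : ∀ z : ℝ × V m, F (z.1, z.1 ^ 2 + ‖z.2‖ ^ 2)
      = (Ici (c / √(1 - c ^ 2) * ‖z.2‖)).indicator G z.1 := by
    intro z
    simp only [hFdef, indicator, mem_ofPred_eq, mem_Ici, cap_cond hc0 hc1 _ _ (norm_nonneg z.2)]
  have hint : Integrable (fun z : ℝ × V m => F (z.1, z.1 ^ 2 + ‖z.2‖ ^ 2))
      ((gaussianReal 0 1).prod (gam m)) := by
    have hb : Integrable (fun z : ℝ × V m => G z.1) ((gaussianReal 0 1).prod (gam m)) :=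
      hGi.comp_fst _
    refine hb.mono (hFm.comp (by fun_prop)).aestronglyMeasurable (Eventually.of_forall fun z => ?_)
    rw [h2]
    exact norm_indicator_le_norm_self _ _
  rw [integral_prod_symm _ hint]
  congr 1
  funext y
  rw [← integral_indicator measurableSet_Ici]
  congr 1
  funext s
  exact h2 (s, y)

/-- mass of a cap as an integral over the orthogonal complement of the axis -/
lemma cap_mass (m : ℕ) (u : V (m + 1)) (hu : ‖u‖ = 1) (c : ℝ) (hc0 : 0 ≤ c) (hc1 : c < 1) :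
    (gam (m + 1)).real {x : V (m + 1) | 0 ≤ ⟪x, u⟫ - c * ‖x‖}
      = ∫ y, (gaussianReal 0 1).real (Ioi (c / √(1 - c ^ 2) * ‖y‖)) ∂(gam m) := by
  have h := cap_fubini m u hu c hc0 hc1 (fun _ => 1) measurable_const (integrable_const 1)
  simp only [integral_const, smul_eq_mul, mul_one, measureReal_restrict_apply MeasurableSet.univ,
    univ_inter, g1_Ici] at h
  exact h

/-- mean of a cap -/
lemma cap_mean (m : ℕ) (u : V (m + 1)) (hu : ‖u‖ = 1) (c : ℝ) (hc0 : 0 ≤ c) (hc1 : c < 1) :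
    ∫ x in {x : V (m + 1) | 0 ≤ ⟪x, u⟫ - c * ‖x‖}, ⟪x, u⟫ ∂(gam (m + 1))
      = √(1 - c ^ 2) ^ m / √(2 * Real.pi) := by
  have hid : Integrable (fun t : ℝ => t) (gaussianReal 0 1) :=
    (memLp_id_gaussianReal (μ := 0) (v := 1) 1).integrable (by simp)
  have h := cap_fubini m u hu c hc0 hc1 (fun t => t) measurable_id hid
  rw [h]
  have h1 : 0 < 1 - c ^ 2 := by nlinarith
  have hq : 0 < √(1 - c ^ 2) := Real.sqrt_pos.2 h1
  have hq2 : √(1 - c ^ 2) ^ 2 = 1 - c ^ 2 := Real.sq_sqrt h1.le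
  have hs := scale_gam m (fun _ => 1 / √(2 * Real.pi)) (√(1 - c ^ 2))⁻¹ (by positivity)
  rw [integral_const] at hs
  simp only [smul_eq_mul, inv_pow, inv_inv] at hs
  have h5 : (gam m).real univ = 1 := by simp
  rw [h5, one_mul] at hs
  have h6 : √(1 - c ^ 2) ^ m / √(2 * Real.pi) = √(1 - c ^ 2) ^ m * (1 / √(2 * Real.pi)) := by ring
  rw [h6, ← hs]
  congr 1
  funext y
  rw [integral_Ici_eq_integral_Ioi, g1_mean]
  have h7 : -(c / √(1 - c ^ 2) * ‖y‖) ^ 2 / 2 = -(((√(1 - c ^ 2) ^ 2)⁻¹ - 1) * ‖y‖ ^ 2) / 2 := by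
    rw [hq2, mul_pow, div_pow, hq2]
    field_simp
    ring
  rw [h7]
  ring

end Crest.Agent.Prop334
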