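import Crest.Agent.Prop334.CapC

/-! Propeller inequality (S0334): closed form of the mass of caps and the cap bound for cones. -/

set_option autoImplicit false

open MeasureTheory ProbabilityTheory Filter Topology Set
open scoped RealInnerProductSpace

namespace Crest.Agent.Prop334

lemma integrable_phi : Integrable (fun s : ℝ => Real.exp (-s ^ 2 / 2) / √(2 * Real.pi)) := by
  have := integrable_gaussianPDFReal 0 1
  refine this.congr (Eventually.of_forall fun s => ?_)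
  exact pdf_eq s

lemma g1_scaled (k r : ℝ) (hr : 0 < r) : (gaussianReal 0 1).real (Ioi (k * r))
    = ∫ s in Ioi k, r * (Real.exp (-(r * s) ^ 2 / 2) / √(2 * Real.pi)) := by
  rw [g1_mass, integral_const_mul,
    integral_comp_mul_left_Ioi (fun s : ℝ => Real.exp (-s ^ 2 / 2) / √(2 * Real.pi)) k hr,
    smul_eq_mul, mul_comm k r, ← mul_assoc, mul_inv_cancel₀ hr.ne', one_mul]

lemma gam_singleton (m : ℕ) (hm : 0 < m) : gam m {0} = 0 := by
  have : Nonempty (Fin m) := ⟨⟨0, hm⟩⟩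
  have : Nontrivial (V m) := by infer_instance
  have h1 : (volume : Measure (V m)) {0} = 0 := measure_singleton 0
  have h2 : gam m ≪ (volume : Measure (V m)) := by
    rw [gam_eq_withDensity]
    exact withDensity_absolutelyContinuous _ _
  exact h2 h1

/-- mass of a cap as a one-dimensional integral -/
lemma mass_tonelli (m : ℕ) (hm : 0 < m) (k : ℝ) :
    ∫ y, (gaussianReal 0 1).real (Ioi (k * ‖y‖)) ∂(gam m)
      = ((∫ y, ‖y‖ ∂(gam m)) / √(2 * Real.pi)) * ∫ s in Ioi k, (√(1 + s ^ 2) ^ (m + 1))⁻¹ := by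
  set f : V m → ℝ → ℝ := fun y s => ‖y‖ * (Real.exp (-(‖y‖ * s) ^ 2 / 2) / √(2 * Real.pi)) with hf
  have hfm : AEStronglyMeasurable (Function.uncurry f)
      ((gam m).prod ((volume : Measure ℝ).restrict (Ioi k))) := by
    apply Measurable.aestronglyMeasurable
    simp only [hf, Function.uncurry_def]
    fun_prop
  have hfnn : ∀ y s, 0 ≤ f y s := fun y s => by simp only [hf]; positivity
  have hint1 : ∀ y : V m, Integrable (fun s => f y s) ((volume : Measure ℝ).restrict (Ioi k)) := by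
    intro y
    rcases eq_or_ne y 0 with rfl | hy
    · simp [hf]
    · have hy' : 0 < ‖y‖ := norm_pos_iff.2 hy
      have := (integrable_phi.comp_mul_left' hy'.ne').const_mul ‖y‖
      exact this.integrableOn
  have hle : ∀ y : V m, ∫ s in Ioi k, f y s ≤ 1 := by
    intro y
    rcases eq_or_ne y 0 with rfl | hy
    · simp [hf]
    · have hy' : 0 < ‖y‖ := norm_pos_iff.2 hy
      have := g1_scaled k ‖y‖ hy'
      simp only [hf]
      rw [← this]
      exact measureReal_le_one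
  have hint : Integrable (Function.uncurry f)
      ((gam m).prod ((volume : Measure ℝ).restrict (Ioi k))) := by
    rw [integrable_prod_iff hfm]
    refine ⟨Eventually.of_forall fun y => hint1 y, ?_⟩
    refine Integrable.mono' (integrable_const 1) hfm.norm.integral_prod_right'
      (Eventually.of_forall fun y => ?_)
    have h1 : ∫ s in Ioi k, ‖Function.uncurry f (y, s)‖ = ∫ s in Ioi k, f y s := by
      congr 1
      funext s
      simp only [Function.uncurry_apply_pair]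
      exact Real.norm_of_nonneg (hfnn y s)
    rw [h1, Real.norm_of_nonneg (integral_nonneg fun s => hfnn y s)]
    exact hle y
  have h1 : ∫ y, (gaussianReal 0 1).real (Ioi (k * ‖y‖)) ∂(gam m)
      = ∫ y, (∫ s in Ioi k, f y s) ∂(gam m) := by
    apply integral_congr_ae
    have h0 : ∀ᵐ y ∂(gam m), y ≠ 0 := by
      rw [ae_iff]
      simpa using gam_singleton m hm
    filter_upwards [h0] with y hy
    have hy' : 0 < ‖y‖ := norm_pos_iff.2 hy
    exact g1_scaled k ‖y‖ hy'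
  rw [h1, integral_integral_swap hint, ← integral_const_mul]
  congr 1
  funext s
  have hl : 0 < √(1 + s ^ 2) := Real.sqrt_pos.2 (by positivity)
  have hl2 : √(1 + s ^ 2) ^ 2 = 1 + s ^ 2 := Real.sq_sqrt (by positivity)
  have hs := scale_gam m (fun y => ‖y‖) (√(1 + s ^ 2)) hl
  simp only [norm_smul, Real.norm_of_nonneg hl.le, hl2] at hs
  have h2 : ∀ y : V m, √(1 + s ^ 2) * ‖y‖ * Real.exp (-((1 + s ^ 2 - 1) * ‖y‖ ^ 2) / 2)
      = √(1 + s ^ 2) * √(2 * Real.pi) * f y s := by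
    intro y
    simp only [hf]
    have : -((1 + s ^ 2 - 1) * ‖y‖ ^ 2) / 2 = -(‖y‖ * s) ^ 2 / 2 := by ring
    rw [this]
    have hpi : √(2 * Real.pi) ≠ 0 := by positivity
    field_simp
  simp_rw [h2] at hs
  rw [integral_const_mul] at hs
  have hpi : √(2 * Real.pi) ≠ 0 := by positivity
  field_simp at hs ⊢
  linear_combination hs

lemma hasDerivAt_tn (s : ℝ) : HasDerivAt (fun s : ℝ => s / √(1 + s ^ 2)) ((√(1 + s ^ 2) ^ 3)⁻¹) s := by
  have hpos : 0 < 1 + s ^ 2 := by positivity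
  have hl : 0 < √(1 + s ^ 2) := Real.sqrt_pos.2 hpos
  have hl2 : √(1 + s ^ 2) ^ 2 = 1 + s ^ 2 := Real.sq_sqrt hpos.le
  have h1 : HasDerivAt (fun s : ℝ => 1 + s ^ 2) (2 * s) s := by
    simpa using (hasDerivAt_pow 2 s).const_add 1
  have h2 := h1.sqrt hpos.ne'
  have h3 := (hasDerivAt_id s).div h2 hl.ne'
  convert! h3 using 1
  simp only [id]
  field_simp
  rw [hl2]
  ring

lemma tendsto_tn : Tendsto (fun s : ℝ => s / √(1 + s ^ 2)) atTop (𝓝 1) := by
  have h1 : Tendsto (fun s : ℝ => √(1 - 1 / (1 + s ^ 2))) atTop (𝓝 1) := by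
    have h0 : Tendsto (fun s : ℝ => 1 + s ^ 2) atTop atTop :=
      tendsto_atTop_add_const_left _ _ (tendsto_pow_atTop two_ne_zero)
    have h2 : Tendsto (fun s : ℝ => 1 / (1 + s ^ 2)) atTop (𝓝 0) := by
      have h5 := h0.inv_tendsto_atTop
      refine h5.congr fun s => ?_
      simp
    have h3 := (h2.const_sub 1).sqrt
    simpa using h3
  refine h1.congr' ?_
  filter_upwards [eventually_ge_atTop (0 : ℝ)] with s hs
  have hpos : 0 < 1 + s ^ 2 := by positivity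
  have : 1 - 1 / (1 + s ^ 2) = s ^ 2 / (1 + s ^ 2) := by
    field_simp
    ring
  rw [this, Real.sqrt_div (by positivity), Real.sqrt_sq hs]

/-- closed form of the one-dimensional integral -/
lemma closed_form (m : ℕ) (F : ℝ → ℝ) (hFc : Continuous F)
    (hFd : ∀ t : ℝ, 0 ≤ t → t < 1 → HasDerivAt F (√(1 - t ^ 2) ^ m / (1 - t ^ 2)) t) (k : ℝ)
    (hk : 0 ≤ k) :
    ∫ s in Ioi k, (√(1 + s ^ 2) ^ (m + 1))⁻¹ = F 1 - F (k / √(1 + k ^ 2)) := by
  apply integral_Ioi_of_hasDerivAt_of_nonneg' (g := fun s => F (s / √(1 + s ^ 2)))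
  · intro s hs
    have hs0 : 0 ≤ s := le_trans hk hs
    have hpos : 0 < 1 + s ^ 2 := by positivity
    have hl : 0 < √(1 + s ^ 2) := Real.sqrt_pos.2 hpos
    have hl2 : √(1 + s ^ 2) ^ 2 = 1 + s ^ 2 := Real.sq_sqrt hpos.le
    have h1 : 1 - (s / √(1 + s ^ 2)) ^ 2 = (√(1 + s ^ 2) ^ 2)⁻¹ := by
      rw [div_pow, hl2]
      field_simp
      ring
    have hlt : s / √(1 + s ^ 2) < 1 := by
      rw [div_lt_one hl]
      exact Real.lt_sqrt_of_sq_lt (by linarith)
    have h2 := (hFd (s / √(1 + s ^ 2)) (by positivity) hlt).comp s (hasDerivAt_tn s)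
    convert! h2 using 1
    rw [h1, Real.sqrt_inv, Real.sqrt_sq hl.le, inv_pow, pow_succ]
    field_simp
  · intro s _
    positivity
  · exact (hFc.tendsto 1).comp tendsto_tn

/-- mass of a cap -/
lemma cap_mass' (m : ℕ) (hm : 0 < m) (F : ℝ → ℝ) (hFc : Continuous F) (hF0 : F 0 = 0)
    (hF1 : F 1 ≠ 0)
    (hFd : ∀ t : ℝ, 0 ≤ t → t < 1 → HasDerivAt F (√(1 - t ^ 2) ^ m / (1 - t ^ 2)) t)
    (u : V (m + 1)) (hu : ‖u‖ = 1) (c : ℝ) (hc0 : 0 ≤ c) (hc1 : c < 1) :
    (gam (m + 1)).real {x : V (m + 1) | 0 ≤ ⟪x, u⟫ - c * ‖x‖} = 1 / 2 - F c / (2 * F 1) := by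
  have h1 : 0 < 1 - c ^ 2 := by nlinarith
  have hq : 0 < √(1 - c ^ 2) := Real.sqrt_pos.2 h1
  have hq2 : √(1 - c ^ 2) ^ 2 = 1 - c ^ 2 := Real.sq_sqrt h1.le
  rw [cap_mass m u hu c hc0 hc1, mass_tonelli m hm, closed_form m F hFc hFd _ (by positivity)]
  have h0 := mass_tonelli m hm 0
  rw [closed_form m F hFc hFd 0 le_rfl] at h0
  simp only [zero_mul, g1_half, integral_const, smul_eq_mul, zero_div, hF0, sub_zero] at h0
  have h5 : (gam m).real univ = 1 := by simp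
  rw [h5, one_mul] at h0
  have hk : c / √(1 - c ^ 2) / √(1 + (c / √(1 - c ^ 2)) ^ 2) = c := by
    have : 1 + (c / √(1 - c ^ 2)) ^ 2 = (√(1 - c ^ 2) ^ 2)⁻¹ := by
      rw [div_pow, hq2]
      field_simp
      ring
    rw [this, Real.sqrt_inv, Real.sqrt_sq hq.le]
    field_simp
  rw [hk]
  have h6 : (∫ y, ‖y‖ ∂(gam m)) / √(2 * Real.pi) = 1 / (2 * F 1) := by
    field_simp
    field_simp at h0
    linear_combination -h0
  rw [h6]
  field_simp

/-- the cap bound for cones, abstract version -/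
theorem cone_bound_gen (m : ℕ) (hm : 0 < m) (F : ℝ → ℝ) (hFc : Continuous F) (hF0 : F 0 = 0)
    (hF1 : F 1 ≠ 0)
    (hFd : ∀ t : ℝ, 0 ≤ t → t < 1 → HasDerivAt F (√(1 - t ^ 2) ^ m / (1 - t ^ 2)) t)
    (A : Set (V (m + 1))) (hA : MeasurableSet A)
    (hcone : ∀ x ∈ A, ∀ t : ℝ, 0 < t → t • x ∈ A) (hp : (gam (m + 1)).real A ≤ 1 / 2)
    (u : V (m + 1)) (hu : ‖u‖ = 1) :
    ∃ c : ℝ, 0 ≤ c ∧ c ≤ 1 ∧ (gam (m + 1)).real A = 1 / 2 - F c / (2 * F 1) ∧
      ∫ x in A, ⟪x, u⟫ ∂(gam (m + 1)) ≤ √(1 - c ^ 2) ^ m / √(2 * Real.pi) := by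
  have hiv : ∃ c ∈ Icc (0 : ℝ) 1, 1 / 2 - F c / (2 * F 1) = (gam (m + 1)).real A := by
    have h := intermediate_value_Icc' (f := fun c => 1 / 2 - F c / (2 * F 1)) zero_le_one
      (by fun_prop)
    have h2 : (gam (m + 1)).real A ∈ Icc (1 / 2 - F 1 / (2 * F 1)) (1 / 2 - F 0 / (2 * F 1)) := by
      have h3 : 1 / 2 - F 1 / (2 * F 1) = 0 := by
        field_simp
        ring
      rw [h3, hF0]
      exact ⟨measureReal_nonneg, by simpa using hp⟩
    exact h h2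
  obtain ⟨c, ⟨hc0, hc1⟩, hcA⟩ := hiv
  refine ⟨c, hc0, hc1, hcA.symm, ?_⟩
  rcases hc1.eq_or_lt with rfl | hc1
  · have h3 : 1 / 2 - F 1 / (2 * F 1) = 0 := by
      field_simp
      ring
    rw [h3] at hcA
    have h4 : gam (m + 1) A = 0 := by
      rw [measureReal_def] at hcA
      rcases (ENNReal.toReal_eq_zero_iff _).1 hcA.symm with h | h
      · exact h
      · exact absurd h (measure_ne_top _ _)
    rw [setIntegral_measure_zero _ h4]
    positivity
  · have hNint : Integrable (fun x : V (m + 1) => ‖x‖) (gam (m + 1)) :=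
      (IsGaussian.integrable_id (μ := gam (m + 1))).norm
    have hIint : Integrable (fun x : V (m + 1) => ⟪x, u⟫) (gam (m + 1)) := by
      refine hNint.mono' (by fun_prop) (Eventually.of_forall fun x => ?_)
      have := norm_inner_le_norm (𝕜 := ℝ) x u
      rwa [hu, mul_one] at this
    have hDint : Integrable (fun x : V (m + 1) => ⟪x, u⟫ - c * ‖x‖) (gam (m + 1)) :=
      hIint.sub (hNint.const_mul c)
    have hbath := setIntegral_le_nonneg (μ := gam (m + 1))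
      (f := fun x : V (m + 1) => ⟪x, u⟫ - c * ‖x‖) hA
      (by fun_prop : Measurable (fun x : V (m + 1) => ⟪x, u⟫ - c * ‖x‖)).stronglyMeasurable hDint
    rw [integral_sub hIint.integrableOn (hNint.const_mul c).integrableOn,
      integral_sub hIint.integrableOn (hNint.const_mul c).integrableOn, integral_const_mul,
      integral_const_mul] at hbath
    have hCm : MeasurableSet {x : V (m + 1) | 0 ≤ ⟪x, u⟫ - c * ‖x‖} :=
      measurableSet_le measurable_const (by fun_prop)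
    have hCcone : ∀ x ∈ {x : V (m + 1) | 0 ≤ ⟪x, u⟫ - c * ‖x‖}, ∀ t : ℝ, 0 < t →
        t • x ∈ {x : V (m + 1) | 0 ≤ ⟪x, u⟫ - c * ‖x‖} := by
      intro x hx t ht
      simp only [mem_ofPred_eq] at hx ⊢
      rw [norm_smul, Real.norm_of_nonneg ht.le, real_inner_smul_left]
      have : t * ⟪x, u⟫ - c * (t * ‖x‖) = t * (⟪x, u⟫ - c * ‖x‖) := by ring
      rw [this]
      positivity
    rw [cone_norm (m + 1) (Nat.succ_pos _) A hA hcone,
      cone_norm (m + 1) (Nat.succ_pos _) _ hCm hCcone, cap_mean m u hu c hc0 hc1,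
      cap_mass' m hm F hFc hF0 hF1 hFd u hu c hc0 hc1, ← hcA] at hbath
    linarith

theorem cone_bound_3 (A : Set (V 3)) (hA : MeasurableSet A)
    (hcone : ∀ x ∈ A, ∀ t : ℝ, 0 < t → t • x ∈ A) (hp : (gam 3).real A ≤ 1 / 2)
    (u : V 3) (hu : ‖u‖ = 1) :
    ∃ c : ℝ, 0 ≤ c ∧ c ≤ 1 ∧ (gam 3).real A = (1 - c) / 2 ∧
      ∫ x in A, ⟪x, u⟫ ∂(gam 3) ≤ (1 - c ^ 2) / √(2 * Real.pi) := by
  obtain ⟨c, h0, h1, h2, h3⟩ := cone_bound_gen 2 (by norm_num) (fun t => t) continuous_id rfl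
    one_ne_zero (by
      intro t ht0 ht1
      have h1 : 0 < 1 - t ^ 2 := by nlinarith
      rw [Real.sq_sqrt h1.le, div_self h1.ne']
      exact hasDerivAt_id t) A hA hcone hp u hu
  refine ⟨c, h0, h1, ?_, ?_⟩
  · rw [h2]; ring
  · have h4 : 0 ≤ 1 - c ^ 2 := by nlinarith
    rw [Real.sq_sqrt h4] at h3
    exact h3

theorem cone_bound_4 (A : Set (V 4)) (hA : MeasurableSet A)
    (hcone : ∀ x ∈ A, ∀ t : ℝ, 0 < t → t • x ∈ A) (hp : (gam 4).real A ≤ 1 / 2)
    (u : V 4) (hu : ‖u‖ = 1) :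
    ∃ c : ℝ, 0 ≤ c ∧ c ≤ 1 ∧ (gam 4).real A = (Real.arccos c - c * √(1 - c ^ 2)) / Real.pi ∧
      ∫ x in A, ⟪x, u⟫ ∂(gam 4) ≤ (√(1 - c ^ 2)) ^ 3 / √(2 * Real.pi) := by
  have hF1 : (Real.arcsin 1 + 1 * √(1 - 1 ^ 2)) / 2 = Real.pi / 4 := by
    rw [Real.arcsin_one]
    norm_num
    ring
  obtain ⟨c, h0, h1, h2, h3⟩ := cone_bound_gen 3 (by norm_num)
    (fun t => (Real.arcsin t + t * √(1 - t ^ 2)) / 2)
    (by have := Real.continuous_arcsin; fun_prop) (by simp)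
    (by rw [hF1]; positivity) (by
      intro t ht0 ht1
      have h1 : 0 < 1 - t ^ 2 := by nlinarith
      have hq : 0 < √(1 - t ^ 2) := Real.sqrt_pos.2 h1
      have hq2 : √(1 - t ^ 2) ^ 2 = 1 - t ^ 2 := Real.sq_sqrt h1.le
      have d1 := Real.hasDerivAt_arcsin (x := t) (by linarith) (by linarith)
      have d2 : HasDerivAt (fun t : ℝ => 1 - t ^ 2) (-(2 * t)) t := by
        simpa using (hasDerivAt_pow 2 t).const_sub 1
      have d3 := d2.sqrt h1.ne'
      have d4 := ((hasDerivAt_id t).mul d3)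
      have d5 := (d1.add d4).div_const 2
      convert! d5 using 1
      simp only [id]
      have e1 : √(1 - t ^ 2) ^ 3 / (1 - t ^ 2) = √(1 - t ^ 2) := by
        rw [pow_succ, hq2, mul_comm, mul_div_assoc, div_self h1.ne', mul_one]
      rw [e1]
      field_simp
      linear_combination hq2) A hA hcone hp u hu
  refine ⟨c, h0, h1, ?_, h3⟩
  rw [h2, hF1, Real.arccos]
  field_simp
  ring

theorem cone_bound_5 (A : Set (V 5)) (hA : MeasurableSet A)
    (hcone : ∀ x ∈ A, ∀ t : ℝ, 0 < t → t • x ∈ A) (hp : (gam 5).real A ≤ 1 / 2)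
    (u : V 5) (hu : ‖u‖ = 1) :
    ∃ c : ℝ, 0 ≤ c ∧ c ≤ 1 ∧ (gam 5).real A = 1 / 2 - 3 / 4 * c + 1 / 4 * c ^ 3 ∧
      ∫ x in A, ⟪x, u⟫ ∂(gam 5) ≤ (1 - c ^ 2) ^ 2 / √(2 * Real.pi) := by
  obtain ⟨c, h0, h1, h2, h3⟩ := cone_bound_gen 4 (by norm_num) (fun t => t - t ^ 3 / 3)
    (by fun_prop) (by norm_num) (by norm_num) (by
      intro t ht0 ht1
      have h1 : 0 < 1 - t ^ 2 := by nlinarith
      have h2 : √(1 - t ^ 2) ^ 4 / (1 - t ^ 2) = 1 - t ^ 2 := by
        have : √(1 - t ^ 2) ^ 4 = (√(1 - t ^ 2) ^ 2) ^ 2 := by ring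
        rw [this, Real.sq_sqrt h1.le]
        field_simp
      rw [h2]
      have d := (hasDerivAt_id t).sub ((hasDerivAt_pow 3 t).div_const 3)
      convert! d using 1
      norm_num) A hA hcone hp u hu
  refine ⟨c, h0, h1, ?_, ?_⟩
  · rw [h2]; norm_num; ring
  · have h4 : 0 ≤ 1 - c ^ 2 := by nlinarith
    have : √(1 - c ^ 2) ^ 4 = (√(1 - c ^ 2) ^ 2) ^ 2 := by ring
    rw [this, Real.sq_sqrt h4] at h3
    exact h3

theorem cone_bound_7 (A : Set (V 7)) (hA : MeasurableSet A)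
    (hcone : ∀ x ∈ A, ∀ t : ℝ, 0 < t → t • x ∈ A) (hp : (gam 7).real A ≤ 1 / 2)
    (u : V 7) (hu : ‖u‖ = 1) :
    ∃ c : ℝ, 0 ≤ c ∧ c ≤ 1 ∧
      (gam 7).real A = 1 / 2 - 15 / 16 * (c - 2 / 3 * c ^ 3 + 1 / 5 * c ^ 5) ∧
      ∫ x in A, ⟪x, u⟫ ∂(gam 7) ≤ (1 - c ^ 2) ^ 3 / √(2 * Real.pi) := by
  obtain ⟨c, h0, h1, h2, h3⟩ := cone_bound_gen 6 (by norm_num)
    (fun t => t - 2 * t ^ 3 / 3 + t ^ 5 / 5)
    (by fun_prop) (by norm_num) (by norm_num) (by
      intro t ht0 ht1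
      have h1 : 0 < 1 - t ^ 2 := by nlinarith
      have h2 : √(1 - t ^ 2) ^ 6 / (1 - t ^ 2) = (1 - t ^ 2) ^ 2 := by
        have : √(1 - t ^ 2) ^ 6 = (√(1 - t ^ 2) ^ 2) ^ 3 := by ring
        rw [this, Real.sq_sqrt h1.le]
        field_simp
      rw [h2]
      have d := ((hasDerivAt_id t).sub (((hasDerivAt_pow 3 t).const_mul 2).div_const 3)).add
        ((hasDerivAt_pow 5 t).div_const 5)
      convert! d using 1
      norm_num
      ring) A hA hcone hp u hu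
  refine ⟨c, h0, h1, ?_, ?_⟩
  · rw [h2]; norm_num; ring
  · have h4 : 0 ≤ 1 - c ^ 2 := by nlinarith
    have : √(1 - c ^ 2) ^ 6 = (√(1 - c ^ 2) ^ 2) ^ 3 := by ring
    rw [this, Real.sq_sqrt h4] at h3
    exact h3

end Crest.Agent.Prop334
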