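import Crest.Agent.Prop334.Defs

/-! Propeller inequality (S0334): the mean-max functional. -/

set_option autoImplicit false
set_option linter.unusedSectionVars false

open MeasureTheory ProbabilityTheory
open scoped RealInnerProductSpace

namespace Crest.Agent.Prop334

variable {n : ℕ} {ι : Type} [Fintype ι]

/-- pointwise maximum of the linear forms -/
noncomputable def mx (z : ι → V n) (x : V n) : ℝ := ⨆ i, ⟪x, z i⟫

/-- mean-max functional -/
noncomputable def hh (z : ι → V n) : ℝ := ∫ x, mx z x ∂(gam n)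

lemma le_mx (z : ι → V n) (x : V n) (i : ι) : ⟪x, z i⟫ ≤ mx z x :=
  le_ciSup (f := fun i => ⟪x, z i⟫) (Set.finite_range _).bddAbove i

lemma mx_le [Nonempty ι] {z : ι → V n} {x : V n} {b : ℝ} (h : ∀ i, ⟪x, z i⟫ ≤ b) : mx z x ≤ b :=
  ciSup_le h

lemma exists_mx [Nonempty ι] (z : ι → V n) (x : V n) : ∃ i, ⟪x, z i⟫ = mx z x :=
  exists_eq_ciSup_of_finite

lemma mx_empty [IsEmpty ι] (z : ι → V n) (x : V n) : mx z x = 0 := by
  simp [mx]

lemma hh_empty [IsEmpty ι] (z : ι → V n) : hh z = 0 := by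
  simp [hh, mx_empty]

lemma mx_eq_iff [Nonempty ι] {z : ι → V n} {x : V n} {i : ι} :
    mx z x = ⟪x, z i⟫ ↔ ∀ j, ⟪x, z j⟫ ≤ ⟪x, z i⟫ := by
  constructor
  · intro h j
    rw [← h]; exact le_mx z x j
  · intro h
    exact le_antisymm (mx_le h) (le_mx z x i)

lemma abs_mx_le (z : ι → V n) (x : V n) : |mx z x| ≤ ‖x‖ * ∑ i, ‖z i‖ := by
  rcases isEmpty_or_nonempty ι with h | h
  · simp [mx_empty]
  · obtain ⟨i, hi⟩ := exists_mx z x
    rw [← hi]
    refine (abs_real_inner_le_norm _ _).trans ?_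
    gcongr
    exact Finset.single_le_sum (f := fun i => ‖z i‖) (fun i _ => norm_nonneg _) (Finset.mem_univ i)

lemma abs_mx_sub_le (z z' : ι → V n) (x : V n) :
    |mx z x - mx z' x| ≤ ‖x‖ * ∑ i, ‖z i - z' i‖ := by
  rcases isEmpty_or_nonempty ι with h | h
  · simp [mx_empty]
  have key : ∀ (u w : ι → V n), mx u x ≤ mx w x + ‖x‖ * ∑ i, ‖u i - w i‖ := by
    intro u w
    refine mx_le fun i => ?_
    have h1 : ⟪x, u i⟫ = ⟪x, w i⟫ + ⟪x, u i - w i⟫ := by rw [inner_sub_right]; ring
    have h2 : ⟪x, u i - w i⟫ ≤ ‖x‖ * ‖u i - w i‖ := real_inner_le_norm _ _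
    have h3 : ‖u i - w i‖ ≤ ∑ i, ‖u i - w i‖ :=
      Finset.single_le_sum (f := fun i => ‖u i - w i‖) (fun i _ => norm_nonneg _)
        (Finset.mem_univ i)
    have h4 := le_mx w x i
    have h5 : ‖x‖ * ‖u i - w i‖ ≤ ‖x‖ * ∑ i, ‖u i - w i‖ := by gcongr
    linarith
  rw [abs_le]
  have h1 := key z z'
  have h2 := key z' z
  have h3 : ∑ i, ‖z' i - z i‖ = ∑ i, ‖z i - z' i‖ :=
    Finset.sum_congr rfl fun i _ => norm_sub_rev _ _
  rw [h3] at h2
  constructor <;> linarith

lemma continuous_mx (z : ι → V n) : Continuous (mx z) := by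
  rcases isEmpty_or_nonempty ι with h | h
  · have : mx z = fun _ => 0 := by ext x; exact mx_empty z x
    rw [this]; exact continuous_const
  have : mx z = fun x => Finset.univ.sup' Finset.univ_nonempty (fun i => ⟪x, z i⟫) := by
    ext x
    rw [Finset.sup'_univ_eq_ciSup]; rfl
  rw [this]
  exact Continuous.finset_sup'_apply _ (fun i _ => by fun_prop)

lemma measurable_mx (z : ι → V n) : Measurable (mx z) := (continuous_mx z).measurable

lemma integrable_norm' (n : ℕ) : Integrable (fun x : V n => ‖x‖) (gam n) :=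
  (IsGaussian.integrable_id (μ := gam n)).norm

lemma integrable_inner (y : V n) : Integrable (fun x : V n => ⟪x, y⟫) (gam n) := by
  have h := (IsGaussian.integrable_id (μ := gam n)).inner_const (𝕜 := ℝ) y
  simpa using h

lemma integrable_mx (z : ι → V n) : Integrable (mx z) (gam n) := by
  refine Integrable.mono' ((integrable_norm' n).mul_const (∑ i, ‖z i‖))
    (measurable_mx z).aestronglyMeasurable ?_
  filter_upwards with x
  rw [Real.norm_eq_abs]
  exact abs_mx_le z x

lemma integral_id_integrable (n : ℕ) : Integrable (fun x : V n => x) (gam n) :=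
  IsGaussian.integrable_id (μ := gam n)

lemma setIntegral_inner (A : Set (V n)) (y : V n) :
    ∫ x in A, ⟪x, y⟫ ∂(gam n) = ⟪∫ x in A, x ∂(gam n), y⟫ := by
  rw [real_inner_comm, ← integral_inner (𝕜 := ℝ) (integral_id_integrable n).integrableOn]
  simp only [real_inner_comm y]

lemma integral_inner_gam (y : V n) : ∫ x, ⟪x, y⟫ ∂(gam n) = 0 := by
  have h := setIntegral_inner Set.univ y
  rw [setIntegral_univ, setIntegral_univ, integral_id_stdGaussian] at h
  rw [h]; simp

lemma hh_sub_le (z z' : ι → V n) :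
    |hh z - hh z'| ≤ (∫ x, ‖x‖ ∂(gam n)) * ∑ i, ‖z i - z' i‖ := by
  unfold hh
  rw [← integral_sub (integrable_mx z) (integrable_mx z'), ← integral_mul_const]
  refine (abs_integral_le_integral_abs).trans ?_
  refine integral_mono ((integrable_mx z).sub (integrable_mx z')).abs
    ((integrable_norm' n).mul_const _) ?_
  intro x
  exact abs_mx_sub_le z z' x

lemma continuous_hh : Continuous (fun z : ι → V n => hh z) := by
  rw [Metric.continuous_iff]
  intro z ε hε
  set K := (∫ x, ‖x‖ ∂(gam n)) * (Fintype.card ι : ℝ) + 1 with hK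
  have hK0 : 0 < K := by
    have : 0 ≤ ∫ x, ‖x‖ ∂(gam n) := integral_nonneg fun _ => norm_nonneg _
    positivity
  refine ⟨ε / K, div_pos hε hK0, fun z' hz' => ?_⟩
  rw [Real.dist_eq]
  refine (hh_sub_le z' z).trans_lt ?_
  have h1 : ∑ i, ‖z' i - z i‖ ≤ (Fintype.card ι : ℝ) * dist z' z := by
    have : ∀ i ∈ Finset.univ, ‖z' i - z i‖ ≤ dist z' z := fun i _ => by
      rw [← dist_eq_norm]; exact dist_le_pi_dist z' z i
    refine (Finset.sum_le_sum this).trans ?_
    simp [Finset.card_univ]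
  have h0 : 0 ≤ ∫ x, ‖x‖ ∂(gam n) := integral_nonneg fun _ => norm_nonneg _
  calc (∫ x, ‖x‖ ∂(gam n)) * ∑ i, ‖z' i - z i‖
      ≤ (∫ x, ‖x‖ ∂(gam n)) * ((Fintype.card ι : ℝ) * dist z' z) := by gcongr
    _ ≤ K * dist z' z := by
        have : 0 ≤ dist z' z := dist_nonneg
        nlinarith
    _ < K * (ε / K) := by gcongr
    _ = ε := by field_simp

lemma mx_add_const [Nonempty ι] (z : ι → V n) (c x : V n) :
    mx (fun i => z i + c) x = mx z x + ⟪x, c⟫ := by
  apply le_antisymm
  · refine mx_le fun i => ?_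
    rw [inner_add_right]
    have := le_mx z x i
    linarith
  · have : mx z x ≤ mx (fun i => z i + c) x - ⟪x, c⟫ := by
      refine mx_le fun i => ?_
      have := le_mx (fun i => z i + c) x i
      simp only [inner_add_right] at this
      linarith
    linarith

lemma hh_add_const [Nonempty ι] (z : ι → V n) (c : V n) : hh (fun i => z i + c) = hh z := by
  unfold hh
  simp_rw [mx_add_const]
  rw [integral_add (integrable_mx z) (integrable_inner c), integral_inner_gam, add_zero]

lemma mx_smul (z : ι → V n) {a : ℝ} (ha : 0 ≤ a) (x : V n) :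
    mx (fun i => a • z i) x = a * mx z x := by
  unfold mx
  simp_rw [real_inner_smul_right]
  rw [Real.mul_iSup_of_nonneg ha]

lemma hh_smul (z : ι → V n) {a : ℝ} (ha : 0 ≤ a) : hh (fun i => a • z i) = a * hh z := by
  unfold hh
  simp_rw [mx_smul z ha]
  rw [integral_const_mul]

lemma hh_mono {κ : Type} [Fintype κ] [Nonempty ι] {z : ι → V n} {w : κ → V n}
    (h : ∀ i, ∃ j, w j = z i) : hh z ≤ hh w := by
  unfold hh
  refine integral_mono (integrable_mx z) (integrable_mx w) fun x => ?_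
  refine mx_le fun i => ?_
  obtain ⟨j, hj⟩ := h i
  rw [← hj]
  exact le_mx w x j

lemma hh_congr_range {κ : Type} [Fintype κ] [Nonempty ι] [Nonempty κ] {z : ι → V n} {w : κ → V n}
    (h : ∀ i, ∃ j, w j = z i) (h' : ∀ j, ∃ i, z i = w j) : hh z = hh w :=
  le_antisymm (hh_mono h) (hh_mono h')

lemma hh_nonneg (z : ι → V n) : 0 ≤ hh z := by
  rcases isEmpty_or_nonempty ι with h | h
  · rw [hh_empty]
  · obtain ⟨i⟩ := h
    rw [← integral_inner_gam (z i)]
    exact integral_mono (integrable_inner _) (integrable_mx z) fun x => le_mx z x i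

end Crest.Agent.Prop334
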