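import Crest.Agent.Prop334.Core9

/-! Propeller inequality (S0334): assembly of the induction step. -/

set_option autoImplicit false
set_option linter.unusedSectionVars false

open MeasureTheory ProbabilityTheory
open scoped RealInnerProductSpace

namespace Crest.Agent.Prop334

def HalfStatement : Prop :=
  ∀ (n : ℕ) (A : Set (V n)) (_ : MeasurableSet A) (u : V n) (_ : ‖u‖ = 1) (s : ℝ),
    ∫ x in A, ⟪x, u⟫ ∂(gam n) ≤ Real.exp (-s ^ 2 / 2) / √(2 * Real.pi)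
      + s * ((gam n).real A - (gaussianReal 0 1).real (Set.Ioi s))

/-- cap bound in dimension `n` with mass function `P` and moment function `W` -/
def CapStatement (n : ℕ) (P W : ℝ → ℝ) : Prop :=
  ∀ (A : Set (V n)) (_ : MeasurableSet A)
    (_ : ∀ x ∈ A, ∀ t : ℝ, 0 < t → t • x ∈ A) (_ : (gam n).real A ≤ 1 / 2)
    (u : V n) (_ : ‖u‖ = 1),
    ∃ c : ℝ, 0 ≤ c ∧ c ≤ 1 ∧ (gam n).real A = P c ∧
      ∫ x in A, ⟪x, u⟫ ∂(gam n) ≤ W c / √(2 * Real.pi)

/-- all the analytic and numerical parts -/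
structure Parts : Prop where
  pl : PLStatement
  tgi : TGIStatement
  half : HalfStatement
  cap3 : CapStatement 3 (fun c => (1 - c) / 2) (fun c => 1 - c ^ 2)
  cap4 : CapStatement 4 (fun c => (Real.arccos c - c * √(1 - c ^ 2)) / Real.pi)
    (fun c => (√(1 - c ^ 2)) ^ 3)
  cap5 : CapStatement 5 (fun c => 1 / 2 - 3 / 4 * c + 1 / 4 * c ^ 3) (fun c => (1 - c ^ 2) ^ 2)
  cap7 : CapStatement 7 (fun c => 1 / 2 - 15 / 16 * (c - 2 / 3 * c ^ 3 + 1 / 5 * c ^ 5))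
    (fun c => (1 - c ^ 2) ^ 3)
  reg4 : ∀ D : RegData 4 (216 / 1000),
    (∀ i, D.t i ≤ 8 / Real.pi * (D.p i) ^ 2 * (1 - D.p i) ^ 2) → False
  reg5 : ∀ D : RegData 5 (18 / 100), (∀ i, ∃ c : ℝ, 0 ≤ c ∧ c ≤ 1 ∧
      D.p i = (Real.arccos c - c * √(1 - c ^ 2)) / Real.pi ∧
      D.t i ≤ (1 - c ^ 2) ^ 3 / (2 * Real.pi)) → False
  reg6 : ∀ D : RegData 6 (164 / 1000), (∀ i, ∃ c : ℝ, 0 ≤ c ∧ c ≤ 1 ∧
      D.p i = 1 / 2 - 3 / 4 * c + 1 / 4 * c ^ 3 ∧
      D.t i ≤ (1 - c ^ 2) ^ 4 / (2 * Real.pi)) → False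
  reg78 : ∀ (k : ℕ) (_ : k = 7 ∨ k = 8) (D : RegData k (146 / 1000)),
    (∀ i, ∃ c : ℝ, 0 ≤ c ∧ c ≤ 1 ∧
      D.p i = 1 / 2 - 15 / 16 * (c - 2 / 3 * c ^ 3 + 1 / 5 * c ^ 5) ∧
      D.t i ≤ (1 - c ^ 2) ^ 6 / (2 * Real.pi)) → False
  reg9 : ∀ (k : ℕ) (_ : 9 ≤ k) (D : RegData k (11 / 100)),
    (∀ i, ∀ s : ℝ, √(D.t i) ≤ Real.exp (-s ^ 2 / 2) / √(2 * Real.pi)
      + s * (D.p i - (gaussianReal 0 1).real (Set.Ioi s))) → False

namespace Crit

variable {n k : ℕ} (c : Crit n k)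

lemma norm_le (hH : HalfStatement) (o : Fin k) (s : ℝ) :
    ‖c.z o‖ ≤ Real.exp (-s ^ 2 / 2) / √(2 * Real.pi)
      + s * (c.p o - (gaussianReal 0 1).real (Set.Ioi s)) := by
  obtain ⟨u, hu, hu'⟩ := c.exists_unit o
  rw [← hu']
  exact hH n _ (measurable_cellA c.z o) u hu s

lemma t_le_inv (hH : HalfStatement) (o : Fin k) : c.t o ≤ 1 / (2 * Real.pi) := by
  have h := c.norm_le hH o 0
  simp only [ne_eq, OfNat.ofNat_ne_zero, not_false_eq_true, zero_pow, neg_zero, zero_div,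
    Real.exp_zero, zero_mul, add_zero] at h
  have hpi := Real.pi_pos
  have h2 : ‖c.z o‖ ^ 2 ≤ (1 / √(2 * Real.pi)) ^ 2 := pow_le_pow_left₀ (norm_nonneg _) h 2
  rw [div_pow, one_pow, Real.sq_sqrt (by positivity)] at h2
  exact h2

/-- numerical data of a critical family -/
noncomputable def toReg (P : Parts) (η : ℝ) (hη : 0 < η) (hηπ : 2 * η < Real.pi)
    (hnum : (4 / 3 - (k : ℝ) / (2 * (k - 1))) ^ 4 * η < 128 / 59049 * (Real.pi - 2 * η) ^ 3) :
    RegData k η where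
  t := c.t
  p := c.p
  r := c.r
  tpos := c.t_pos
  ppos := c.p_pos
  rsymm := c.r_symm
  rpos := c.r_pos
  rsum := c.r_sum
  psum := c.p_sum
  tsum := c.tS
  tle := c.t_le_inv P.half
  PLb := c.t_le P.pl
  TG := fun _ _ _ _ hoa hob hod hab had hbd =>
    c.TG P.tgi (c.t_le_inv P.half) η hη hηπ hnum hoa hob hod hab had hbd

lemma cap {P W : ℝ → ℝ} (h : CapStatement n P W) (o : Fin k) (W2 : ℝ → ℝ)
    (hW : ∀ x, 0 ≤ x → x ≤ 1 → W x ^ 2 = W2 x) :
    ∃ x : ℝ, 0 ≤ x ∧ x ≤ 1 ∧ c.p o = P x ∧ c.t o ≤ W2 x / (2 * Real.pi) := by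
  obtain ⟨u, hu, hu'⟩ := c.exists_unit o
  obtain ⟨x, hx0, hx1, hxp, hxm⟩ := h _ (measurable_cellA c.z o) (c.cell_cone o)
    (c.p_le_half o) u hu
  rw [hu'] at hxm
  refine ⟨x, hx0, hx1, hxp, ?_⟩
  have hpi := Real.pi_pos
  have h2 : ‖c.z o‖ ^ 2 ≤ (W x / √(2 * Real.pi)) ^ 2 := pow_le_pow_left₀ (norm_nonneg _) hxm 2
  rw [div_pow, Real.sq_sqrt (by positivity), hW x hx0 hx1] at h2
  exact h2

end Crit

lemma num_of_ge {k : ℕ} {η q : ℝ} (hk : 4 / 3 - (k : ℝ) / (2 * (k - 1)) ≤ q)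
    (h0 : 0 ≤ 4 / 3 - (k : ℝ) / (2 * (k - 1))) (hη : 0 < η) (hη2 : 2 * η < 3.14)
    (h : q ^ 4 * η < 128 / 59049 * (3.14 - 2 * η) ^ 3) :
    (4 / 3 - (k : ℝ) / (2 * (k - 1))) ^ 4 * η < 128 / 59049 * (Real.pi - 2 * η) ^ 3 := by
  have hpi := Real.pi_gt_d2
  calc (4 / 3 - (k : ℝ) / (2 * (k - 1))) ^ 4 * η ≤ q ^ 4 * η := by gcongr
    _ < 128 / 59049 * (3.14 - 2 * η) ^ 3 := h
    _ ≤ 128 / 59049 * (Real.pi - 2 * η) ^ 3 := by
        have : 0 ≤ 3.14 - 2 * η := by linarith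
        gcongr

lemma no_crit (P : Parts) {k : ℕ} (n : ℕ) (hn : n = if k = 7 then 7 else k - 1)
    (c : Crit n k) : False := by
  have hk := c.hk
  have hpi := Real.pi_pos
  have hpi2 := Real.pi_gt_d2
  have hcases : k = 4 ∨ k = 5 ∨ k = 6 ∨ k = 7 ∨ k = 8 ∨ 9 ≤ k := by omega
  rcases hcases with rfl | rfl | rfl | rfl | rfl | h9
  · simp only [show (4 : ℕ) ≠ 7 by norm_num, if_false] at hn
    obtain rfl : n = 3 := by omega
    refine P.reg4 (c.toReg P _ (by norm_num) (by norm_num; linarith)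
      (num_of_ge (q := 2 / 3) (by norm_num) (by norm_num) (by norm_num) (by norm_num)
        (by norm_num))) fun i => ?_
    obtain ⟨x, hx0, hx1, hxp, hxt⟩ := c.cap P.cap3 i (fun x => (1 - x ^ 2) ^ 2)
      (fun x _ _ => rfl)
    change c.t i ≤ 8 / Real.pi * (c.p i) ^ 2 * (1 - c.p i) ^ 2
    refine hxt.trans (le_of_eq ?_)
    rw [hxp]
    field_simp
    ring
  · simp only [show (5 : ℕ) ≠ 7 by norm_num, if_false] at hn
    obtain rfl : n = 4 := by omega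
    refine P.reg5 (c.toReg P _ (by norm_num) (by norm_num; linarith)
      (num_of_ge (q := 17 / 24) (by norm_num) (by norm_num) (by norm_num) (by norm_num)
        (by norm_num))) fun i => ?_
    exact c.cap P.cap4 i (fun x => (1 - x ^ 2) ^ 3) (fun x h0 h1 => by
      have : 0 ≤ 1 - x ^ 2 := by nlinarith
      rw [← pow_mul, mul_comm 3 2, pow_mul, Real.sq_sqrt this])
  · simp only [show (6 : ℕ) ≠ 7 by norm_num, if_false] at hn
    obtain rfl : n = 5 := by omega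
    refine P.reg6 (c.toReg P _ (by norm_num) (by norm_num; linarith)
      (num_of_ge (q := 11 / 15) (by norm_num) (by norm_num) (by norm_num) (by norm_num)
        (by norm_num))) fun i => ?_
    exact c.cap P.cap5 i (fun x => (1 - x ^ 2) ^ 4) (fun x _ _ => by ring)
  · simp only [if_true] at hn
    subst hn
    refine P.reg78 7 (Or.inl rfl) (c.toReg P _ (by norm_num) (by norm_num; linarith)
      (num_of_ge (q := 3 / 4) (by norm_num) (by norm_num) (by norm_num) (by norm_num)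
        (by norm_num))) fun i => ?_
    exact c.cap P.cap7 i (fun x => (1 - x ^ 2) ^ 6) (fun x _ _ => by ring)
  · simp only [show (8 : ℕ) ≠ 7 by norm_num, if_false] at hn
    obtain rfl : n = 7 := by omega
    refine P.reg78 8 (Or.inr rfl) (c.toReg P _ (by norm_num) (by norm_num; linarith)
      (num_of_ge (q := 16 / 21) (by norm_num) (by norm_num) (by norm_num) (by norm_num)
        (by norm_num))) fun i => ?_
    exact c.cap P.cap7 i (fun x => (1 - x ^ 2) ^ 6) (fun x _ _ => by ring)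
  · have h9R : (9 : ℝ) ≤ k := by exact_mod_cast h9
    have hk1 : (0 : ℝ) < 2 * (k - 1) := by linarith
    refine P.reg9 k h9 (c.toReg P _ (by norm_num) (by norm_num; linarith)
      (num_of_ge (q := 5 / 6) ?_ ?_ (by norm_num) (by norm_num) (by norm_num))) fun i s => ?_
    · have : (1 : ℝ) / 2 ≤ (k : ℝ) / (2 * (k - 1)) := by
        rw [div_le_div_iff₀ (by norm_num) hk1]; linarith
      linarith
    · have : (k : ℝ) / (2 * (k - 1)) ≤ 4 / 3 := by
        rw [div_le_div_iff₀ hk1 (by norm_num)]; linarith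
      linarith
    · have h := c.norm_le P.half i s
      have e : √(c.t i) = ‖c.z i‖ := by
        unfold Crit.t; rw [Real.sqrt_sq (norm_nonneg _)]
      change √(c.t i) ≤ _
      rw [e]
      exact h

/-- Induction step. -/
lemma good_step (P : Parts) {k : ℕ} (hk : 4 ≤ k) (IH : Good (k - 1)) : Good k := by
  refine good_of_fin fun n z => ?_
  by_contra hcon
  push Not at hcon
  obtain ⟨w, hw1, hw2⟩ := exists_reduced' (by omega : 1 ≤ k) (if k = 7 then 7 else k - 1)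
    (by split_ifs <;> omega) z
  have hw3 : CC * √(∑ i, ‖w i‖ ^ 2) < hh w := by
    rw [hw1]
    refine lt_of_le_of_lt ?_ hcon
    have := CC_pos
    gcongr
  obtain ⟨z', h1, h2, h3⟩ := exists_critical w hw3
  exact no_crit P _ rfl
    { z := z', hk := hk, tS := h1, hc := h2, hm := h3, IH := IH }

end Crest.Agent.Prop334
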