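import Crest.Agent.Prop334.Core10

/-! Propeller inequality (S0334): base case and final reduction. -/

set_option autoImplicit false
set_option linter.unusedSectionVars false

open MeasureTheory ProbabilityTheory
open scoped RealInnerProductSpace

namespace Crest.Agent.Prop334

lemma abs_moment_std : ∫ y, |y| ∂(gaussianReal 0 1) = √(2 / Real.pi) := by
  rw [integral_gaussianReal_eq_integral_smul one_ne_zero]
  have h1 : ∀ x : ℝ, gaussianPDFReal 0 1 x • |x|
      = (√(2 * Real.pi))⁻¹ * (fun y => y * Real.exp (-(1 / 2) * y ^ 2)) |x| := by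
    intro x
    simp only [gaussianPDFReal, NNReal.coe_one, mul_one, sub_zero, smul_eq_mul, sq_abs]
    rw [show -x ^ 2 / 2 = -(1 / 2) * x ^ 2 by ring]
    ring
  simp_rw [h1]
  rw [integral_const_mul, integral_comp_abs (f := fun y => y * Real.exp (-(1 / 2) * y ^ 2))]
  have h2 := integral_rpow_mul_exp_neg_mul_rpow (p := 2) (q := 1) (b := 1 / 2) (by norm_num)
    (by norm_num) (by norm_num)
  have h3 : ∫ x in Set.Ioi (0 : ℝ), x * Real.exp (-(1 / 2) * x ^ 2) = 1 := by
    have : ∫ x in Set.Ioi (0 : ℝ), x * Real.exp (-(1 / 2) * x ^ 2)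
        = ∫ x in Set.Ioi (0 : ℝ), x ^ (1 : ℝ) * Real.exp (-(1 / 2) * x ^ (2 : ℝ)) := by
      refine setIntegral_congr_fun measurableSet_Ioi fun x _ => ?_
      simp
    rw [this, h2]
    norm_num
  rw [h3]
  have hpi := Real.pi_pos
  rw [Real.sqrt_div (by norm_num), Real.sqrt_mul (by norm_num)]
  have h4 : √2 * √2 = 2 := Real.mul_self_sqrt (by norm_num)
  have h5 : 0 < √Real.pi := Real.sqrt_pos.mpr hpi
  have h6 : 0 < √(2 : ℝ) := Real.sqrt_pos.mpr (by norm_num)
  field_simp
  nlinarith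

lemma abs_moment {n : ℕ} (w : V n) :
    ∫ x, |⟪x, w⟫| ∂(gam n) = √(2 / Real.pi) * ‖w‖ := by
  have h1 : ∫ x, |⟪x, w⟫| ∂(gam n) = ∫ y, |y| ∂((gam n).map (fun x => ⟪x, w⟫)) := by
    rw [integral_map (by fun_prop) (by fun_prop)]
  rw [h1, law_inner]
  have h2 : gaussianReal 0 (‖w‖ ^ 2).toNNReal = (gaussianReal 0 1).map (fun y => ‖w‖ * y) := by
    rw [gaussianReal_map_const_mul]
    congr 1
    · simp
    · ext
      simp
  rw [h2, integral_map (by fun_prop) (by fun_prop)]
  simp_rw [abs_mul, abs_norm]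
  rw [integral_const_mul, abs_moment_std]
  ring

lemma hh_neg {n : ℕ} {ι : Type} [Fintype ι] (z : ι → V n) : hh (fun i => - z i) = hh z := by
  apply hh_eq_of_gram
  intro i j
  simp

lemma good_three : Good 3 := by
  refine good_of_fin fun n z => ?_
  have h1 : hh z = (1 / 2) * ∫ x, (mx z x + mx (fun i => - z i) x) ∂(gam n) := by
    rw [integral_add (integrable_mx _) (integrable_mx _)]
    have : ∫ x, mx (fun i => - z i) x ∂(gam n) = hh z := hh_neg z
    rw [this]
    unfold hh; ring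
  set F : V n → ℝ := fun x => (1 / 2) * (|⟪x, z 0 - z 1⟫| + |⟪x, z 1 - z 2⟫| + |⟪x, z 0 - z 2⟫|)
    with hF
  have hFi : Integrable F (gam n) :=
    ((((integrable_inner _).abs).add ((integrable_inner _).abs)).add
      ((integrable_inner _).abs)).const_mul _
  have h2 : ∫ x, (mx z x + mx (fun i => - z i) x) ∂(gam n) ≤ ∫ x, F x ∂(gam n) := by
    refine integral_mono ((integrable_mx _).add (integrable_mx _)) hFi fun x => ?_
    obtain ⟨i, hi⟩ := exists_mx z x
    obtain ⟨j, hj⟩ := exists_mx (fun i => - z i) x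
    simp only [hF]
    rw [← hi, ← hj]
    simp only [inner_neg_right, inner_sub_right]
    have e1 := abs_le.mp (le_refl |⟪x, z 0⟫ - ⟪x, z 1⟫|)
    have e2 := abs_le.mp (le_refl |⟪x, z 1⟫ - ⟪x, z 2⟫|)
    have e3 := abs_le.mp (le_refl |⟪x, z 0⟫ - ⟪x, z 2⟫|)
    obtain ⟨e11, e12⟩ := e1
    obtain ⟨e21, e22⟩ := e2
    obtain ⟨e31, e32⟩ := e3
    fin_cases i <;> fin_cases j <;> simp only [Fin.isValue, Fin.zero_eta, Fin.mk_one,
      Fin.reduceFinMk] <;> linarith
  have h3 : ∫ x, F x ∂(gam n) = (1 / 2) * √(2 / Real.pi)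
      * (‖z 0 - z 1‖ + ‖z 1 - z 2‖ + ‖z 0 - z 2‖) := by
    simp only [hF]
    rw [integral_const_mul, integral_add, integral_add, abs_moment, abs_moment, abs_moment]
    · ring
    · exact (integrable_inner _).abs
    · exact (integrable_inner _).abs
    · exact ((integrable_inner _).abs).add ((integrable_inner _).abs)
    · exact (integrable_inner _).abs
  set N := ∑ i, ‖z i‖ ^ 2 with hN
  have hN0 : 0 ≤ N := Finset.sum_nonneg fun _ _ => by positivity
  have h4 : ‖z 0 - z 1‖ ^ 2 + ‖z 1 - z 2‖ ^ 2 + ‖z 0 - z 2‖ ^ 2 ≤ 3 * N := by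
    have e : 0 ≤ ‖z 0 + z 1 + z 2‖ ^ 2 := by positivity
    rw [hN, Fin.sum_univ_three]
    simp only [← real_inner_self_eq_norm_sq, inner_add_left, inner_add_right, inner_sub_left,
      inner_sub_right] at e ⊢
    have c1 := real_inner_comm (z 0) (z 1)
    have c2 := real_inner_comm (z 0) (z 2)
    have c3 := real_inner_comm (z 1) (z 2)
    linarith
  have h5 : ‖z 0 - z 1‖ + ‖z 1 - z 2‖ + ‖z 0 - z 2‖ ≤ 3 * √N := by
    have e := Real.sq_sqrt hN0
    have e0 := Real.sqrt_nonneg N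
    refine abs_le_of_sq_le_sq' ?_ (by positivity) |>.2
    nlinarith [sq_nonneg (‖z 0 - z 1‖ - ‖z 1 - z 2‖), sq_nonneg (‖z 1 - z 2‖ - ‖z 0 - z 2‖),
      sq_nonneg (‖z 0 - z 1‖ - ‖z 0 - z 2‖)]
  have hCC : CC = 3 / 4 * √(2 / Real.pi) := by
    have hpi := Real.pi_pos
    rw [CC]
    rw [show 9 / (8 * Real.pi) = (3 / 4) ^ 2 * (2 / Real.pi) by field_simp; norm_num]
    rw [Real.sqrt_mul (by norm_num), Real.sqrt_sq (by norm_num)]
  rw [h1, hCC]
  have h6 : 0 ≤ √(2 / Real.pi) := Real.sqrt_nonneg _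
  calc (1 / 2) * ∫ x, (mx z x + mx (fun i => - z i) x) ∂(gam n)
      ≤ (1 / 2) * ((1 / 2) * √(2 / Real.pi) * (‖z 0 - z 1‖ + ‖z 1 - z 2‖ + ‖z 0 - z 2‖)) := by
        rw [← h3]; gcongr
    _ ≤ (1 / 2) * ((1 / 2) * √(2 / Real.pi) * (3 * √N)) := by gcongr
    _ = 3 / 4 * √(2 / Real.pi) * √N := by ring

theorem good_all (P : Parts) (k : ℕ) : Good k := by
  induction k with
  | zero => exact good_three.mono (by norm_num)
  | succ k ih =>
    by_cases hk : 4 ≤ k + 1
    · exact good_step P hk (by simpa using ih)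
    · exact good_three.mono (by omega)

/-- partitions of `V n` -/
lemma partition_bound (P : Parts) {n k : ℕ} (A : Fin k → Set (V n))
    (hA : ∀ i, MeasurableSet (A i)) (hdisj : Pairwise fun i j => Disjoint (A i) (A j))
    (hcov : ⋃ i, A i = Set.univ) :
    ∑ i, ‖∫ x in A i, x ∂(gam n)‖ ^ 2 ≤ 9 / (8 * Real.pi) := by
  set m : Fin k → V n := fun i => ∫ x in A i, x ∂(gam n) with hm
  set Q := ∑ i, ‖m i‖ ^ 2 with hQ
  have hQ0 : 0 ≤ Q := Finset.sum_nonneg fun _ _ => by positivity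
  have h1 : Q ≤ hh m := by
    unfold hh
    have e1 : ∫ x, mx m x ∂(gam n) = ∑ i, ∫ x in A i, mx m x ∂(gam n) := by
      rw [← integral_iUnion_fintype hA hdisj (fun i => (integrable_mx m).integrableOn), hcov,
        setIntegral_univ]
    rw [e1, hQ]
    refine Finset.sum_le_sum fun i _ => ?_
    rw [← real_inner_self_eq_norm_sq]
    have e2 : ⟪m i, m i⟫ = ∫ x in A i, ⟪x, m i⟫ ∂(gam n) := (setIntegral_inner (A i) (m i)).symm
    rw [e2]
    exact setIntegral_mono (integrable_inner _).integrableOn (integrable_mx m).integrableOn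
      fun x => le_mx m x i
  have h2 : Q ≤ CC * √Q := h1.trans (good_all P k n (Fin k) (by simp) m)
  have hC := CC_pos
  have hs := Real.sq_sqrt hQ0
  have h6 : √Q ≤ CC := by
    by_contra hcon
    push Not at hcon
    have : 0 < √Q := hC.trans hcon
    nlinarith
  rw [← CC_sq, ← hs]
  exact pow_le_pow_left₀ (Real.sqrt_nonneg _) h6 2

universe u v

theorem main (P : Parts) (E : Type u) [NormedAddCommGroup E] [InnerProductSpace ℝ E]
    [FiniteDimensional ℝ E] [MeasurableSpace E] [BorelSpace E]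
    (ι : Type v) [Fintype ι] (A : ι → Set E)
    (hA : ∀ i, MeasurableSet (A i))
    (hdisj : Pairwise fun i j => Disjoint (A i) (A j))
    (hcov : ⋃ i, A i = Set.univ) :
    ∑ i, ‖∫ x in A i, x ∂stdGaussian E‖ ^ 2 ≤ 9 / (8 * Real.pi) := by
  classical
  set n := Module.finrank ℝ E with hn
  let e : E ≃ₗᵢ[ℝ] V n := (stdOrthonormalBasis ℝ E).repr
  have hmap : (stdGaussian E).map e = gam n := stdGaussian_map e
  have hem : Measurable e := e.continuous.measurable
  let σ : ι ≃ Fin (Fintype.card ι) := Fintype.equivFin ι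
  let B : Fin (Fintype.card ι) → Set (V n) := fun i => e.symm ⁻¹' (A (σ.symm i))
  have hB : ∀ i, MeasurableSet (B i) := fun i => e.symm.continuous.measurable (hA _)
  have hBd : Pairwise fun i j => Disjoint (B i) (B j) := by
    intro i j hij
    exact Disjoint.preimage _ (hdisj (fun h => hij (σ.symm.injective h)))
  have hBc : ⋃ i, B i = Set.univ := by
    rw [Set.eq_univ_iff_forall]
    intro y
    have : e.symm y ∈ ⋃ i, A i := by rw [hcov]; trivial
    obtain ⟨i, hi⟩ := Set.mem_iUnion.mp this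
    refine Set.mem_iUnion.mpr ⟨σ i, ?_⟩
    change e.symm y ∈ A (σ.symm (σ i))
    rwa [Equiv.symm_apply_apply]
  have key := partition_bound P B hB hBd hBc
  have hterm : ∀ i : ι, ‖∫ x in A i, x ∂stdGaussian E‖ = ‖∫ y in B (σ i), y ∂(gam n)‖ := by
    intro i
    have h1 : ∫ y in B (σ i), y ∂(gam n) = e (∫ x in A i, x ∂stdGaussian E) := by
      rw [← hmap, setIntegral_map (hB _) (by fun_prop) hem.aemeasurable]
      have h2 : e ⁻¹' (B (σ i)) = A i := by
        ext x
        change e.symm (e x) ∈ A (σ.symm (σ i)) ↔ x ∈ A i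
        rw [Equiv.symm_apply_apply, LinearIsometryEquiv.symm_apply_apply]
      rw [h2]
      exact ContinuousLinearMap.integral_comp_comm e.toContinuousLinearEquiv.toContinuousLinearMap
        (IsGaussian.integrable_id (μ := stdGaussian E)).integrableOn
    rw [h1, LinearIsometryEquiv.norm_map]
  simp_rw [hterm]
  rw [σ.sum_comp (fun i => ‖∫ y in B i, y ∂(gam n)‖ ^ 2)]
  exact key

end Crest.Agent.Prop334
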