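import Crest.Agent.Prop334.Core1

/-! Propeller inequality (S0334): Gram invariance, reductions. -/

set_option autoImplicit false
set_option linter.unusedSectionVars false

open MeasureTheory ProbabilityTheory
open scoped RealInnerProductSpace

namespace Crest.Agent.Prop334

variable {n m : ℕ} {ι : Type} [Fintype ι]

noncomputable def ev (z : ι → V n) (x : V n) : EuclideanSpace ℝ ι :=
  WithLp.toLp 2 (fun i => ⟪x, z i⟫)

lemma continuous_ev (z : ι → V n) : Continuous (ev z) := by
  unfold ev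
  exact (PiLp.continuous_toLp 2 (fun _ : ι => ℝ)).comp (continuous_pi fun i => by fun_prop)

lemma inner_ev (z : ι → V n) (x : V n) (t : EuclideanSpace ℝ ι) :
    ⟪ev z x, t⟫ = ⟪x, ∑ i, t i • z i⟫ := by
  rw [inner_sum, PiLp.inner_apply (𝕜 := ℝ) (ev z x) t]
  refine Finset.sum_congr rfl fun i _ => ?_
  rw [real_inner_smul_right, RCLike.inner_apply, conj_trivial]
  rfl

lemma map_ev_eq {z : ι → V n} {z' : ι → V m} (h : ∀ i j, ⟪z i, z j⟫ = ⟪z' i, z' j⟫) :
    (gam n).map (ev z) = (gam m).map (ev z') := by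
  have : IsProbabilityMeasure ((gam n).map (ev z)) :=
    Measure.isProbabilityMeasure_map (continuous_ev z).measurable.aemeasurable
  have : IsProbabilityMeasure ((gam m).map (ev z')) :=
    Measure.isProbabilityMeasure_map (continuous_ev z').measurable.aemeasurable
  have key : ∀ {l : ℕ} (w : ι → V l) (t : EuclideanSpace ℝ ι),
      charFun ((gam l).map (ev w)) t = Complex.exp (- ‖∑ i, t i • w i‖ ^ 2 / 2) := by
    intro l w t
    rw [← charFun_stdGaussian, charFun_apply, charFun_apply,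
      integral_map (continuous_ev w).measurable.aemeasurable (by fun_prop)]
    simp_rw [inner_ev]
  apply Measure.ext_of_charFun
  ext t
  rw [key, key]
  congr 3
  norm_cast
  rw [← real_inner_self_eq_norm_sq, ← real_inner_self_eq_norm_sq]
  simp only [inner_sum, sum_inner, real_inner_smul_left, real_inner_smul_right, h]

lemma mx_eq_ev (z : ι → V n) (x : V n) : mx z x = ⨆ i, (ev z x) i := rfl

lemma hh_eq_of_gram {z : ι → V n} {z' : ι → V m} (h : ∀ i j, ⟪z i, z j⟫ = ⟪z' i, z' j⟫) :
    hh z = hh z' := by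
  rcases isEmpty_or_nonempty ι with hι | hι
  · rw [hh_empty, hh_empty]
  have hc : Continuous (fun y : EuclideanSpace ℝ ι => ⨆ i, y i) := by
    have : (fun y : EuclideanSpace ℝ ι => ⨆ i, y i)
        = fun y => Finset.univ.sup' Finset.univ_nonempty (fun i => y i) := by
      ext x
      rw [Finset.sup'_univ_eq_ciSup]
    rw [this]
    exact Continuous.finset_sup'_apply _ (fun i _ => by fun_prop)
  have key : ∀ {l : ℕ} (w : ι → V l), hh w = ∫ y, (⨆ i, y i) ∂((gam l).map (ev w)) := by
    intro l w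
    rw [integral_map (continuous_ev w).measurable.aemeasurable hc.aestronglyMeasurable]
    rfl
  rw [key, key, map_ev_eq h]

/-- the constant `3 / √(8π)` -/
noncomputable def CC : ℝ := √(9 / (8 * Real.pi))

lemma CC_pos : 0 < CC := Real.sqrt_pos.mpr (by positivity)

lemma CC_sq : CC ^ 2 = 9 / (8 * Real.pi) := Real.sq_sqrt (by positivity)

/-- The inequality for all families with at most `m` members. -/
def Good (k : ℕ) : Prop :=
  ∀ (n : ℕ) (ι : Type) [Fintype ι], Fintype.card ι ≤ k → ∀ z : ι → V n,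
    hh z ≤ CC * √(∑ i, ‖z i‖ ^ 2)

/-- extension by zero -/
lemma good_of_fin {k : ℕ} (h : ∀ (n : ℕ) (z : Fin k → V n), hh z ≤ CC * √(∑ i, ‖z i‖ ^ 2)) :
    Good k := by
  intro n ι _ hcard z
  classical
  rcases isEmpty_or_nonempty ι with hι | hι
  · rw [hh_empty]; have := CC_pos; positivity
  -- embedding of ι into Fin k
  have e : ι ↪ Fin k := (Fintype.equivFin ι).toEmbedding.trans (Fin.castLEEmb hcard)
  set w : Fin k → V n := fun j => if hj : ∃ i, e i = j then z hj.choose else 0 with hw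
  have hwe : ∀ i, w (e i) = z i := by
    intro i
    have hex : ∃ i', e i' = e i := ⟨i, rfl⟩
    simp only [hw]
    rw [dif_pos hex]
    congr 1
    exact e.injective hex.choose_spec
  have h1 : hh z ≤ hh w := hh_mono fun i => ⟨e i, hwe i⟩
  have h2 : ∑ j, ‖w j‖ ^ 2 = ∑ i, ‖z i‖ ^ 2 := by
    have h3 : ∑ i, ‖z i‖ ^ 2 = ∑ j ∈ Finset.univ.map e, ‖w j‖ ^ 2 := by
      rw [Finset.sum_map]
      exact Finset.sum_congr rfl fun i _ => by rw [hwe]
    rw [h3]
    symm
    apply Finset.sum_subset (Finset.subset_univ _)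
    intro j _ hj
    have : ¬ ∃ i, e i = j := by
      rintro ⟨i, hi⟩
      exact hj (by rw [← hi]; simp)
    simp only [hw]
    rw [dif_neg this]
    simp
  rw [← h2]
  exact h1.trans (h n w)

lemma Good.mono {k l : ℕ} (h : Good k) (hl : l ≤ k) : Good l :=
  fun n ι _ hc z => h n ι (hc.trans hl) z

/-- the sum of squares decreases under centering -/
lemma sum_sq_sub_mean {z : ι → V n} (c : V n) (hc : (Fintype.card ι : ℝ) • c = ∑ i, z i) :
    ∑ i, ‖z i - c‖ ^ 2 = ∑ i, ‖z i‖ ^ 2 - (Fintype.card ι : ℝ) * ‖c‖ ^ 2 := by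
  have h1 : ∀ i, ‖z i - c‖ ^ 2 = ‖z i‖ ^ 2 - 2 * ⟪z i, c⟫ + ‖c‖ ^ 2 := fun i => by
    rw [@norm_sub_sq ℝ]; simp
  simp_rw [h1]
  rw [Finset.sum_add_distrib, Finset.sum_sub_distrib, ← Finset.mul_sum, ← sum_inner, ← hc,
    real_inner_smul_left, real_inner_self_eq_norm_sq]
  simp [Finset.card_univ]
  ring

end Crest.Agent.Prop334
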