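import Crest.Agent.Prop334.Core2

/-! Propeller inequality (S0334): dimension reduction, existence of a maximiser. -/

set_option autoImplicit false
set_option linter.unusedSectionVars false

open MeasureTheory ProbabilityTheory
open scoped RealInnerProductSpace

namespace Crest.Agent.Prop334

/-- Move a centred family of `k` vectors to dimension `k-1`. -/
lemma exists_reduced {n k : ℕ} (hk : 1 ≤ k) (m : ℕ) (hm : k - 1 ≤ m) (y : Fin k → V n)
    (hy : ∑ i, y i = 0) :
    ∃ w : Fin k → V m, ∀ i j, ⟪w i, w j⟫ = ⟪y i, y j⟫ := by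
  classical
  set F : Submodule ℝ (V n) := Submodule.span ℝ (Set.range y) with hF
  have hfin : Module.finrank ℝ F ≤ m := by
    refine le_trans ?_ hm
    obtain ⟨k', rfl⟩ : ∃ k', k = k' + 1 := ⟨k - 1, by omega⟩
    have hF' : F = Submodule.span ℝ (Set.range fun i : Fin k' => y i.castSucc) := by
      apply le_antisymm
      · rw [hF, Submodule.span_le]
        rintro _ ⟨i, rfl⟩
        rcases Fin.eq_castSucc_or_eq_last i with ⟨j, rfl⟩ | rfl
        · exact Submodule.subset_span ⟨j, rfl⟩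
        · rw [Fin.sum_univ_castSucc] at hy
          have : y (Fin.last k') = - ∑ i : Fin k', y i.castSucc := by
            rw [eq_neg_iff_add_eq_zero, add_comm]; exact hy
          rw [this]
          exact Submodule.neg_mem _ (Submodule.sum_mem _ fun i _ => Submodule.subset_span ⟨i, rfl⟩)
      · apply Submodule.span_mono
        rintro _ ⟨i, rfl⟩
        exact ⟨i.castSucc, rfl⟩
    rw [hF']
    refine (finrank_range_le_card (R := ℝ) (fun i : Fin k' => y i.castSucc)).trans ?_
    simp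
  set d := Module.finrank ℝ F with hd
  let b := stdOrthonormalBasis ℝ F
  have hmem : ∀ i, y i ∈ F := fun i => Submodule.subset_span ⟨i, rfl⟩
  let v : Fin d → V m := fun j => EuclideanSpace.single (Fin.castLE hfin j) (1 : ℝ)
  have hv : Orthonormal ℝ v :=
    (EuclideanSpace.orthonormal_single (𝕜 := ℝ) (ι := Fin m)).comp _
      (Fin.castLE_injective hfin)
  refine ⟨fun i => ∑ j, (b.repr ⟨y i, hmem i⟩ j) • v j, fun i j => ?_⟩
  rw [Orthonormal.inner_sum hv]
  have h1 : ⟪y i, y j⟫ = ⟪b.repr ⟨y i, hmem i⟩, b.repr ⟨y j, hmem j⟩⟫ := by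
    rw [LinearIsometryEquiv.inner_map_map]
    rfl
  rw [h1, PiLp.inner_apply]
  refine Finset.sum_congr rfl fun l _ => ?_
  rw [RCLike.inner_apply, conj_trivial, mul_comm]

lemma exists_reduced' {n k : ℕ} (hk : 1 ≤ k) (m : ℕ) (hm : k - 1 ≤ m) (z : Fin k → V n) :
    ∃ w : Fin k → V m, hh w = hh z ∧ ∑ i, ‖w i‖ ^ 2 ≤ ∑ i, ‖z i‖ ^ 2 := by
  have : Nonempty (Fin k) := ⟨⟨0, by omega⟩⟩
  have hk0 : (k : ℝ) ≠ 0 := by positivity
  set c : V n := (k : ℝ)⁻¹ • ∑ i, z i with hc
  have hc' : (Fintype.card (Fin k) : ℝ) • c = ∑ i, z i := by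
    rw [Fintype.card_fin, hc, smul_smul, mul_inv_cancel₀ hk0, one_smul]
  obtain ⟨w, hw⟩ := exists_reduced hk m hm (fun i => z i - c) (by
    rw [Finset.sum_sub_distrib, ← hc']
    simp [Finset.card_univ, Nat.cast_smul_eq_nsmul])
  refine ⟨w, ?_, ?_⟩
  · rw [hh_eq_of_gram hw]
    have := hh_add_const z (-c)
    simpa [sub_eq_add_neg] using this
  · have h1 : ∑ i, ‖w i‖ ^ 2 = ∑ i, ‖z i - c‖ ^ 2 := by
      refine Finset.sum_congr rfl fun i _ => ?_
      rw [← real_inner_self_eq_norm_sq, hw, real_inner_self_eq_norm_sq]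
    rw [h1, sum_sq_sub_mean c hc']
    have : 0 ≤ (Fintype.card (Fin k) : ℝ) * ‖c‖ ^ 2 := by positivity
    linarith

/-- Existence of a maximiser of `hh / ‖·‖`, suitably scaled. -/
lemma exists_critical {n k : ℕ} (z0 : Fin k → V n) (h0 : CC * √(∑ i, ‖z0 i‖ ^ 2) < hh z0) :
    ∃ z : Fin k → V n, 9 / (8 * Real.pi) < ∑ i, ‖z i‖ ^ 2 ∧ hh z = ∑ i, ‖z i‖ ^ 2 ∧
      ∀ y : Fin k → V n, hh y ≤ √(∑ i, ‖z i‖ ^ 2) * √(∑ i, ‖y i‖ ^ 2) := by
  classical
  set N : (Fin k → V n) → ℝ := fun z => ∑ i, ‖z i‖ ^ 2 with hN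
  have hNc : Continuous N := by fun_prop
  have hN0 : ∀ z, 0 ≤ N z := fun z => Finset.sum_nonneg fun i _ => by positivity
  have hNs : ∀ (a : ℝ) z, N (fun i => a • z i) = a ^ 2 * N z := by
    intro a z
    simp only [hN, norm_smul, mul_pow, Finset.mul_sum, Real.norm_eq_abs, sq_abs]
  set K : Set (Fin k → V n) := {z | N z = 1} with hK
  have hKc : IsCompact K := by
    apply Metric.isCompact_of_isClosed_isBounded
    · exact isClosed_eq hNc continuous_const
    · refine (Metric.isBounded_closedBall (x := (0 : Fin k → V n)) (r := 1)).subset ?_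
      intro z hz
      rw [mem_closedBall_zero_iff, pi_norm_le_iff_of_nonneg zero_le_one]
      intro i
      have h1 : ‖z i‖ ^ 2 ≤ N z :=
        Finset.single_le_sum (f := fun i => ‖z i‖ ^ 2) (fun i _ => by positivity)
          (Finset.mem_univ i)
      rw [show N z = 1 from hz] at h1
      nlinarith [norm_nonneg (z i)]
  have hz0 : 0 < N z0 := by
    rcases (hN0 z0).lt_or_eq with h | h
    · exact h
    · exfalso
      have h1 : ∀ i, z0 i = 0 := by
        intro i
        have h2 : ‖z0 i‖ ^ 2 ≤ N z0 :=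
          Finset.single_le_sum (f := fun i => ‖z0 i‖ ^ 2) (fun i _ => by positivity)
            (Finset.mem_univ i)
        rw [← h] at h2
        have h3 : ‖z0 i‖ = 0 := by nlinarith [norm_nonneg (z0 i)]
        exact norm_eq_zero.mp h3
      have h2 : hh z0 = 0 := by
        have : z0 = fun i => (0 : ℝ) • z0 i := by ext i : 1; rw [h1 i]; simp
        rw [this, hh_smul _ le_rfl, zero_mul]
      rw [h2] at h0
      have := CC_pos
      have : 0 ≤ CC * √(∑ i, ‖z0 i‖ ^ 2) := by positivity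
      linarith
  have hsq : ∀ z, 0 < N z → N (fun i => (√(N z))⁻¹ • z i) = 1 := by
    intro z hz
    rw [hNs, inv_pow, Real.sq_sqrt hz.le, inv_mul_cancel₀ hz.ne']
  have hKne : K.Nonempty := ⟨_, hsq z0 hz0⟩
  obtain ⟨z1, hz1K, hz1max⟩ := hKc.exists_isMaxOn hKne (continuous_hh (n := n)).continuousOn
  set M := hh z1 with hM
  -- homogeneous form of the bound
  have hbound : ∀ y, hh y ≤ M * √(N y) := by
    intro y
    rcases (hN0 y).lt_or_eq with h | h
    · have h1 := hz1max (hsq y h)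
      change hh _ ≤ hh z1 at h1
      rw [hh_smul _ (by positivity)] at h1
      have hs : 0 < √(N y) := Real.sqrt_pos.mpr h
      rw [inv_mul_le_iff₀ hs] at h1
      rw [mul_comm]; exact h1
    · have h1 : ∀ i, y i = 0 := by
        intro i
        have h2 : ‖y i‖ ^ 2 ≤ N y :=
          Finset.single_le_sum (f := fun i => ‖y i‖ ^ 2) (fun i _ => by positivity)
            (Finset.mem_univ i)
        rw [← h] at h2
        have h3 : ‖y i‖ = 0 := by nlinarith [norm_nonneg (y i)]
        exact norm_eq_zero.mp h3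
      have h2 : hh y = 0 := by
        have : y = fun i => (0 : ℝ) • y i := by ext i : 1; rw [h1 i]; simp
        rw [this, hh_smul _ le_rfl, zero_mul]
      rw [h2, ← h]; simp
  have hCM : CC < M := by
    have h1 := hbound z0
    have hs : 0 < √(N z0) := Real.sqrt_pos.mpr hz0
    have h2 : CC * √(N z0) < M * √(N z0) := lt_of_lt_of_le h0 h1
    exact lt_of_mul_lt_mul_right h2 hs.le
  have hMpos : 0 < M := CC_pos.trans hCM
  have hNz : N (fun i => M • z1 i) = M ^ 2 := by
    rw [hNs, show N z1 = 1 from hz1K, mul_one]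
  refine ⟨fun i => M • z1 i, ?_, ?_, ?_⟩
  · change 9 / (8 * Real.pi) < N (fun i => M • z1 i)
    rw [hNz, ← CC_sq]
    have := CC_pos
    nlinarith
  · change _ = N (fun i => M • z1 i)
    rw [hNz, hh_smul _ hMpos.le]
    ring
  · intro y
    change _ ≤ √(N (fun i => M • z1 i)) * √(N y)
    rw [hNz, Real.sqrt_sq hMpos.le]
    exact hbound y

end Crest.Agent.Prop334
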