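import Crest.Agent.Prop334.Core3

/-! Propeller inequality (S0334): cells of a critical family. -/

set_option autoImplicit false
set_option linter.unusedSectionVars false

open MeasureTheory ProbabilityTheory
open scoped RealInnerProductSpace

namespace Crest.Agent.Prop334

variable {n : ℕ}

lemma law_inner (w : V n) :
    (gam n).map (fun x => ⟪x, w⟫) = gaussianReal 0 (‖w‖ ^ 2).toNNReal := by
  have h := IsGaussian.map_eq_gaussianReal (μ := gam n) (InnerProductSpace.toDual ℝ (V n) w)
  rw [integral_strongDual_stdGaussian, variance_dual_stdGaussian] at h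
  have h2 : (fun x : V n => ⟪x, w⟫) = ⇑(InnerProductSpace.toDual ℝ (V n) w) := by
    ext x
    rw [InnerProductSpace.toDual_apply_apply, real_inner_comm]
  rw [h2, h]
  simp

lemma hyperplane_null {w : V n} (hw : w ≠ 0) : gam n {x | ⟪x, w⟫ = 0} = 0 := by
  have h1 : {x : V n | ⟪x, w⟫ = 0} = (fun x => ⟪x, w⟫) ⁻¹' {0} := rfl
  rw [h1, ← Measure.map_apply (by fun_prop) (measurableSet_singleton _), law_inner]
  have hv : (‖w‖ ^ 2).toNNReal ≠ 0 := by
    have : 0 < ‖w‖ := norm_pos_iff.mpr hw
    simpa using hw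
  have := nullSingletonClass_gaussianReal (μ := 0) hv
  exact measure_singleton _

section cells

variable {k : ℕ} (z : Fin k → V n)

/-- tie-broken cells -/
def cellB (i : Fin k) : Set (V n) :=
  {x | (∀ j, ⟪x, z j⟫ ≤ ⟪x, z i⟫) ∧ ∀ j, j < i → ⟪x, z j⟫ < ⟪x, z i⟫}

/-- closed cells -/
def cellA (i : Fin k) : Set (V n) := {x | ∀ j, ⟪x, z j⟫ ≤ ⟪x, z i⟫}

lemma measurable_cellA (i : Fin k) : MeasurableSet (cellA z i) := by
  have : cellA z i = ⋂ j, {x | ⟪x, z j⟫ ≤ ⟪x, z i⟫} := by ext x; simp [cellA]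
  rw [this]
  exact MeasurableSet.iInter fun j => measurableSet_le (by fun_prop) (by fun_prop)

lemma measurable_cellB (i : Fin k) : MeasurableSet (cellB z i) := by
  have : cellB z i = cellA z i ∩ ⋂ j, ⋂ (_ : j < i), {x | ⟪x, z j⟫ < ⟪x, z i⟫} := by
    ext x; simp [cellA, cellB]
  rw [this]
  exact (measurable_cellA z i).inter (MeasurableSet.iInter fun j => MeasurableSet.iInter fun _ =>
    measurableSet_lt (by fun_prop) (by fun_prop))

lemma cellB_subset (i : Fin k) : cellB z i ⊆ cellA z i := fun _ hx => hx.1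

lemma cellB_disj : Pairwise (Function.onFun Disjoint (cellB z)) := by
  intro i j hij
  rw [Function.onFun, Set.disjoint_left]
  intro x hi hj
  rcases lt_or_gt_of_ne hij with h | h
  · have := hj.2 i h
    have := hi.1 j
    linarith
  · have := hi.2 j h
    have := hj.1 i
    linarith

lemma cellB_cover [Nonempty (Fin k)] : ⋃ i, cellB z i = Set.univ := by
  classical
  rw [Set.eq_univ_iff_forall]
  intro x
  obtain ⟨i0, hi0⟩ := exists_mx z x
  set s : Finset (Fin k) := Finset.univ.filter (fun i => ⟪x, z i⟫ = mx z x) with hs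
  have hne : s.Nonempty := ⟨i0, by simp [hs, hi0]⟩
  set i := s.min' hne with hi
  have his : i ∈ s := s.min'_mem hne
  have hix : ⟪x, z i⟫ = mx z x := by simpa [hs] using his
  rw [Set.mem_iUnion]
  refine ⟨i, fun j => by rw [hix]; exact le_mx z x j, fun j hj => ?_⟩
  refine lt_of_le_of_ne (by rw [hix]; exact le_mx z x j) fun heq => ?_
  have hjs : j ∈ s := by simp only [hs, Finset.mem_filter, Finset.mem_univ, true_and]; rw [heq, hix]
  exact absurd (s.min'_le j hjs) (not_le.mpr hj)

lemma integral_cells [Nonempty (Fin k)] {f : V n → ℝ} (hf : Integrable f (gam n)) :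
    ∫ x, f x ∂(gam n) = ∑ i, ∫ x in cellB z i, f x ∂(gam n) := by
  rw [← integral_iUnion_fintype (fun i => measurable_cellB z i) (cellB_disj z)
    (fun i => hf.integrableOn), cellB_cover z, setIntegral_univ]

lemma sum_measure_cellB [Nonempty (Fin k)] : ∑ i, (gam n).real (cellB z i) = 1 := by
  have h := integral_cells z (integrable_const (1 : ℝ) (μ := gam n))
  simpa using h.symm

/-- first moments of the tie-broken cells -/
noncomputable def mom (i : Fin k) : V n := ∫ x in cellB z i, x ∂(gam n)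

lemma sum_inner_mom_le [Nonempty (Fin k)] (y : Fin k → V n) :
    ∑ i, ⟪mom z i, y i⟫ ≤ hh y := by
  unfold hh
  rw [integral_cells z (integrable_mx y)]
  refine Finset.sum_le_sum fun i _ => ?_
  rw [mom, ← setIntegral_inner]
  exact setIntegral_mono (integrable_inner _).integrableOn (integrable_mx y).integrableOn
    fun x => le_mx y x i

lemma sum_inner_mom_self [Nonempty (Fin k)] : ∑ i, ⟪mom z i, z i⟫ = hh z := by
  unfold hh
  rw [integral_cells z (integrable_mx z)]
  refine Finset.sum_congr rfl fun i _ => ?_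
  rw [mom, ← setIntegral_inner]
  refine setIntegral_congr_fun (measurable_cellB z i) fun x hx => ?_
  exact (mx_eq_iff.mpr hx.1).symm

/-- critical families are their own moments -/
lemma mom_eq [Nonempty (Fin k)] (hc : hh z = ∑ i, ‖z i‖ ^ 2)
    (hm : ∀ y : Fin k → V n, hh y ≤ √(∑ i, ‖z i‖ ^ 2) * √(∑ i, ‖y i‖ ^ 2)) (i : Fin k) :
    mom z i = z i := by
  set S := ∑ i, ‖z i‖ ^ 2 with hS
  set Q := ∑ i, ‖mom z i‖ ^ 2 with hQ
  have hS0 : 0 ≤ S := Finset.sum_nonneg fun i _ => by positivity
  have hQ0 : 0 ≤ Q := Finset.sum_nonneg fun i _ => by positivity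
  have h1 : Q ≤ √S * √Q := by
    refine le_trans ?_ (hm (mom z))
    refine le_trans (le_of_eq ?_) (sum_inner_mom_le z (mom z))
    refine Finset.sum_congr rfl fun i _ => ?_
    rw [real_inner_self_eq_norm_sq]
  have h2 : Q ≤ S := by
    have hs := Real.sq_sqrt hS0
    have hq := Real.sq_sqrt hQ0
    have h3 : √Q ≤ √S := by
      by_contra hcon
      push Not at hcon
      have : 0 < √Q := lt_of_le_of_lt (Real.sqrt_nonneg _) hcon
      nlinarith
    calc Q = √Q ^ 2 := hq.symm
      _ ≤ √S ^ 2 := by gcongr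
      _ = S := hs
  have h3 : ∑ i, ‖z i - mom z i‖ ^ 2 = S - 2 * hh z + Q := by
    rw [← sum_inner_mom_self z, Finset.mul_sum, hS, hQ, ← Finset.sum_sub_distrib,
      ← Finset.sum_add_distrib]
    refine Finset.sum_congr rfl fun i _ => ?_
    rw [@norm_sub_sq ℝ, real_inner_comm]
    simp
  have h4 : ∑ i, ‖z i - mom z i‖ ^ 2 ≤ 0 := by rw [h3, hc]; linarith
  have h5 : ‖z i - mom z i‖ ^ 2 ≤ 0 :=
    (Finset.single_le_sum (f := fun i => ‖z i - mom z i‖ ^ 2) (fun i _ => by positivity)
      (Finset.mem_univ i)).trans h4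
  have h6 : ‖z i - mom z i‖ = 0 := by nlinarith [norm_nonneg (z i - mom z i)]
  have := sub_eq_zero.mp (norm_eq_zero.mp h6)
  exact this.symm

end cells

end Crest.Agent.Prop334
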