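import Crest.Agent.Prop334.Core4

/-! Propeller inequality (S0334): structure of critical families. -/

set_option autoImplicit false
set_option linter.unusedSectionVars false

open MeasureTheory ProbabilityTheory
open scoped RealInnerProductSpace

namespace Crest.Agent.Prop334

/-- a critical family violating the bound, minimal in the number of cells -/
structure Crit (n k : ℕ) where
  z : Fin k → V n
  hk : 4 ≤ k
  tS : 9 / (8 * Real.pi) < ∑ i, ‖z i‖ ^ 2
  hc : hh z = ∑ i, ‖z i‖ ^ 2
  hm : ∀ y : Fin k → V n, hh y ≤ √(∑ i, ‖z i‖ ^ 2) * √(∑ i, ‖y i‖ ^ 2)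
  IH : Good (k - 1)

namespace Crit

variable {n k : ℕ} (c : Crit n k)

include c

lemma ne : Nonempty (Fin k) := ⟨⟨0, by have := c.hk; omega⟩⟩

lemma momz (i : Fin k) : ∫ x in cellB c.z i, x ∂(gam n) = c.z i := by
  have := c.ne
  exact mom_eq c.z c.hc c.hm i

lemma IHs (s : Finset (Fin k)) (hs : s.card ≤ k - 1) (y : Fin k → V n) :
    hh (fun i : s => y i) ≤ CC * √(∑ i ∈ s, ‖y i‖ ^ 2) := by
  have h := c.IH n s (by simpa using hs) (fun i => y i)
  rwa [Finset.sum_coe_sort s (fun i => ‖y i‖ ^ 2)] at h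

lemma sum_zero : ∑ i, c.z i = 0 := by
  have := c.ne
  have h : ∫ x, x ∂(gam n) = ∑ i, ∫ x in cellB c.z i, x ∂(gam n) := by
    rw [← integral_iUnion_fintype (fun i => measurable_cellB c.z i) (cellB_disj c.z)
      (fun i => (integral_id_integrable n).integrableOn), cellB_cover c.z, setIntegral_univ]
  rw [integral_id_stdGaussian] at h
  rw [h]
  exact Finset.sum_congr rfl fun i _ => (c.momz i).symm

lemma neg {i j : Fin k} (hij : i ≠ j) : ⟪c.z i, c.z j⟫ < 0 := by
  classical
  have := c.ne
  have hk := c.hk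
  set z := c.z with hz
  set S := ∑ i, ‖z i‖ ^ 2 with hS
  set a := ⟪z i, z j⟫ with ha
  set y : Fin k → V n := fun l => if l = i ∨ l = j then z i + z j else z l with hy
  have hyi : y i = z i + z j := by simp [hy]
  have hyj : y j = z i + z j := by simp [hy]
  have h1 : S + 2 * a ≤ hh y := by
    refine le_trans (le_of_eq ?_) (sum_inner_mom_le z y)
    have : ∀ l, ⟪mom z l, y l⟫ = ‖z l‖ ^ 2 + (if l = i then a else 0) + (if l = j then a else 0) := by
      intro l
      rw [show mom z l = z l from c.momz l]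
      by_cases h1 : l = i
      · subst h1
        rw [hyi, inner_add_right, real_inner_self_eq_norm_sq, if_pos rfl, if_neg hij, ha]
        ring
      · by_cases h2 : l = j
        · subst h2
          rw [hyj, inner_add_right, real_inner_self_eq_norm_sq, if_neg h1, if_pos rfl, ha,
            real_inner_comm]
          ring
        · simp only [hy, h1, h2, or_self, if_false, real_inner_self_eq_norm_sq]
          ring
    simp_rw [this]
    rw [Finset.sum_add_distrib, Finset.sum_add_distrib]
    simp only [Finset.sum_ite_eq', Finset.mem_univ, if_true]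
    ring
  have h2 : hh y ≤ hh (fun l : (Finset.univ.erase j : Finset (Fin k)) => y l) := by
    refine hh_mono fun l => ?_
    by_cases h : l = j
    · refine ⟨⟨i, by simp [hij]⟩, ?_⟩
      simp only
      rw [hyi, h, hyj]
    · exact ⟨⟨l, by simp [h]⟩, rfl⟩
  have h3 := c.IHs (Finset.univ.erase j) (by simp [Finset.card_erase_of_mem]) y
  have h4 : ∑ l ∈ Finset.univ.erase j, ‖y l‖ ^ 2 = S + 2 * a := by
    have h5 : ∑ l ∈ Finset.univ.erase j, ‖y l‖ ^ 2
        = ∑ l, (‖z l‖ ^ 2 + (if l = i then ‖z j‖ ^ 2 + 2 * a else 0)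
          + (if l = j then - ‖z j‖ ^ 2 else 0)) := by
      rw [← Finset.add_sum_erase Finset.univ (fun l => (‖z l‖ ^ 2
        + (if l = i then ‖z j‖ ^ 2 + 2 * a else 0) + (if l = j then - ‖z j‖ ^ 2 else 0)))
        (Finset.mem_univ j)]
      simp only [if_true, hij.symm, if_false]
      rw [show ‖z j‖ ^ 2 + 0 + -‖z j‖ ^ 2 = 0 by ring, zero_add]
      refine Finset.sum_congr rfl fun l hl => ?_
      have hlj : l ≠ j := Finset.ne_of_mem_erase hl
      by_cases h1 : l = i
      · rw [if_pos h1, if_neg hlj, h1, hyi, @norm_add_sq ℝ, ha]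
        simp only [RCLike.re_to_real]
        ring
      · simp only [hy, h1, hlj, or_self, if_false]
        ring
    rw [h5, Finset.sum_add_distrib, Finset.sum_add_distrib]
    simp only [Finset.sum_ite_eq', Finset.mem_univ, if_true]
    ring
  rw [h4] at h3
  have hQ : S + 2 * a ≤ CC * √(S + 2 * a) := h1.trans (h2.trans h3)
  have hQ0 : 0 ≤ S + 2 * a := by
    rw [← h4]; exact Finset.sum_nonneg fun _ _ => by positivity
  have hC := CC_pos
  have hs := Real.sq_sqrt hQ0
  have h6 : √(S + 2 * a) ≤ CC := by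
    by_contra hcon
    push Not at hcon
    have : 0 < √(S + 2 * a) := hC.trans hcon
    nlinarith
  have h7 : S + 2 * a ≤ CC ^ 2 := by
    rw [← hs]; exact pow_le_pow_left₀ (Real.sqrt_nonneg _) h6 2
  rw [CC_sq] at h7
  have := c.tS
  linarith

lemma ne_of_ne {i j : Fin k} (hij : i ≠ j) : c.z i - c.z j ≠ 0 := by
  intro h
  have h1 := c.neg hij
  rw [sub_eq_zero.mp h, real_inner_self_eq_norm_sq] at h1
  nlinarith [sq_nonneg ‖c.z j‖]

lemma z_ne (i : Fin k) : c.z i ≠ 0 := by
  intro h
  have hk := c.hk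
  obtain ⟨j, hj⟩ : ∃ j : Fin k, j ≠ i := by
    have : Nontrivial (Fin k) := Fin.nontrivial_iff_two_le.mpr (by omega)
    exact exists_ne i
  have h1 := c.neg hj
  rw [h] at h1
  simp at h1

lemma t_pos (i : Fin k) : 0 < ‖c.z i‖ ^ 2 := by
  have := norm_pos_iff.mpr (c.z_ne i)
  positivity

lemma cell_ae (i : Fin k) : cellB c.z i =ᵐ[gam n] cellA c.z i := by
  have hnull : gam n (⋃ j ∈ {j : Fin k | j ≠ i}, {x | ⟪x, c.z i - c.z j⟫ = 0}) = 0 := by
    rw [measure_biUnion_null_iff (Set.to_countable _)]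
    intro j hj
    exact hyperplane_null (c.ne_of_ne (Ne.symm hj))
  have h1 : cellA c.z i ≤ᵐ[gam n] cellB c.z i := by
    rw [ae_le_set]
    refine measure_mono_null ?_ hnull
    rintro x ⟨hxA, hxB⟩
    simp only [cellB, Set.mem_ofPred_eq, not_and, not_forall, not_lt] at hxB
    obtain ⟨j, hji, hj⟩ := hxB hxA
    simp only [Set.mem_iUnion]
    refine ⟨j, (ne_of_lt hji), ?_⟩
    change ⟪x, c.z i - c.z j⟫ = 0
    rw [inner_sub_right]
    have := hxA j
    linarith
  exact Filter.EventuallyLE.antisymm (LE.le.eventuallyLE (cellB_subset c.z i)) h1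

lemma mean (i : Fin k) : ∫ x in cellA c.z i, x ∂(gam n) = c.z i := by
  rw [← setIntegral_congr_set (c.cell_ae i)]
  exact c.momz i

/-- cell probabilities -/
noncomputable def p (i : Fin k) : ℝ := (gam n).real (cellA c.z i)

lemma p_sum : ∑ i, c.p i = 1 := by
  have := c.ne
  rw [← sum_measure_cellB c.z]
  refine Finset.sum_congr rfl fun i _ => ?_
  exact (measureReal_congr (c.cell_ae i)).symm

lemma p_pos (i : Fin k) : 0 < c.p i := by
  have h0 : 0 ≤ c.p i := measureReal_nonneg
  rcases h0.lt_or_eq with h | h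
  · exact h
  · exfalso
    have h1 : gam n (cellA c.z i) = 0 := by
      have := h.symm
      rwa [p, measureReal_eq_zero_iff] at this
    have h2 := c.mean i
    rw [Measure.restrict_eq_zero.mpr h1, integral_zero_measure] at h2
    exact c.z_ne i h2.symm

end Crit

end Crest.Agent.Prop334
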