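import Crest.Agent.Prop334.Core5

/-! Propeller inequality (S0334): removal inequality, cone facts. -/

set_option autoImplicit false
set_option linter.unusedSectionVars false

open MeasureTheory ProbabilityTheory
open scoped RealInnerProductSpace

namespace Crest.Agent.Prop334

namespace Crit

variable {n k : ℕ} (c : Crit n k)

include c

/-- the family without the member `o` -/
noncomputable def rest (o : Fin k) : ↥(Finset.univ.erase o : Finset (Fin k)) → V n :=
  fun i => c.z i

/-- mass gained by the cell `o` -/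
noncomputable def del (o : Fin k) : ℝ :=
  ∫ x in cellA c.z o, (⟪x, c.z o⟫ - mx (c.rest o) x) ∂(gam n)

lemma kR : (4 : ℝ) ≤ k := by exact_mod_cast c.hk

lemma rest_ne (o : Fin k) : Nonempty (Finset.univ.erase o : Finset (Fin k)) := by
  have hk := c.hk
  have : Nontrivial (Fin k) := Fin.nontrivial_iff_two_le.mpr (by omega)
  obtain ⟨j, hj⟩ := exists_ne o
  exact ⟨⟨j, by simp [hj]⟩⟩

lemma card_rest (o : Fin k) :
    (Fintype.card (Finset.univ.erase o : Finset (Fin k)) : ℝ) = k - 1 := by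
  have hk := c.hk
  rw [Fintype.card_coe, Finset.card_erase_of_mem (Finset.mem_univ o), Finset.card_univ,
    Fintype.card_fin, Nat.cast_sub (by omega)]
  simp

lemma hh_sub_rest (o : Fin k) : hh c.z - hh (c.rest o) = c.del o := by
  have := c.ne
  have := c.rest_ne o
  unfold hh del
  rw [← integral_sub (integrable_mx _) (integrable_mx _)]
  rw [← setIntegral_eq_integral_of_forall_compl_eq_zero (s := cellA c.z o)]
  · refine setIntegral_congr_fun (measurable_cellA c.z o) fun x hx => ?_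
    rw [mx_eq_iff.mpr hx]
  · intro x hx
    have : ∃ j, ⟪x, c.z o⟫ < ⟪x, c.z j⟫ := by
      by_contra hcon
      push Not at hcon
      exact hx hcon
    obtain ⟨j, hj⟩ := this
    have hjo : j ≠ o := by rintro rfl; exact lt_irrefl _ hj
    rw [sub_eq_zero]
    apply le_antisymm
    · refine mx_le fun i => ?_
      by_cases hi : i = o
      · subst hi
        exact hj.le.trans (le_mx (c.rest i) x ⟨j, by simp [hjo]⟩)
      · exact le_mx (c.rest o) x ⟨i, by simp [hi]⟩
    · exact mx_le fun i => le_mx c.z x i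

lemma sum_rest (o : Fin k) : ∑ i : (Finset.univ.erase o : Finset (Fin k)), c.z i = - c.z o := by
  rw [Finset.sum_coe_sort (Finset.univ.erase o) (fun i => c.z i)]
  have h := Finset.add_sum_erase Finset.univ c.z (Finset.mem_univ o)
  rw [c.sum_zero] at h
  rw [eq_neg_iff_add_eq_zero, add_comm]
  exact h

lemma removal (o : Fin k) : (k : ℝ) / (k - 1) / 2 * ‖c.z o‖ ^ 2 ≤ c.del o := by
  have hne := c.ne
  have := c.rest_ne o
  have hk := c.kR
  have hk1 : (0 : ℝ) < k - 1 := by linarith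
  set S := ∑ i, ‖c.z i‖ ^ 2 with hS
  set cc : V n := (-((k : ℝ) - 1)⁻¹) • c.z o with hcc
  have hmean : (Fintype.card (Finset.univ.erase o : Finset (Fin k)) : ℝ) • cc
      = ∑ i, c.rest o i := by
    rw [c.card_rest o, hcc, smul_smul]
    rw [show ((k : ℝ) - 1) * -((k : ℝ) - 1)⁻¹ = -1 by field_simp]
    rw [neg_one_smul]
    exact (c.sum_rest o).symm
  have h1 := sum_sq_sub_mean cc hmean
  have h2 : ∑ i, ‖c.rest o i‖ ^ 2 = S - ‖c.z o‖ ^ 2 := by
    have : ∑ i, ‖c.rest o i‖ ^ 2 = ∑ i ∈ Finset.univ.erase o, ‖c.z i‖ ^ 2 :=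
      Finset.sum_coe_sort (Finset.univ.erase o) (fun i => ‖c.z i‖ ^ 2)
    rw [this, hS, ← Finset.add_sum_erase Finset.univ (fun i => ‖c.z i‖ ^ 2) (Finset.mem_univ o)]
    ring
  have h3 : ‖cc‖ ^ 2 = ‖c.z o‖ ^ 2 / ((k : ℝ) - 1) ^ 2 := by
    rw [hcc, norm_smul, mul_pow, Real.norm_eq_abs, sq_abs]
    field_simp
  have h4 : ∑ i, ‖c.rest o i - cc‖ ^ 2 = S - (k : ℝ) / (k - 1) * ‖c.z o‖ ^ 2 := by
    rw [h1, h2, h3, c.card_rest o]
    field_simp
    ring
  set A := (k : ℝ) / (k - 1) * ‖c.z o‖ ^ 2 with hA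
  have h5 : hh (c.rest o) ≤ CC * √(S - A) := by
    have h6 : hh (c.rest o) = hh (fun i => c.rest o i + (-cc)) := (hh_add_const _ _).symm
    rw [h6]
    have h7 := c.IH n _ (by
      rw [Fintype.card_coe, Finset.card_erase_of_mem (Finset.mem_univ o), Finset.card_univ,
        Fintype.card_fin]) (fun i => c.rest o i + (-cc))
    refine h7.trans (le_of_eq ?_)
    rw [← h4]
    simp only [sub_eq_add_neg]
  have hSA : 0 ≤ S - A := by rw [← h4]; exact Finset.sum_nonneg fun _ _ => by positivity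
  have hS0 : 0 ≤ S := Finset.sum_nonneg fun _ _ => by positivity
  have h8 : CC ≤ √S := by
    rw [CC]; exact Real.sqrt_le_sqrt c.tS.le
  have h9 : hh (c.rest o) ≤ S - A / 2 := by
    have h10 : CC * √(S - A) ≤ √S * √(S - A) := by gcongr
    have h11 : √S * √(S - A) ≤ S - A / 2 := by
      have e1 := Real.sq_sqrt hS0
      have e2 := Real.sq_sqrt hSA
      nlinarith [sq_nonneg (√S - √(S - A))]
    linarith
  have h12 := c.hh_sub_rest o
  rw [c.hc] at h12
  have h13 : (k : ℝ) / (k - 1) / 2 * ‖c.z o‖ ^ 2 = A / 2 := by rw [hA]; ring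
  rw [h13]
  linarith

lemma cell_cone (o : Fin k) : ∀ x ∈ cellA c.z o, ∀ t : ℝ, 0 < t → t • x ∈ cellA c.z o := by
  intro x hx t ht j
  rw [real_inner_smul_left, real_inner_smul_left]
  exact mul_le_mul_of_nonneg_left (hx j) ht.le

lemma neg_map : (gam n).map (fun x : V n => -x) = gam n :=
  stdGaussian_map (LinearIsometryEquiv.neg ℝ (E := V n))

lemma p_le_half (o : Fin k) : c.p o ≤ 1 / 2 := by
  have hk := c.hk
  have : Nontrivial (Fin k) := Fin.nontrivial_iff_two_le.mpr (by omega)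
  obtain ⟨j, hj⟩ := exists_ne o
  set w := c.z o - c.z j with hw
  have hw0 : w ≠ 0 := c.ne_of_ne hj.symm
  set H : Set (V n) := {x | 0 ≤ ⟪x, w⟫} with hH
  set H' : Set (V n) := {x | 0 < ⟪x, w⟫} with hH'
  have hHm : MeasurableSet H := measurableSet_le (by fun_prop) (by fun_prop)
  have hHm' : MeasurableSet H' := measurableSet_lt (by fun_prop) (by fun_prop)
  have h1 : c.p o ≤ (gam n).real H := by
    refine measureReal_mono ?_
    intro x hx
    change 0 ≤ ⟪x, c.z o - c.z j⟫
    rw [inner_sub_right]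
    have := hx j
    linarith
  have h2 : (gam n).real H = (gam n).real H' := by
    refine measureReal_congr ?_
    have : H' ≤ᵐ[gam n] H := LE.le.eventuallyLE (fun x (hx : 0 < ⟪x, w⟫) => show 0 ≤ ⟪x, w⟫ from hx.le)
    refine Filter.EventuallyLE.antisymm ?_ this
    rw [ae_le_set]
    refine measure_mono_null ?_ (hyperplane_null hw0)
    rintro x ⟨hx1, hx2⟩
    have e1 : 0 ≤ ⟪x, w⟫ := hx1
    have e2 : ¬ 0 < ⟪x, w⟫ := hx2
    change ⟪x, w⟫ = 0
    linarith
  have h3 : (gam n).real H' = (gam n).real Hᶜ := by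
    have e1 : (gam n) H' = ((gam n).map (fun x : V n => -x)) H' := by rw [c.neg_map]
    rw [Measure.map_apply (by fun_prop) hHm'] at e1
    have e2 : (fun x : V n => -x) ⁻¹' H' = Hᶜ := by
      ext x
      simp [hH', hH]
    rw [e2] at e1
    simp only [Measure.real, e1]
  have h4 : (gam n).real Hᶜ = 1 - (gam n).real H := by
    rw [measureReal_compl hHm]; simp
  linarith

lemma mean_inner (o : Fin k) (y : V n) :
    ∫ x in cellA c.z o, ⟪x, y⟫ ∂(gam n) = ⟪c.z o, y⟫ := by
  rw [setIntegral_inner, c.mean o]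

/-- unit vector in direction `z o` -/
lemma exists_unit (o : Fin k) : ∃ u : V n, ‖u‖ = 1 ∧
    ∫ x in cellA c.z o, ⟪x, u⟫ ∂(gam n) = ‖c.z o‖ := by
  have h := norm_pos_iff.mpr (c.z_ne o)
  refine ⟨‖c.z o‖⁻¹ • c.z o, ?_, ?_⟩
  · rw [norm_smul, norm_inv, norm_norm, inv_mul_cancel₀ h.ne']
  · rw [c.mean_inner, real_inner_smul_right, real_inner_self_eq_norm_sq]
    field_simp

end Crit

end Crest.Agent.Prop334
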