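import Crest.Agent.Prop334.Core6

/-! Propeller inequality (S0334): the dual vector and the bound `t ≤ 2 p^2`. -/

set_option autoImplicit false
set_option linter.unusedSectionVars false

open MeasureTheory ProbabilityTheory
open scoped RealInnerProductSpace

namespace Crest.Agent.Prop334

/-- statement of the Prékopa–Leindler part -/
def PLStatement : Prop :=
  ∀ (n : ℕ) (ι : Type) [Fintype ι] [Nonempty ι] (w : ι → V n) (v : V n)
    (_ : ∀ j, ⟪v, w j⟫ = 1) (T : V n → ℝ) (_ : ∀ x, T x = ⨅ j, ⟪x, w j⟫),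
    (∫ x in {x | 0 ≤ T x}, T x ∂(gam n)) * (∫ x in {x | 0 ≤ T x}, ⟪x, v⟫ ∂(gam n))
      ≤ ((gam n).real {x | 0 ≤ T x}) ^ 2

namespace Crit

variable {n k : ℕ} (c : Crit n k)

include c

lemma coeff_const (a : Fin k → ℝ) (h : ∑ i, a i • c.z i = 0) (i j : Fin k) : a i = a j := by
  classical
  have hne := c.ne
  obtain ⟨m, -, hm⟩ := Finset.exists_max_image Finset.univ a Finset.univ_nonempty
  have key : ∀ l, a l = a m := by
    have h1 : ∑ i, (a m - a i) * (-⟪c.z i, c.z m⟫) = 0 := by
      have e1 : ⟪∑ i, a i • c.z i, c.z m⟫ = 0 := by rw [h, inner_zero_left]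
      have e2 : ⟪∑ i, c.z i, c.z m⟫ = 0 := by rw [c.sum_zero, inner_zero_left]
      rw [sum_inner] at e1 e2
      simp_rw [real_inner_smul_left] at e1
      have : ∑ i, (a m - a i) * (-⟪c.z i, c.z m⟫)
          = ∑ i, a i * ⟪c.z i, c.z m⟫ - a m * ∑ i, ⟪c.z i, c.z m⟫ := by
        rw [Finset.mul_sum, ← Finset.sum_sub_distrib]
        exact Finset.sum_congr rfl fun i _ => by ring
      rw [this, e1, e2]; ring
    have h2 : ∀ i ∈ Finset.univ, 0 ≤ (a m - a i) * (-⟪c.z i, c.z m⟫) := by
      intro i _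
      by_cases him : i = m
      · subst him; simp
      · have e1 := c.neg him
        have e2 := hm i (Finset.mem_univ i)
        exact mul_nonneg (by linarith) (by linarith)
    have h3 := (Finset.sum_eq_zero_iff_of_nonneg h2).mp h1
    intro l
    by_cases hl : l = m
    · rw [hl]
    · have e1 := h3 l (Finset.mem_univ l)
      have e2 := c.neg hl
      rcases mul_eq_zero.mp e1 with e | e
      · linarith
      · linarith
  rw [key i, key j]

lemma exists_dual (o : Fin k) : ∃ v : V n, (∀ j, j ≠ o → ⟪v, c.z o - c.z j⟫ = 1) ∧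
    ⟪c.z o, v⟫ = ((k : ℝ) - 1) / k := by
  classical
  have hk := c.kR
  set s : Finset (Fin k) := Finset.univ.erase o with hs
  -- the linear map a ↦ ∑ a_j z_j
  let L : (s → ℝ) →ₗ[ℝ] V n :=
    { toFun := fun a => ∑ j, a j • c.z j
      map_add' := by intro a b; simp [add_smul, Finset.sum_add_distrib]
      map_smul' := by intro r a; simp [Finset.smul_sum, mul_smul] }
  have hL : LinearMap.ker L = ⊥ := by
    rw [LinearMap.ker_eq_bot']
    intro a ha
    set b : Fin k → ℝ := fun i => if hi : i ∈ s then a ⟨i, hi⟩ else 0 with hb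
    have hb0 : ∑ i, b i • c.z i = 0 := by
      rw [← Finset.add_sum_erase Finset.univ (fun i => b i • c.z i) (Finset.mem_univ o)]
      have e1 : b o = 0 := by simp [hb, hs]
      rw [e1, zero_smul, zero_add]
      have e2 : ∑ i ∈ Finset.univ.erase o, b i • c.z i = ∑ i : s, b i • c.z i :=
        (Finset.sum_coe_sort s (fun i => b i • c.z i)).symm
      rw [e2]
      have e3 : ∀ i : s, b i = a i := by
        intro i
        simp only [hb]
        rw [dif_pos i.2]
      simp_rw [e3]
      exact ha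
    ext i
    have e1 : b i = b o := c.coeff_const b hb0 i o
    have e2 : b o = 0 := by simp [hb, hs]
    have e3 : b i = a i := by
      simp only [hb]
      rw [dif_pos i.2]
    rw [← e3, e1, e2]; rfl
  obtain ⟨g, hg⟩ := LinearMap.exists_leftInverse_of_injective L hL
  -- functional
  let f : V n →ₗ[ℝ] ℝ :=
    { toFun := fun x => - ((k : ℝ)⁻¹) * ∑ j, g x j
      map_add' := by intro x y; simp [Finset.sum_add_distrib]; ring
      map_smul' := by intro r x; simp [← Finset.mul_sum]; ring }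
  let v : V n := (InnerProductSpace.toDual ℝ (V n)).symm (LinearMap.toContinuousLinearMap f)
  have hv : ∀ x, ⟪v, x⟫ = f x := by
    intro x
    simp [v]
  have hfj : ∀ j : s, f (c.z j) = - (k : ℝ)⁻¹ := by
    intro j
    have e1 : L (Pi.single j 1) = c.z j := by
      change ∑ i, (Pi.single j (1 : ℝ) : s → ℝ) i • c.z i = c.z j
      rw [Finset.sum_eq_single j]
      · simp
      · intro b _ hb; simp [hb]
      · intro h; exact absurd (Finset.mem_univ j) h
    have e2 : g (c.z j) = Pi.single j 1 := by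
      rw [← e1]
      have := congrArg (fun h => h (Pi.single j 1)) hg
      simpa using this
    change - ((k : ℝ)⁻¹) * ∑ i, g (c.z j) i = _
    rw [e2]
    simp
  have hvj : ∀ j, j ≠ o → ⟪v, c.z j⟫ = - (k : ℝ)⁻¹ := by
    intro j hj
    rw [hv]
    exact hfj ⟨j, by simp [hs, hj]⟩
  have hvo : ⟪v, c.z o⟫ = ((k : ℝ) - 1) / k := by
    have e1 : ⟪v, ∑ i, c.z i⟫ = 0 := by rw [c.sum_zero, inner_zero_right]
    rw [inner_sum, ← Finset.add_sum_erase Finset.univ (fun i => ⟪v, c.z i⟫) (Finset.mem_univ o),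
      Finset.sum_congr rfl (fun i hi => hvj i (Finset.ne_of_mem_erase hi))] at e1
    rw [Finset.sum_const, Finset.card_erase_of_mem (Finset.mem_univ o), Finset.card_univ,
      Fintype.card_fin, nsmul_eq_mul, Nat.cast_sub (by have := c.hk; omega)] at e1
    push_cast at e1
    have e2 : ⟪v, c.z o⟫ = ((k : ℝ) - 1) * (k : ℝ)⁻¹ := by linarith
    rw [e2]; rfl
  refine ⟨v, fun j hj => ?_, ?_⟩
  · rw [inner_sub_right, hvo, hvj j hj]
    field_simp
    ring
  · rw [real_inner_comm]; exact hvo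

/-- Consequence of Prékopa–Leindler. -/
lemma t_le (hPL : PLStatement) (o : Fin k) : ‖c.z o‖ ^ 2 ≤ 2 * c.p o ^ 2 := by
  have hne := c.ne
  have hre := c.rest_ne o
  have hk := c.kR
  obtain ⟨v, hv1, hv2⟩ := c.exists_dual o
  set s : Finset (Fin k) := Finset.univ.erase o with hs
  set w : s → V n := fun j => c.z o - c.z j with hw
  have hwv : ∀ j, ⟪v, w j⟫ = 1 := fun j => hv1 j (Finset.ne_of_mem_erase j.2)
  set T : V n → ℝ := fun x => ⨅ j, ⟪x, w j⟫ with hT
  have hTeq : ∀ x, T x = ⟪x, c.z o⟫ - mx (c.rest o) x := by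
    intro x
    apply le_antisymm
    · obtain ⟨j, hj⟩ := exists_mx (c.rest o) x
      refine (ciInf_le (Set.finite_range _).bddBelow j).trans ?_
      rw [← hj, hw, inner_sub_right]
      rfl
    · refine le_ciInf fun j => ?_
      rw [hw, inner_sub_right]
      have : ⟪x, c.z j⟫ ≤ mx (c.rest o) x := le_mx (c.rest o) x j
      linarith
  have hset : {x | 0 ≤ T x} = cellA c.z o := by
    ext x
    change 0 ≤ T x ↔ ∀ j, ⟪x, c.z j⟫ ≤ ⟪x, c.z o⟫
    rw [hTeq]
    constructor
    · intro h j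
      by_cases hj : j = o
      · rw [hj]
      · have : ⟪x, c.z j⟫ ≤ mx (c.rest o) x := le_mx (c.rest o) x ⟨j, by simp [hj]⟩
        linarith
    · intro h
      have : mx (c.rest o) x ≤ ⟪x, c.z o⟫ := mx_le fun j => h j
      linarith
  have h := hPL n s w v hwv T (fun x => rfl)
  rw [hset] at h
  have e1 : ∫ x in cellA c.z o, T x ∂(gam n) = c.del o := by
    unfold del
    simp_rw [hTeq]
  rw [e1, c.mean_inner o v, hv2] at h
  have e2 := c.removal o
  have hk1 : (0 : ℝ) < k - 1 := by linarith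
  have hk0 : (0 : ℝ) < k := by linarith
  have e3 : ‖c.z o‖ ^ 2 / 2 ≤ c.del o * (((k : ℝ) - 1) / k) := by
    calc ‖c.z o‖ ^ 2 / 2 = ((k : ℝ) / (k - 1) / 2 * ‖c.z o‖ ^ 2) * (((k : ℝ) - 1) / k) := by
          field_simp
      _ ≤ c.del o * (((k : ℝ) - 1) / k) := by gcongr
  have e4 : c.del o * (((k : ℝ) - 1) / k) ≤ c.p o ^ 2 := h
  linarith

end Crit

end Crest.Agent.Prop334
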