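import Crest.Agent.Prop334.Core7

/-! Propeller inequality (S0334): the triangle gauge. -/

set_option autoImplicit false
set_option linter.unusedSectionVars false

open MeasureTheory ProbabilityTheory
open scoped RealInnerProductSpace

namespace Crest.Agent.Prop334

/-- statement of the Gaussian integral part -/
def TGIStatement : Prop :=
  ∀ (n : ℕ) (u q1 q2 : V n) (_ : ‖u‖ = 1) (_ : ⟪u, q1⟫ = 0) (_ : ⟪u, q2⟫ = 0) (g : ℝ) (_ : 0 < g)
    (_ : g ^ 2 = ‖q1‖ ^ 2 * ‖q2‖ ^ 2 - ⟪q1, q2⟫ ^ 2) (lam : ℝ) (_ : 0 ≤ lam),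
    ∫ x, max 0 (lam * ⟪x, u⟫ - max ⟪x, q1⟫ (max ⟪x, q2⟫ (-⟪x, q1⟫ - ⟪x, q2⟫))) ∂(gam n)
      ≤ 3 * lam ^ 3 / (4 * Real.pi * g) * √(2 / Real.pi)

namespace Crit

variable {n k : ℕ} (c : Crit n k)

/-- squared norms -/
noncomputable def t (i : Fin k) : ℝ := ‖c.z i‖ ^ 2

/-- negated inner products -/
noncomputable def r (i j : Fin k) : ℝ := - ⟪c.z i, c.z j⟫

lemma r_symm (i j : Fin k) : c.r i j = c.r j i := by
  unfold r; rw [real_inner_comm]

lemma r_pos (i j : Fin k) (h : i ≠ j) : 0 < c.r i j := by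
  have := c.neg h
  unfold r; linarith

lemma r_sum (i : Fin k) : ∑ j ∈ Finset.univ.erase i, c.r i j = c.t i := by
  have h : ⟪c.z i, ∑ j, c.z j⟫ = 0 := by rw [c.sum_zero, inner_zero_right]
  rw [inner_sum, ← Finset.add_sum_erase Finset.univ _ (Finset.mem_univ i),
    real_inner_self_eq_norm_sq] at h
  unfold r t
  rw [Finset.sum_neg_distrib]
  linarith

lemma r_le (i j : Fin k) (h : j ≠ i) : c.r i j ≤ c.t i := by
  rw [← c.r_sum i]
  refine Finset.single_le_sum (f := fun j => c.r i j) (fun l hl => ?_) (by simp [h])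
  exact (c.r_pos i l (Finset.ne_of_mem_erase hl).symm).le

lemma r_add_le (i j l : Fin k) (hj : j ≠ i) (hl : l ≠ i) (hjl : j ≠ l) :
    c.r i j + c.r i l ≤ c.t i := by
  rw [← c.r_sum i]
  have h1 : c.r i j + c.r i l = ∑ m ∈ ({j, l} : Finset (Fin k)), c.r i m := by
    rw [Finset.sum_pair hjl]
  rw [h1]
  refine Finset.sum_le_sum_of_subset_of_nonneg ?_ ?_
  · intro m hm
    simp only [Finset.mem_insert, Finset.mem_singleton] at hm
    rcases hm with rfl | rfl
    · simp [hj]
    · simp [hl]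
  · intro m hm _
    exact (c.r_pos i m (Finset.ne_of_mem_erase hm).symm).le

lemma dist_sq (i j : Fin k) : ‖c.z i - c.z j‖ ^ 2 = c.t i + c.t j + 2 * c.r i j := by
  rw [@norm_sub_sq ℝ]
  simp only [RCLike.re_to_real, t, r]
  ring

/-- gauge inequality -/
lemma gauge (hT : TGIStatement) {o a b d : Fin k} (hoa : o ≠ a) (hob : o ≠ b) (hod : o ≠ d)
    (hab : a ≠ b) (had : a ≠ d) (hbd : b ≠ d) (u : V n) (hu : ‖u‖ = 1)
    (hu1 : ⟪u, c.z b - c.z a⟫ = 0) (hu2 : ⟪u, c.z d - c.z a⟫ = 0)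
    (hD : 0 < D2 c.t c.r a b d) (lam : ℝ) (hlam : 0 ≤ lam) :
    lam * ⟪c.z o, u⟫ - 3 * lam ^ 3 / (4 * Real.pi * (√(D2 c.t c.r a b d) / 3)) * √(2 / Real.pi)
      ≤ (4 / 3 - (k : ℝ) / (2 * (k - 1))) * c.t o := by
  have hk := c.kR
  have hk1 : (0 : ℝ) < k - 1 := by linarith
  set D := D2 c.t c.r a b d with hDdef
  set cT : V n := (1 / 3 : ℝ) • (c.z a + c.z b + c.z d) with hcT
  set q1 : V n := c.z a - cT with hq1
  set q2 : V n := c.z b - cT with hq2
  have hq3 : c.z d - cT = - q1 - q2 := by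
    rw [hq1, hq2, hcT]; module
  have hq1' : q1 = (1 / 3 : ℝ) • (-(c.z b - c.z a) - (c.z d - c.z a)) := by
    rw [hq1, hcT]; module
  have hq2' : q2 = (1 / 3 : ℝ) • ((2 : ℝ) • (c.z b - c.z a) - (c.z d - c.z a)) := by
    rw [hq2, hcT]; module
  have h1 : ⟪u, q1⟫ = 0 := by
    rw [hq1', real_inner_smul_right, inner_sub_right, inner_neg_right, hu1, hu2]; ring
  have h2 : ⟪u, q2⟫ = 0 := by
    rw [hq2', real_inner_smul_right, inner_sub_right, real_inner_smul_right, hu1, hu2]; ring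
  -- Gram determinant
  have hg2 : (√D / 3) ^ 2 = ‖q1‖ ^ 2 * ‖q2‖ ^ 2 - ⟪q1, q2⟫ ^ 2 := by
    rw [div_pow, Real.sq_sqrt hD.le, hDdef]
    have e1 : ‖q1‖ ^ 2 = (1 / 9) * (4 * c.t a + c.t b + c.t d + 4 * c.r a b + 4 * c.r a d
        - 2 * c.r b d) := by
      rw [← real_inner_self_eq_norm_sq, hq1, hcT]
      simp only [inner_sub_left, inner_sub_right, real_inner_smul_left, real_inner_smul_right,
        inner_add_left, inner_add_right, t, r, ← real_inner_self_eq_norm_sq]
      rw [real_inner_comm (c.z b) (c.z a), real_inner_comm (c.z d) (c.z a),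
        real_inner_comm (c.z d) (c.z b)]
      ring
    have e2 : ‖q2‖ ^ 2 = (1 / 9) * (c.t a + 4 * c.t b + c.t d + 4 * c.r a b + 4 * c.r b d
        - 2 * c.r a d) := by
      rw [← real_inner_self_eq_norm_sq, hq2, hcT]
      simp only [inner_sub_left, inner_sub_right, real_inner_smul_left, real_inner_smul_right,
        inner_add_left, inner_add_right, t, r, ← real_inner_self_eq_norm_sq]
      rw [real_inner_comm (c.z b) (c.z a), real_inner_comm (c.z d) (c.z a),
        real_inner_comm (c.z d) (c.z b)]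
      ring
    have e3 : ⟪q1, q2⟫ = (1 / 9) * (-2 * c.t a - 2 * c.t b + c.t d - 5 * c.r a b + c.r a d
        + c.r b d) := by
      rw [hq1, hq2, hcT]
      simp only [inner_sub_left, inner_sub_right, real_inner_smul_left, real_inner_smul_right,
        inner_add_left, inner_add_right, t, r, ← real_inner_self_eq_norm_sq]
      rw [real_inner_comm (c.z b) (c.z a), real_inner_comm (c.z d) (c.z a),
        real_inner_comm (c.z d) (c.z b)]
      ring
    rw [e1, e2, e3, D2]
    ring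
  have hg : 0 < √D / 3 := by have := Real.sqrt_pos.mpr hD; positivity
  have key := hT n u q1 q2 hu h1 h2 (√D / 3) hg hg2 lam hlam
  set m : V n → ℝ := fun x => max ⟪x, q1⟫ (max ⟪x, q2⟫ (-⟪x, q1⟫ - ⟪x, q2⟫)) with hm
  have hmi : Integrable m (gam n) := by
    refine (integrable_inner q1).sup ((integrable_inner q2).sup ?_)
    exact (integrable_inner q1).neg.sub (integrable_inner q2)
  have hli : Integrable (fun x => lam * ⟪x, u⟫ - m x) (gam n) :=
    ((integrable_inner u).const_mul lam).sub hmi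
  have hpi : Integrable (fun x => max 0 (lam * ⟪x, u⟫ - m x)) (gam n) :=
    (integrable_const (0 : ℝ)).sup hli
  -- upper bound for the restricted integral
  have s1 : ∫ x in cellA c.z o, (lam * ⟪x, u⟫ - m x) ∂(gam n)
      ≤ ∫ x, max 0 (lam * ⟪x, u⟫ - m x) ∂(gam n) := by
    refine (setIntegral_mono hli.integrableOn hpi.integrableOn fun x => le_max_right _ _).trans ?_
    exact setIntegral_le_integral hpi (Filter.Eventually.of_forall fun x => le_max_left _ _)
  have s2 : ∫ x in cellA c.z o, (lam * ⟪x, u⟫ - m x) ∂(gam n)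
      = lam * ⟪c.z o, u⟫ - ∫ x in cellA c.z o, m x ∂(gam n) := by
    rw [integral_sub ((integrable_inner u).const_mul lam).integrableOn hmi.integrableOn,
      integral_const_mul, c.mean_inner o u]
  -- pointwise bound
  have s3 : ∀ x, m x ≤ mx (c.rest o) x - ⟪x, cT⟫ := by
    intro x
    have hr : ∀ l, l ≠ o → ⟪x, c.z l - cT⟫ ≤ mx (c.rest o) x - ⟪x, cT⟫ := by
      intro l hl
      rw [inner_sub_right]
      have : ⟪x, c.z l⟫ ≤ mx (c.rest o) x := le_mx (c.rest o) x ⟨l, by simp [hl]⟩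
      linarith
    refine max_le (hr a hoa.symm) (max_le (hr b hob.symm) ?_)
    have := hr d hod.symm
    rw [hq3, inner_sub_right, inner_neg_right] at this
    exact this
  have s4 : ∫ x in cellA c.z o, m x ∂(gam n)
      ≤ (⟪c.z o, c.z o⟫ - c.del o) - ⟪c.z o, cT⟫ := by
    have e1 : ∫ x in cellA c.z o, m x ∂(gam n)
        ≤ ∫ x in cellA c.z o, (mx (c.rest o) x - ⟪x, cT⟫) ∂(gam n) :=
      setIntegral_mono hmi.integrableOn
        ((integrable_mx _).sub (integrable_inner cT)).integrableOn s3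
    have e2 : ∫ x in cellA c.z o, (mx (c.rest o) x - ⟪x, cT⟫) ∂(gam n)
        = ∫ x in cellA c.z o, mx (c.rest o) x ∂(gam n) - ⟪c.z o, cT⟫ := by
      rw [integral_sub (integrable_mx _).integrableOn (integrable_inner cT).integrableOn,
        c.mean_inner o cT]
    have e3 : c.del o = ⟪c.z o, c.z o⟫ - ∫ x in cellA c.z o, mx (c.rest o) x ∂(gam n) := by
      unfold del
      rw [integral_sub (integrable_inner _).integrableOn (integrable_mx _).integrableOn,
        c.mean_inner o (c.z o)]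
    rw [e2] at e1
    linarith
  have s5 := c.removal o
  have s6 : ⟪c.z o, cT⟫ = - (c.r o a + c.r o b + c.r o d) / 3 := by
    rw [hcT, real_inner_smul_right, inner_add_right, inner_add_right]
    unfold r; ring
  have s7 : c.r o a + c.r o b + c.r o d ≤ c.t o := by
    rw [← c.r_sum o]
    have h1 : c.r o a + c.r o b + c.r o d = ∑ m ∈ ({a, b, d} : Finset (Fin k)), c.r o m := by
      rw [Finset.sum_insert (by simp [hab, had]), Finset.sum_pair hbd]; ring
    rw [h1]
    refine Finset.sum_le_sum_of_subset_of_nonneg ?_ ?_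
    · intro m hm
      simp only [Finset.mem_insert, Finset.mem_singleton] at hm
      rcases hm with rfl | rfl | rfl
      · simp [hoa.symm]
      · simp [hob.symm]
      · simp [hod.symm]
    · intro m hm _
      exact (c.r_pos o m (Finset.ne_of_mem_erase hm).symm).le
  have s8 : ⟪c.z o, c.z o⟫ = c.t o := real_inner_self_eq_norm_sq _
  have s9 : (k : ℝ) / (k - 1) / 2 * c.t o = (k : ℝ) / (2 * (k - 1)) * c.t o := by
    field_simp
  have s10 : (k : ℝ) / (k - 1) / 2 * c.t o ≤ c.del o := s5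
  rw [s2] at s1
  rw [s8, s6] at s4
  have hfin : lam * ⟪c.z o, u⟫ - 3 * lam ^ 3 / (4 * Real.pi * (√D / 3)) * √(2 / Real.pi)
      ≤ c.t o - c.del o + (c.r o a + c.r o b + c.r o d) / 3 := by
    have := key
    linarith
  rw [s9] at s10
  nlinarith

end Crit

end Crest.Agent.Prop334
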