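import Crest.Agent.Prop334.Core8

/-! Propeller inequality (S0334): the triangle gauge, optimised. -/

set_option autoImplicit false
set_option linter.unusedSectionVars false

open MeasureTheory ProbabilityTheory
open scoped RealInnerProductSpace

namespace Crest.Agent.Prop334

namespace Crit

variable {n k : ℕ} (c : Crit n k)

include c

lemma D2_pos {a b d : Fin k} (hab : a ≠ b) (had : a ≠ d) (hbd : b ≠ d) :
    0 < D2 c.t c.r a b d := by
  have h1 := c.r_pos a b hab
  have h2 := c.r_pos a d had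
  have h3 := c.r_pos b d hbd
  have sa := c.r_add_le a b d hab.symm had.symm hbd
  have sb := c.r_add_le b a d hab hbd.symm had
  have sd := c.r_add_le d a b had hbd hab
  rw [c.r_symm b a] at sb
  rw [c.r_symm d a, c.r_symm d b] at sd
  set x := c.r a b
  set y := c.r a d
  set w := c.r b d
  have ea : D2 c.t c.r a b d = 9 * (x * w + w * y + y * x)
      + (c.t a - x - y) * (4 * w + x + y) + (c.t b - x - w) * (4 * y + x + w)
      + (c.t d - y - w) * (4 * x + y + w)
      + (c.t a - x - y) * (c.t b - x - w) + (c.t b - x - w) * (c.t d - y - w)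
      + (c.t a - x - y) * (c.t d - y - w) := by
    rw [D2]; ring
  rw [ea]
  have e1 : 0 ≤ c.t a - x - y := by linarith
  have e2 : 0 ≤ c.t b - x - w := by linarith
  have e3 : 0 ≤ c.t d - y - w := by linarith
  positivity

/-- elementary bound for the squared norm of the projection -/
lemma quad_bound {α β E1 E2 E3 L M : ℝ} (h1 : 0 ≤ E1) (h2 : 0 ≤ E2) (h3 : 0 ≤ E3)
    (hL1 : E1 ≤ L) (hL2 : E2 ≤ L) (hL3 : E3 ≤ L) (hα : |α| ≤ M) (hβ : |β| ≤ M)
    (hαβ : |α - β| ≤ M) :
    α * (α - β) * E2 + β * (β - α) * E1 + α * β * E3 ≤ M ^ 2 * L := by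
  have hL : 0 ≤ L := h1.trans hL1
  have hM : 0 ≤ M := (abs_nonneg _).trans hα
  have a1 : α ^ 2 ≤ M ^ 2 := by rw [← sq_abs]; exact pow_le_pow_left₀ (abs_nonneg _) hα 2
  have a2 : β ^ 2 ≤ M ^ 2 := by rw [← sq_abs]; exact pow_le_pow_left₀ (abs_nonneg _) hβ 2
  have a3 : (α - β) ^ 2 ≤ M ^ 2 := by rw [← sq_abs]; exact pow_le_pow_left₀ (abs_nonneg _) hαβ 2
  by_cases s1 : 0 ≤ α * β
  · by_cases s2 : 0 ≤ α * (α - β)
    · by_cases s3 : 0 ≤ β * (β - α)
      · have : α * (α - β) * E2 ≤ α * (α - β) * L := by gcongr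
        have : β * (β - α) * E1 ≤ β * (β - α) * L := by gcongr
        have : α * β * E3 ≤ α * β * L := by gcongr
        -- both nonneg and product nonneg: then α = β or one is zero
        have h5 : (α - β) ^ 2 * (α * β) ≤ 0 := by nlinarith
        have h6 : 0 ≤ (α - β) ^ 2 * (α * β) := by positivity
        have h7 : (α - β) ^ 2 * (α * β) = 0 := le_antisymm h5 h6
        rcases mul_eq_zero.mp h7 with h8 | h8
        · have h9 : α = β := by
            have := pow_eq_zero_iff (two_ne_zero) |>.mp h8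
            linarith
          subst h9
          nlinarith
        · nlinarith
      · push Not at s3
        have : α * (α - β) * E2 ≤ α * (α - β) * L := by gcongr
        have : β * (β - α) * E1 ≤ 0 := mul_nonpos_of_nonpos_of_nonneg s3.le h1
        have : α * β * E3 ≤ α * β * L := by gcongr
        nlinarith
    · push Not at s2
      by_cases s3 : 0 ≤ β * (β - α)
      · have : α * (α - β) * E2 ≤ 0 := mul_nonpos_of_nonpos_of_nonneg s2.le h2
        have : β * (β - α) * E1 ≤ β * (β - α) * L := by gcongr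
        have : α * β * E3 ≤ α * β * L := by gcongr
        nlinarith
      · push Not at s3
        have : α * (α - β) + β * (β - α) = (α - β) ^ 2 := by ring
        nlinarith [sq_nonneg (α - β)]
  · push Not at s1
    have s2 : 0 ≤ α * (α - β) := by nlinarith [sq_nonneg α]
    have s3 : 0 ≤ β * (β - α) := by nlinarith [sq_nonneg β]
    have : α * (α - β) * E2 ≤ α * (α - β) * L := by gcongr
    have : β * (β - α) * E1 ≤ β * (β - α) * L := by gcongr
    have : α * β * E3 ≤ 0 := mul_nonpos_of_nonpos_of_nonneg s1.le h3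
    nlinarith

/-- The optimised triangle gauge. -/
lemma TG (hT : TGIStatement) (ht : ∀ i, c.t i ≤ 1 / (2 * Real.pi)) (η : ℝ) (hη : 0 < η)
    (hηπ : 2 * η < Real.pi)
    (hnum : (4 / 3 - (k : ℝ) / (2 * (k - 1))) ^ 4 * η < 128 / 59049 * (Real.pi - 2 * η) ^ 3)
    {o a b d : Fin k} (hoa : o ≠ a) (hob : o ≠ b) (hod : o ≠ d)
    (hab : a ≠ b) (had : a ≠ d) (hbd : b ≠ d) :
    η * D2 c.t c.r a b d < c.t o := by
  by_contra hcon
  push Not at hcon
  have hk := c.kR
  have hk1 : (0 : ℝ) < k - 1 := by linarith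
  have hD := c.D2_pos hab had hbd
  have htpos : ∀ i, 0 < c.t i := fun i => c.t_pos i
  set D := D2 c.t c.r a b d with hDdef
  set coef := 4 / 3 - (k : ℝ) / (2 * (k - 1)) with hcoef
  have hcoef0 : 0 < coef := by
    rw [hcoef]
    have : (k : ℝ) / (2 * (k - 1)) ≤ 2 / 3 := by
      rw [div_le_div_iff₀ (by linarith) (by norm_num)]; nlinarith
    linarith
  set e1 := c.z b - c.z a with he1
  set e2 := c.z d - c.z a with he2
  set E11 := ‖e1‖ ^ 2 with hE11
  set E22 := ‖e2‖ ^ 2 with hE22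
  set E12 := ⟪e1, e2⟫ with hE12
  set E33 := ‖c.z b - c.z d‖ ^ 2 with hE33
  have hE12' : 2 * E12 = E11 + E22 - E33 := by
    have : c.z b - c.z d = e1 - e2 := by rw [he1, he2]; abel
    rw [hE33, this, @norm_sub_sq ℝ]
    simp only [RCLike.re_to_real]; ring
  have hE11' : E11 = c.t b + c.t a + 2 * c.r b a := c.dist_sq b a
  have hE22' : E22 = c.t d + c.t a + 2 * c.r d a := c.dist_sq d a
  have hE33' : E33 = c.t b + c.t d + 2 * c.r b d := c.dist_sq b d
  have hDE : D = E11 * E22 - E12 ^ 2 := by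
    have : E12 = c.t a + c.r b a + c.r d a - c.r b d := by linarith
    rw [hDdef, this, hE11', hE22', D2, c.r_symm b a, c.r_symm d a]
    ring
  set L : ℝ := 2 / Real.pi with hL
  have hpi := Real.pi_pos
  have hell : ∀ i j, i ≠ j → c.t i + c.t j + 2 * c.r i j ≤ L := by
    intro i j hij
    have h1 := ht i
    have h2 := ht j
    have h3 := c.r_le i j hij.symm
    have h4 : L = 4 * (1 / (2 * Real.pi)) := by rw [hL]; field_simp; norm_num
    linarith
  have hL1 : E11 ≤ L := by rw [hE11']; exact hell b a hab.symm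
  have hL2 : E22 ≤ L := by rw [hE22']; exact hell d a had.symm
  have hL3 : E33 ≤ L := by rw [hE33']; exact hell b d hbd
  set α := ⟪c.z o, e1⟫ with hα
  set β := ⟪c.z o, e2⟫ with hβ
  have hα' : α = c.r o a - c.r o b := by
    rw [hα, he1, inner_sub_right]; unfold r; ring
  have hβ' : β = c.r o a - c.r o d := by
    rw [hβ, he2, inner_sub_right]; unfold r; ring
  have habs : ∀ i j, i ≠ o → j ≠ o → |c.r o i - c.r o j| ≤ c.t o := by
    intro i j hi hj
    have h1 := c.r_le o i hi
    have h2 := c.r_le o j hj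
    have h3 := c.r_pos o i hi.symm
    have h4 := c.r_pos o j hj.symm
    rw [abs_le]; constructor <;> linarith
  have hαM : |α| ≤ c.t o := by rw [hα']; exact habs a b hoa.symm hob.symm
  have hβM : |β| ≤ c.t o := by rw [hβ']; exact habs a d hoa.symm hod.symm
  have hαβM : |α - β| ≤ c.t o := by
    rw [hα', hβ']
    have := habs d b hod.symm hob.symm
    have e : c.r o a - c.r o b - (c.r o a - c.r o d) = c.r o d - c.r o b := by ring
    rw [e]; exact this
  have hquad : α * (α - β) * E22 + β * (β - α) * E11 + α * β * E33 ≤ c.t o ^ 2 * L :=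
    c.quad_bound (by positivity) (by positivity) (by positivity) hL1 hL2 hL3 hαM hβM hαβM
  -- the projection
  set P : V n := ((α * E22 - β * E12) / D) • e1 + ((β * E11 - α * E12) / D) • e2 with hP
  have hPe1 : ⟪P, e1⟫ = α := by
    rw [hP, inner_add_left, real_inner_smul_left, real_inner_smul_left,
      real_inner_self_eq_norm_sq, real_inner_comm e1 e2, ← hE11, ← hE12]
    have h1 : (α * E22 - β * E12) / D * E11 + (β * E11 - α * E12) / D * E12
        = α * (E11 * E22 - E12 ^ 2) / D := by ring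
    rw [h1, ← hDE, mul_div_assoc, div_self hD.ne', mul_one]
  have hPe2 : ⟪P, e2⟫ = β := by
    rw [hP, inner_add_left, real_inner_smul_left, real_inner_smul_left,
      real_inner_self_eq_norm_sq, ← hE22, ← hE12]
    have h1 : (α * E22 - β * E12) / D * E12 + (β * E11 - α * E12) / D * E22
        = β * (E11 * E22 - E12 ^ 2) / D := by ring
    rw [h1, ← hDE, mul_div_assoc, div_self hD.ne', mul_one]
  have hPP : ∀ y : V n, ⟪y, e1⟫ = α → ⟪y, e2⟫ = β →
      ⟪y, P⟫ = (α * (α - β) * E22 + β * (β - α) * E11 + α * β * E33) / D := by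
    intro y h1 h2
    rw [hP, inner_add_right, real_inner_smul_right, real_inner_smul_right, h1, h2]
    have : E33 = E11 + E22 - 2 * E12 := by linarith
    rw [this]
    field_simp
    ring
  set Pn := (α * (α - β) * E22 + β * (β - α) * E11 + α * β * E33) / D with hPn
  have hPP1 : ⟪P, P⟫ = Pn := hPP P hPe1 hPe2
  have hPP2 : ⟪c.z o, P⟫ = Pn := hPP (c.z o) rfl rfl
  have hPnle : Pn ≤ η * L * c.t o := by
    rw [hPn, div_le_iff₀ hD]
    have h0 := htpos o
    have hLpos : 0 < L := by positivity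
    calc _ ≤ c.t o ^ 2 * L := hquad
      _ = (c.t o * L) * c.t o := by ring
      _ ≤ (c.t o * L) * (η * D) := by gcongr
      _ = η * L * c.t o * D := by ring
  set X2 := c.t o - Pn with hX2
  have hηL : η * L < 1 := by
    rw [hL, mul_div_assoc', div_lt_one hpi]; linarith
  have hX2le : c.t o * (1 - η * L) ≤ X2 := by rw [hX2]; linarith
  have hX2pos : 0 < X2 := by
    refine lt_of_lt_of_le ?_ hX2le
    have := htpos o
    have : 0 < 1 - η * L := by linarith
    positivity
  have hnorm : ‖c.z o - P‖ ^ 2 = X2 := by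
    rw [@norm_sub_sq ℝ, ← real_inner_self_eq_norm_sq P, hPP1]
    simp only [RCLike.re_to_real, hPP2]
    rw [hX2]; unfold t; ring
  set X := √X2 with hX
  have hXpos : 0 < X := Real.sqrt_pos.mpr hX2pos
  have hXsq : X ^ 2 = X2 := Real.sq_sqrt hX2pos.le
  have hnorm' : ‖c.z o - P‖ = X := by
    rw [hX, ← hnorm, Real.sqrt_sq (norm_nonneg _)]
  set u : V n := X⁻¹ • (c.z o - P) with hu
  have hu1 : ‖u‖ = 1 := by
    rw [hu, norm_smul, hnorm', norm_inv, Real.norm_eq_abs, abs_of_pos hXpos,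
      inv_mul_cancel₀ hXpos.ne']
  have hue1 : ⟪u, e1⟫ = 0 := by
    rw [hu, real_inner_smul_left, inner_sub_left, hPe1, ← hα]; ring
  have hue2 : ⟪u, e2⟫ = 0 := by
    rw [hu, real_inner_smul_left, inner_sub_left, hPe2, ← hβ]; ring
  have hou : ⟪c.z o, u⟫ = X := by
    rw [hu, real_inner_smul_right, inner_sub_right, hPP2, real_inner_self_eq_norm_sq]
    have : ‖c.z o‖ ^ 2 - Pn = X ^ 2 := by rw [hXsq, hX2]; rfl
    rw [this]; field_simp
  -- choose lam
  set g := √D / 3 with hg
  have hgpos : 0 < g := by have := Real.sqrt_pos.mpr hD; positivity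
  set κ := 3 / (4 * Real.pi * g) * √(2 / Real.pi) with hκ
  have hκpos : 0 < κ := by
    have : 0 < √(2 / Real.pi) := Real.sqrt_pos.mpr (by positivity)
    positivity
  set lam := √(X / (3 * κ)) with hlam
  have hlam0 : 0 ≤ lam := Real.sqrt_nonneg _
  have hlamsq : lam ^ 2 = X / (3 * κ) := Real.sq_sqrt (by positivity)
  have key := c.gauge hT hoa hob hod hab had hbd u hu1 hue1 hue2 hD lam hlam0
  rw [hou] at key
  have hk1' : 3 * lam ^ 3 / (4 * Real.pi * g) * √(2 / Real.pi) = κ * lam ^ 3 := by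
    rw [hκ]; ring
  rw [hk1'] at key
  have hk2 : κ * lam ^ 3 = lam * X / 3 := by
    have : κ * lam ^ 3 = κ * lam ^ 2 * lam := by ring
    rw [this, hlamsq]
    field_simp
  rw [hk2, ← hcoef] at key
  have hk3 : 2 / 3 * (lam * X) ≤ coef * c.t o := by linarith
  have hk4 : (2 / 3 * (lam * X)) ^ 4 ≤ (coef * c.t o) ^ 4 :=
    pow_le_pow_left₀ (by positivity) hk3 4
  have hk5 : (2 / 3 * (lam * X)) ^ 4 = 128 * Real.pi ^ 3 / 59049 * D * X2 ^ 3 := by
    have h1 : (2 / 3 * (lam * X)) ^ 4 = 16 / 81 * (lam ^ 2) ^ 2 * (X ^ 2) ^ 2 := by ring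
    have hs2 : √(2 / Real.pi) ^ 2 = 2 / Real.pi := Real.sq_sqrt (by positivity)
    have hgs : g ^ 2 = D / 9 := by
      rw [hg, div_pow, Real.sq_sqrt hD.le]; norm_num
    have hκs : κ ^ 2 = 81 / (8 * Real.pi ^ 3 * D) := by
      rw [hκ, mul_pow, div_pow, mul_pow, mul_pow, hs2, hgs]
      field_simp
      ring
    rw [h1, hlamsq, div_pow, mul_pow, hκs, hXsq]
    field_simp
    ring
  rw [hk5] at hk4
  have hT4 := htpos o
  have hk6 : c.t o ^ 3 * (1 - η * L) ^ 3 ≤ X2 ^ 3 := by
    rw [← mul_pow]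
    have : 0 ≤ c.t o * (1 - η * L) := by
      have : 0 < 1 - η * L := by linarith
      positivity
    exact pow_le_pow_left₀ this hX2le 3
  have hk7 : 128 * Real.pi ^ 3 / 59049 * (c.t o / η) * (c.t o ^ 3 * (1 - η * L) ^ 3)
      ≤ 128 * Real.pi ^ 3 / 59049 * D * X2 ^ 3 := by
    have h1 : c.t o / η ≤ D := by rw [div_le_iff₀ hη]; linarith
    have h2 : 0 ≤ c.t o ^ 3 * (1 - η * L) ^ 3 := by
      have : 0 < 1 - η * L := by linarith
      positivity
    gcongr
  have hk8 : 128 * Real.pi ^ 3 / 59049 * (c.t o / η) * (c.t o ^ 3 * (1 - η * L) ^ 3)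
      = (128 / 59049 * (Real.pi - 2 * η) ^ 3) * (c.t o ^ 4 / η) := by
    rw [hL]
    field_simp
  have hk9 : (coef * c.t o) ^ 4 = (coef ^ 4 * η) * (c.t o ^ 4 / η) := by
    field_simp
  have hk10 : 0 < c.t o ^ 4 / η := by positivity
  have hk11 : (128 / 59049 * (Real.pi - 2 * η) ^ 3) * (c.t o ^ 4 / η)
      ≤ (coef ^ 4 * η) * (c.t o ^ 4 / η) := by
    rw [← hk8, ← hk9]; linarith
  have := le_of_mul_le_mul_right hk11 hk10
  linarith

end Crit

end Crest.Agent.Prop334
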