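import Crest.Agent.Prop334.Defs

/-! Propeller inequality (S0334): sorting of the region data, and the general lower bound
`D2 ≥ (t a + t b) (2 t c - R'/2)`. -/

set_option autoImplicit false

namespace Crest.Agent.Prop334

/-- relabelling of the cells -/
def RegData.perm6 {k : ℕ} {η : ℝ} (D : RegData k η) (σ : Equiv.Perm (Fin k)) : RegData k η where
  t i := D.t (σ i)
  p i := D.p (σ i)
  r i j := D.r (σ i) (σ j)
  tpos i := D.tpos _
  ppos i := D.ppos _
  rsymm i j := D.rsymm _ _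
  rpos i j h := D.rpos _ _ (σ.injective.ne h)
  rsum i := by
    rw [← D.rsum (σ i)]
    refine Finset.sum_nbij' (fun j => σ j) (fun j => σ.symm j) ?_ ?_ ?_ ?_ ?_ <;> simp
    intro j h1 h2
    exact h1 (by rw [← h2]; simp)
  psum := by rw [← D.psum]; exact Equiv.sum_comp σ D.p
  tsum := by
    have h : ∑ i, D.t (σ i) = ∑ i, D.t i := Equiv.sum_comp σ D.t
    rw [h]; exact D.tsum
  tle i := D.tle _
  PLb i := D.PLb _
  TG o a b c h1 h2 h3 h4 h5 h6 := by
    have := D.TG (σ o) (σ a) (σ b) (σ c) (σ.injective.ne h1) (σ.injective.ne h2)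
      (σ.injective.ne h3) (σ.injective.ne h4) (σ.injective.ne h5) (σ.injective.ne h6)
    simpa [D2] using this

/-- every region data can be relabelled so that `t` is decreasing -/
theorem RegData.exists_perm6_antitone {k : ℕ} {η : ℝ} (D : RegData k η) :
    ∃ σ : Equiv.Perm (Fin k), Antitone (D.perm6 σ).t := by
  refine ⟨Tuple.sort (fun i => - D.t i), ?_⟩
  intro i j hij
  have := Tuple.monotone_sort (fun i => - D.t i) hij
  simp only [Function.comp] at this
  change D.t _ ≤ D.t _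
  linarith

/-- pure algebra: `D2 ≥ (t1+t2) (2 t3 - R/2)` -/
theorem D2_lower_alg (t1 t2 t3 x y z R : ℝ) (h32 : t3 ≤ t2) (h21 : t2 ≤ t1) (h3 : 0 ≤ t3)
    (hx : 0 ≤ x) (hy : 0 ≤ y) (hz : 0 ≤ z) (hx2 : x ≤ t2) (hy3 : y ≤ t3) (hz3 : z ≤ t3)
    (hR : R ≤ t1 + t2) (hrho : (t1 + t2 - R) / 2 ≤ x + y + z) :
    (t1 + t2) * (2 * t3 - R / 2) ≤ t1 * t2 + t2 * t3 + t3 * t1 + 2 * (t1 * z + t2 * y + t3 * x)
      + 2 * (x * z + z * y + y * x) - (x ^ 2 + z ^ 2 + y ^ 2) := by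
  have h1 : 0 ≤ z * (t1 - z) := mul_nonneg hz (by linarith)
  have h2 : 0 ≤ y * (t2 - y) := mul_nonneg hy (by linarith)
  have h3' : -(t2 * (t2 - t3)) ≤ x * (t3 - x) := by nlinarith
  have h4 : ((t1 + t2 - R) / 2) ^ 2 ≤ (x + y + z) ^ 2 := by
    apply pow_le_pow_left₀ (by linarith) hrho
  nlinarith [mul_nonneg (sub_nonneg.2 h21) (sub_nonneg.2 h32), sq_nonneg R,
    mul_nonneg (sub_nonneg.2 h21) (sub_nonneg.2 h21), mul_nonneg (h3.trans h32) (sub_nonneg.2 h21)]

end Crest.Agent.Prop334
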