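import Mathlib

/-! Propeller inequality (S0334): common definitions. -/

set_option autoImplicit false

open MeasureTheory ProbabilityTheory
open scoped RealInnerProductSpace

namespace Crest.Agent.Prop334

/-- `n`-dimensional Euclidean space -/
abbrev V (n : ℕ) := EuclideanSpace ℝ (Fin n)

/-- its standard Gaussian measure -/
noncomputable abbrev gam (n : ℕ) : Measure (V n) := stdGaussian (V n)

/-- `D2 a b c` is four times the squared area of the triangle with vertices `z a, z b, z c`, where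
`t i = ‖z i‖^2` and `r i j = - ⟪z i, z j⟫`. -/
def D2 {k : ℕ} (t : Fin k → ℝ) (r : Fin k → Fin k → ℝ) (a b c : Fin k) : ℝ :=
  t a * t b + t b * t c + t c * t a + 2 * (t a * r b c + t b * r a c + t c * r a b)
    + 2 * (r a b * r b c + r b c * r a c + r a c * r a b) - (r a b ^ 2 + r b c ^ 2 + r a c ^ 2)

/-- Numerical data extracted from a hypothetical minimal counterexample with `k` cells. -/
structure RegData (k : ℕ) (η : ℝ) where
  t : Fin k → ℝ
  p : Fin k → ℝ
  r : Fin k → Fin k → ℝ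
  tpos : ∀ i, 0 < t i
  ppos : ∀ i, 0 < p i
  rsymm : ∀ i j, r i j = r j i
  rpos : ∀ i j, i ≠ j → 0 < r i j
  rsum : ∀ i, ∑ j ∈ Finset.univ.erase i, r i j = t i
  psum : ∑ i, p i = 1
  tsum : 9 / (8 * Real.pi) < ∑ i, t i
  tle : ∀ i, t i ≤ 1 / (2 * Real.pi)
  PLb : ∀ i, t i ≤ 2 * p i ^ 2
  TG : ∀ o a b c : Fin k, o ≠ a → o ≠ b → o ≠ c → a ≠ b → a ≠ c → b ≠ c →
    η * D2 t r a b c < t o

end Crest.Agent.Prop334
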