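import Mathlib

/-! Numerical bounds for the tangent lines of the Gaussian isoperimetric profile. -/

set_option autoImplicit false

open MeasureTheory ProbabilityTheory intervalIntegral

namespace Crest.Agent.Prop334.GaussTail

lemma pdf_eq (x : ℝ) : gaussianPDFReal 0 1 x = (√(2 * Real.pi))⁻¹ * Real.exp (-(1/2) * x ^ 2) := by
  rw [gaussianPDFReal_def]
  simp only [NNReal.coe_one, mul_one, sub_zero]
  congr 2
  ring

lemma tail_eq {s : ℝ} (hs : 0 ≤ s) : (gaussianReal 0 1).real (Set.Ioi s) =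
    1 / 2 - (√(2 * Real.pi))⁻¹ * ∫ x in (0:ℝ)..s, Real.exp (-(1/2) * x ^ 2) := by
  have h0 : ∀ a : ℝ, (gaussianReal 0 1).real (Set.Ioi a) =
      (√(2 * Real.pi))⁻¹ * ∫ x in Set.Ioi a, Real.exp (-(1/2) * x ^ 2) := by
    intro a
    rw [measureReal_def, gaussianReal_apply_eq_integral 0 one_ne_zero, ENNReal.toReal_ofReal]
    · simp only [pdf_eq]
      rw [MeasureTheory.integral_const_mul]
    · exact integral_nonneg fun x => gaussianPDFReal_nonneg _ _ _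
  have hint : Integrable (fun x : ℝ => Real.exp (-(1/2) * x ^ 2)) :=
    integrable_exp_neg_mul_sq (by norm_num)
  have hsplit : ∫ x in Set.Ioi (0:ℝ), Real.exp (-(1/2) * x ^ 2) =
      (∫ x in (0:ℝ)..s, Real.exp (-(1/2) * x ^ 2)) + ∫ x in Set.Ioi s, Real.exp (-(1/2) * x ^ 2) := by
    rw [intervalIntegral.integral_of_le hs, ← setIntegral_union]
    · rw [Set.Ioc_union_Ioi_eq_Ioi hs]
    · exact Set.Ioc_disjoint_Ioi le_rfl
    · exact measurableSet_Ioi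
    · exact hint.integrableOn
    · exact hint.integrableOn
  have hhalf : (√(2 * Real.pi))⁻¹ * ∫ x in Set.Ioi (0:ℝ), Real.exp (-(1/2) * x ^ 2) = 1 / 2 := by
    rw [integral_gaussian_Ioi]
    have : Real.pi / (1 / 2) = 2 * Real.pi := by ring
    rw [this]
    have h2 : √(2 * Real.pi) ≠ 0 := by positivity
    field_simp
  rw [hsplit, mul_add] at hhalf
  rw [h0 s]
  linarith

lemma exp_le {u : ℝ} (h0 : 0 ≤ u) (h1 : u ≤ 1) :
    Real.exp (-u) ≤ 1 - u + u ^ 2 / 2 - u ^ 3 / 6 + u ^ 4 / 24 + u ^ 5 / 100 := by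
  have h := Real.exp_bound (x := -u) (by rw [abs_neg, abs_of_nonneg h0]; exact h1)
    (n := 5) (by norm_num)
  rw [abs_neg, abs_of_nonneg h0] at h
  have h2 := (abs_le.mp h).2
  simp only [Finset.sum_range_succ, Finset.sum_range_zero, Nat.factorial] at h2
  norm_num at h2
  nlinarith [h2]

lemma int_le {s : ℝ} (h0 : 0 ≤ s) (h1 : s ≤ 1) :
    ∫ x in (0:ℝ)..s, Real.exp (-(1/2) * x ^ 2) ≤
      s - s ^ 3 / 6 + s ^ 5 / 40 - s ^ 7 / 336 + s ^ 9 / 3456 + s ^ 11 / 35200 := by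
  have hmono : ∫ x in (0:ℝ)..s, Real.exp (-(1/2) * x ^ 2) ≤
      ∫ x in (0:ℝ)..s, (1 - x ^ 2 / 2 + x ^ 4 / 8 - x ^ 6 / 48 + x ^ 8 / 384 + x ^ 10 / 3200) := by
    refine intervalIntegral.integral_mono_on h0 ?_ ?_ ?_
    · exact Continuous.intervalIntegrable (by fun_prop) _ _
    · exact Continuous.intervalIntegrable (by fun_prop) _ _
    · intro x hx
      have hx1 : x ^ 2 / 2 ≤ 1 := by nlinarith [hx.1, hx.2]
      have := exp_le (u := x ^ 2 / 2) (by positivity) hx1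
      have e : -(1/2) * x ^ 2 = -(x ^ 2 / 2) := by ring
      rw [e]
      refine this.trans (le_of_eq ?_)
      ring
  refine hmono.trans (le_of_eq ?_)
  have hd : ∀ x ∈ Set.uIcc (0:ℝ) s, HasDerivAt (fun x : ℝ => x - x ^ 3 / 6 + x ^ 5 / 40 -
      x ^ 7 / 336 + x ^ 9 / 3456 + x ^ 11 / 35200)
      (1 - x ^ 2 / 2 + x ^ 4 / 8 - x ^ 6 / 48 + x ^ 8 / 384 + x ^ 10 / 3200) x := by
    intro x _
    have h1 := hasDerivAt_id x
    have h3 := (hasDerivAt_pow 3 x).div_const 6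
    have h5 := (hasDerivAt_pow 5 x).div_const 40
    have h7 := (hasDerivAt_pow 7 x).div_const 336
    have h9 := (hasDerivAt_pow 9 x).div_const 3456
    have h11 := (hasDerivAt_pow 11 x).div_const 35200
    have := ((((h1.sub h3).add h5).sub h7).add h9).add h11
    refine HasDerivAt.congr_deriv this ?_
    push_cast
    ring
  rw [intervalIntegral.integral_eq_sub_of_hasDerivAt hd]
  · ring
  · exact Continuous.intervalIntegrable (by fun_prop) _ _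

lemma inv_sqrt_le : (√(2 * Real.pi))⁻¹ ≤ 0.398944 := by
  have h1 : (2.50662 : ℝ) ≤ √(2 * Real.pi) := by
    apply Real.le_sqrt_of_sq_le
    have := Real.pi_gt_d6
    nlinarith
  calc (√(2 * Real.pi))⁻¹ ≤ (2.50662 : ℝ)⁻¹ := inv_anti₀ (by norm_num) h1
    _ ≤ 0.398944 := by norm_num

/-- upper bound for the tangent line -/
lemma line_le {s : ℝ} (h0 : 0 ≤ s) (h1 : s ≤ 1) (p : ℝ) :
    Real.exp (-s ^ 2 / 2) / √(2 * Real.pi) + s * (p - (gaussianReal 0 1).real (Set.Ioi s)) ≤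
      s * p - s / 2 + 0.398944 * ((1 - s ^ 2 / 2 + s ^ 4 / 8 - s ^ 6 / 48 + s ^ 8 / 384 + s ^ 10 / 3200)
        + s * (s - s ^ 3 / 6 + s ^ 5 / 40 - s ^ 7 / 336 + s ^ 9 / 3456 + s ^ 11 / 35200)) := by
  rw [tail_eq h0]
  have e1 : Real.exp (-s ^ 2 / 2) ≤
      1 - s ^ 2 / 2 + s ^ 4 / 8 - s ^ 6 / 48 + s ^ 8 / 384 + s ^ 10 / 3200 := by
    have hx1 : s ^ 2 / 2 ≤ 1 := by nlinarith
    have := exp_le (u := s ^ 2 / 2) (by positivity) hx1
    have e : -s ^ 2 / 2 = -(s ^ 2 / 2) := by ring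
    rw [e]
    refine this.trans (le_of_eq ?_)
    ring
  have e2 := int_le h0 h1
  have e3 : 0 ≤ ∫ x in (0:ℝ)..s, Real.exp (-(1/2) * x ^ 2) :=
    intervalIntegral.integral_nonneg h0 fun x _ => (Real.exp_pos _).le
  have e4 := inv_sqrt_le
  have e5 : 0 < (√(2 * Real.pi))⁻¹ := by positivity
  have e6 : Real.exp (-s ^ 2 / 2) + s * (∫ x in (0:ℝ)..s, Real.exp (-(1/2) * x ^ 2)) ≤
      (1 - s ^ 2 / 2 + s ^ 4 / 8 - s ^ 6 / 48 + s ^ 8 / 384 + s ^ 10 / 3200)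
        + s * (s - s ^ 3 / 6 + s ^ 5 / 40 - s ^ 7 / 336 + s ^ 9 / 3456 + s ^ 11 / 35200) :=
    add_le_add e1 (mul_le_mul_of_nonneg_left e2 h0)
  have e7 : 0 ≤ Real.exp (-s ^ 2 / 2) + s * (∫ x in (0:ℝ)..s, Real.exp (-(1/2) * x ^ 2)) :=
    add_nonneg (Real.exp_pos _).le (mul_nonneg h0 e3)
  have e8 : (√(2 * Real.pi))⁻¹ * (Real.exp (-s ^ 2 / 2) +
      s * (∫ x in (0:ℝ)..s, Real.exp (-(1/2) * x ^ 2))) ≤ 0.398944 * ((1 - s ^ 2 / 2 + s ^ 4 / 8 -
        s ^ 6 / 48 + s ^ 8 / 384 + s ^ 10 / 3200)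
        + s * (s - s ^ 3 / 6 + s ^ 5 / 40 - s ^ 7 / 336 + s ^ 9 / 3456 + s ^ 11 / 35200)) :=
    mul_le_mul e4 e6 e7 (by norm_num)
  rw [div_eq_mul_inv]
  calc _ = s * p - s / 2 + (√(2 * Real.pi))⁻¹ * (Real.exp (-s ^ 2 / 2) +
      s * (∫ x in (0:ℝ)..s, Real.exp (-(1/2) * x ^ 2))) := by ring
    _ ≤ _ := by linarith

lemma line_80 (p : ℝ) : Real.exp (-(0.8 : ℝ) ^ 2 / 2) / √(2 * Real.pi) +
    0.8 * (p - (gaussianReal 0 1).real (Set.Ioi 0.8)) ≤ 0.1203 + 0.8 * p := by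
  refine (line_le (by norm_num) (by norm_num) p).trans ?_
  norm_num
  linarith

lemma line_60 (p : ℝ) : Real.exp (-(0.6 : ℝ) ^ 2 / 2) / √(2 * Real.pi) +
    0.6 * (p - (gaussianReal 0 1).real (Set.Ioi 0.6)) ≤ 0.1688 + 0.6 * p := by
  refine (line_le (by norm_num) (by norm_num) p).trans ?_
  norm_num
  linarith

lemma line_35 (p : ℝ) : Real.exp (-(0.35 : ℝ) ^ 2 / 2) / √(2 * Real.pi) +
    0.35 * (p - (gaussianReal 0 1).real (Set.Ioi 0.35)) ≤ 0.2482 + 0.35 * p := by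
  refine (line_le (by norm_num) (by norm_num) p).trans ?_
  norm_num
  linarith

end Crest.Agent.Prop334.GaussTail
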