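import Crest.Agent.Prop334.PLA

/-! Propeller inequality (S0334), part PL: the main inequality for a cone and its axis. -/

set_option autoImplicit false

open MeasureTheory ProbabilityTheory Filter Topology Set
open scoped RealInnerProductSpace

namespace Crest.Agent.Prop334

lemma integrable_exp_inner {n : ℕ} (w : V n) :
    Integrable (fun x : V n => Real.exp ⟪x, w⟫) (gam n) := by
  have h := IsGaussian.map_eq_gaussianReal (μ := gam n) (innerSL ℝ w)
  have h1 := integrable_exp_mul_gaussianReal (μ := (gam n)[innerSL ℝ w])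
    (v := Var[innerSL ℝ w; gam n].toNNReal) 1
  rw [← h, integrable_map_measure (by fun_prop) (by fun_prop)] at h1
  refine h1.congr (Eventually.of_forall fun x => ?_)
  simp only [Function.comp, one_mul, innerSL_apply_apply, real_inner_comm]

lemma integral_translate {n : ℕ} (A : Set (V n)) (hA : MeasurableSet A) (v : V n) (s : ℝ) :
    ∫ x in A, rad n ‖x + s • v‖
      = ∫ x in A, Real.exp (-(s * ⟪x, v⟫) - s ^ 2 * ‖v‖ ^ 2 / 2) ∂(gam n) := by
  rw [← integral_indicator hA, ← integral_indicator hA, integral_gam]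
  congr 1
  funext x
  by_cases hx : x ∈ A
  · rw [indicator_of_mem hx, indicator_of_mem hx]
    simp only [rad, smul_eq_mul]
    rw [mul_assoc, ← Real.exp_add]
    congr 2
    have : ‖x + s • v‖ ^ 2 = ‖x‖ ^ 2 + 2 * (s * ⟪x, v⟫) + s ^ 2 * ‖v‖ ^ 2 := by
      rw [norm_add_sq_real, real_inner_smul_right, norm_smul, mul_pow, Real.norm_eq_abs, sq_abs]
    rw [this]
    ring
  · rw [indicator_of_notMem hx, indicator_of_notMem hx, smul_zero]

lemma hasDerivAt_translate {n : ℕ} (A : Set (V n)) (v : V n) :
    HasDerivAt (fun s : ℝ => ∫ x in A, Real.exp (-(s * ⟪x, v⟫) - s ^ 2 * ‖v‖ ^ 2 / 2) ∂(gam n))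
      (-∫ x in A, ⟪x, v⟫ ∂(gam n)) 0 := by
  have h := hasDerivAt_integral_of_dominated_loc_of_deriv_le (μ := (gam n).restrict A)
    (F := fun (s : ℝ) (x : V n) => Real.exp (-(s * ⟪x, v⟫) - s ^ 2 * ‖v‖ ^ 2 / 2))
    (F' := fun (s : ℝ) (x : V n) => Real.exp (-(s * ⟪x, v⟫) - s ^ 2 * ‖v‖ ^ 2 / 2) *
      (-⟪x, v⟫ - s * ‖v‖ ^ 2))
    (x₀ := (0 : ℝ)) (s := Metric.ball (0 : ℝ) 1)
    (bound := fun x => (1 + ‖v‖ ^ 2) * (Real.exp ⟪x, (2 : ℝ) • v⟫ + Real.exp ⟪x, (-2 : ℝ) • v⟫))
    (Metric.ball_mem_nhds _ one_pos)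
    (Eventually.of_forall fun s => by
      apply Measurable.aestronglyMeasurable
      fun_prop) (by simp) (by
      apply Measurable.aestronglyMeasurable
      fun_prop)
    (Eventually.of_forall fun x s hs => by
      rw [mem_ball_zero_iff, Real.norm_eq_abs] at hs
      rw [Real.norm_eq_abs, abs_mul, abs_of_pos (Real.exp_pos _), real_inner_smul_right,
        real_inner_smul_right]
      set a := ⟪x, v⟫ with ha
      have h1 : Real.exp (-(s * a) - s ^ 2 * ‖v‖ ^ 2 / 2) ≤ Real.exp |a| := by
        apply Real.exp_le_exp.2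
        have h2 : -(s * a) ≤ |s * a| := neg_le_abs _
        rw [abs_mul] at h2
        have h3 : |s| * |a| ≤ 1 * |a| := mul_le_mul_of_nonneg_right hs.le (abs_nonneg _)
        have h4 : 0 ≤ s ^ 2 * ‖v‖ ^ 2 / 2 := by positivity
        linarith
      have h5 : |-a - s * ‖v‖ ^ 2| ≤ |a| + ‖v‖ ^ 2 := by
        have h6 : |-a - s * ‖v‖ ^ 2| ≤ |-a| + |s * ‖v‖ ^ 2| := abs_sub _ _
        rw [abs_neg, abs_mul, abs_of_nonneg (by positivity : (0 : ℝ) ≤ ‖v‖ ^ 2)] at h6
        have h7 : |s| * ‖v‖ ^ 2 ≤ 1 * ‖v‖ ^ 2 := mul_le_mul_of_nonneg_right hs.le (by positivity)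
        linarith
      have h8 : |a| ≤ Real.exp |a| := by
        have := Real.add_one_le_exp |a|
        linarith
      have h9 : (1 : ℝ) ≤ Real.exp |a| := Real.one_le_exp (abs_nonneg _)
      have h10 : |a| + ‖v‖ ^ 2 ≤ (1 + ‖v‖ ^ 2) * Real.exp |a| := by
        have : ‖v‖ ^ 2 * 1 ≤ ‖v‖ ^ 2 * Real.exp |a| :=
          mul_le_mul_of_nonneg_left h9 (by positivity)
        linarith
      have h11 : Real.exp |a| * Real.exp |a| ≤ Real.exp (2 * a) + Real.exp (-2 * a) := by
        rw [← Real.exp_add]
        rcases abs_cases a with ⟨h, _⟩ | ⟨h, _⟩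
        · rw [h]
          have := Real.exp_pos (-2 * a)
          have e : a + a = 2 * a := by ring
          rw [e]; linarith
        · rw [h]
          have := Real.exp_pos (2 * a)
          have e : -a + -a = -2 * a := by ring
          rw [e]; linarith
      calc Real.exp (-(s * a) - s ^ 2 * ‖v‖ ^ 2 / 2) * |-a - s * ‖v‖ ^ 2|
          ≤ Real.exp |a| * ((1 + ‖v‖ ^ 2) * Real.exp |a|) :=
            mul_le_mul h1 (h5.trans h10) (abs_nonneg _) (Real.exp_pos _).le
        _ = (1 + ‖v‖ ^ 2) * (Real.exp |a| * Real.exp |a|) := by ring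
        _ ≤ _ := mul_le_mul_of_nonneg_left h11 (by positivity))
    (((integrable_exp_inner _).add (integrable_exp_inner _)).const_mul _).integrableOn
    (Eventually.of_forall fun x s _ => by
      have d1 : HasDerivAt (fun s : ℝ => -(s * ⟪x, v⟫) - s ^ 2 * ‖v‖ ^ 2 / 2)
          (-⟪x, v⟫ - s * ‖v‖ ^ 2) s := by
        have d2 := ((hasDerivAt_id s).mul_const ⟪x, v⟫).neg
        have d3 := ((hasDerivAt_pow 2 s).mul_const (‖v‖ ^ 2)).div_const 2
        have d4 := d2.sub d3
        convert! d4 using 1
        norm_num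
        ring
      exact d1.exp)
  have h2 := h.2
  convert! h2 using 1
  rw [← integral_neg]
  congr 1
  funext x
  simp

/-- Part PL (Prekopa–Leindler). -/
theorem PL_cone {n : ℕ} {ι : Type} [Fintype ι] [Nonempty ι] (w : ι → V n) (v : V n)
    (hv : ∀ j, ⟪v, w j⟫ = 1) (T : V n → ℝ) (hT : ∀ x, T x = ⨅ j, ⟪x, w j⟫) :
    (∫ x in {x | 0 ≤ T x}, T x ∂(gam n)) * (∫ x in {x | 0 ≤ T x}, ⟪x, v⟫ ∂(gam n))
      ≤ ((gam n).real {x | 0 ≤ T x}) ^ 2 := by
  have hTle : ∀ s x, s ≤ T x ↔ ∀ j, s ≤ ⟪x, w j⟫ := by
    intro s x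
    rw [hT]
    exact le_ciInf_iff (Set.finite_range _).bddBelow
  have hTmeas : Measurable T := by
    have : T = fun x => ⨅ j, ⟪x, w j⟫ := funext hT
    rw [this]
    exact Measurable.iInf fun j => by fun_prop
  set A : Set (V n) := {x | 0 ≤ T x} with hAdef
  have hA : MeasurableSet A := measurableSet_le measurable_const hTmeas
  have hconv : Convex ℝ A := by
    intro x hx y hy a b ha hb _
    simp only [hAdef, mem_ofPred_eq, hTle] at hx hy ⊢
    intro j
    rw [inner_add_left, real_inner_smul_left, real_inner_smul_left]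
    have := hx j
    have := hy j
    positivity
  set f : ℝ → ℝ := fun s => ∫ x in A, rad n ‖x + s • v‖ with hf
  set p := (gam n).real A with hp
  set m := ∫ x in A, ⟪x, v⟫ ∂(gam n) with hm
  have hmeas := measurable_rad n
  -- value of `f`
  have hfval : ∀ s, f s = (gam n).real {x | s ≤ T x} := by
    intro s
    have hm' : MeasurableSet {x | s ≤ T x} := measurableSet_le measurable_const hTmeas
    have h1 : (gam n).real {x | s ≤ T x} = ∫ x in {x | s ≤ T x}, (1 : ℝ) ∂(gam n) := by simp
    rw [h1, ← integral_indicator hm', integral_gam,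
      ← integral_add_right_eq_self (μ := (volume : Measure (V n))) _ (s • v)]
    simp only [hf]
    rw [← integral_indicator hA]
    congr 1
    funext x
    have h2 : (x + s • v ∈ {x | s ≤ T x}) ↔ x ∈ A := by
      simp only [hAdef, mem_ofPred_eq, hTle]
      refine forall_congr' fun j => ?_
      rw [inner_add_left, real_inner_smul_left, hv j]
      constructor <;> intro h <;> linarith
    by_cases hx : x ∈ A
    · rw [indicator_of_mem hx, indicator_of_mem (h2.2 hx)]
      simp
    · rw [indicator_of_notMem hx, indicator_of_notMem (fun h => hx (h2.1 h))]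
      simp
  have hf0 : f 0 = p := hfval 0
  have hfnn : ∀ s, 0 ≤ f s := fun s => by rw [hfval]; exact measureReal_nonneg
  have hfd : HasDerivAt f (-m) 0 := by
    have h := hasDerivAt_translate A v
    have h2 : f = fun s : ℝ => ∫ x in A, Real.exp (-(s * ⟪x, v⟫) - s ^ 2 * ‖v‖ ^ 2 / 2) ∂(gam n) := by
      funext s
      exact integral_translate A hA v s
    rw [h2]
    exact h
  have hlc : ∀ t ∈ Ioo (0 : ℝ) 1, ∀ s, p ^ (1 - t) * (f s) ^ t ≤ f (t * s) := by
    intro t ht s
    have h := translate_logconcave t ht A hA hconv (s • v)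
    have e1 : (∫ x in A, rad n ‖x‖) = p := by
      rw [← hf0, hf]
      simp
    rw [e1, smul_smul] at h
    exact h
  -- layer cake
  have hTint : ∫ x in A, T x ∂(gam n) = ∫ s in Ioi (0 : ℝ), f s := by
    obtain ⟨j0⟩ := (inferInstance : Nonempty ι)
    have hi0 : Integrable (fun x : V n => ⟪x, w j0⟫) (gam n) := by
      have hN : Integrable (fun x : V n => ‖x‖) (gam n) :=
        (IsGaussian.integrable_id (μ := gam n)).norm
      refine (hN.mul_const ‖w j0‖).mono' (by fun_prop) (Eventually.of_forall fun x => ?_)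
      exact norm_inner_le_norm (𝕜 := ℝ) x (w j0)
    have hint : Integrable (fun x => max (T x) 0) (gam n) := by
      refine hi0.mono (hTmeas.max measurable_const).aestronglyMeasurable
        (Eventually.of_forall fun x => ?_)
      rw [Real.norm_of_nonneg (le_max_right _ _), Real.norm_eq_abs]
      apply max_le _ (abs_nonneg _)
      exact ((hTle _ x).1 le_rfl j0).trans (le_abs_self _)
    have h1 := hint.integral_eq_integral_meas_le (Eventually.of_forall fun x => le_max_right _ _)
    have h2 : ∫ x in A, T x ∂(gam n) = ∫ x, max (T x) 0 ∂(gam n) := by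
      rw [← integral_indicator hA]
      congr 1
      funext x
      by_cases hx : x ∈ A
      · rw [indicator_of_mem hx, max_eq_left hx]
      · rw [indicator_of_notMem hx, max_eq_right (not_le.1 hx).le]
    rw [h2, h1]
    apply setIntegral_congr_fun measurableSet_Ioi
    intro s hs
    have hs' : 0 < s := hs
    simp only
    rw [hfval]
    congr 1
    ext x
    simp only [mem_ofPred_eq, le_max_iff]
    constructor
    · rintro (h | h)
      · exact h
      · linarith
    · intro h; exact Or.inl h
  rw [hTint]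
  have hIf : 0 ≤ ∫ s in Ioi (0 : ℝ), f s := integral_nonneg fun s => hfnn s
  rcases le_or_gt m 0 with hm0 | hm0
  · have : (∫ s in Ioi (0 : ℝ), f s) * m ≤ 0 := mul_nonpos_of_nonneg_of_nonpos hIf hm0
    have h2 : 0 ≤ p ^ 2 := by positivity
    linarith
  have hp0 : 0 < p := by
    rcases (measureReal_nonneg : 0 ≤ p).eq_or_lt with h | h
    · exfalso
      have h4 : gam n A = 0 := by
        rw [measureReal_def] at h
        rcases (ENNReal.toReal_eq_zero_iff _).1 h.symm with h | h
        · exact h
        · exact absurd h (measure_ne_top _ _)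
      have : m = 0 := by rw [hm, setIntegral_measure_zero _ h4]
      linarith
    · exact h
  have hbound : ∀ s, 0 < s → f s ≤ p * Real.exp (-(m / p) * s) := by
    intro s hs
    rcases (hfnn s).eq_or_lt with h0 | hfs
    · rw [← h0]; positivity
    -- derivative comparison
    have hd1 : HasDerivAt (fun t : ℝ => f (t * s)) (-m * s) 0 := by
      have h1 : HasDerivAt (fun t : ℝ => t * s) s 0 := by
        simpa using (hasDerivAt_id (0 : ℝ)).mul_const s
      have h2 : HasDerivAt f (-m) ((fun t : ℝ => t * s) 0) := by simpa using hfd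
      exact h2.comp (0 : ℝ) h1
    have hd2 : HasDerivAt (fun t : ℝ => p * Real.exp (Real.log (f s / p) * t))
        (p * Real.log (f s / p)) 0 := by
      have h1 : HasDerivAt (fun t : ℝ => Real.log (f s / p) * t) (Real.log (f s / p)) 0 := by
        simpa using (hasDerivAt_id (0 : ℝ)).const_mul (Real.log (f s / p))
      have h2 := (h1.exp).const_mul p
      simpa using h2
    have hd := hd1.sub hd2
    have hlim := hd.tendsto_slope_zero_right
    have hge : 0 ≤ -m * s - p * Real.log (f s / p) := by
      apply ge_of_tendsto hlim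
      have hmem : Ioo (0 : ℝ) 1 ∈ 𝓝[>] (0 : ℝ) := Ioo_mem_nhdsGT one_pos
      filter_upwards [hmem] with t ht
      have h3 := hlc t ht s
      have h4 : p ^ (1 - t) * (f s) ^ t = p * Real.exp (Real.log (f s / p) * t) := by
        rw [← Real.rpow_def_of_pos (by positivity), Real.div_rpow hfs.le hp0.le,
          Real.rpow_sub hp0, Real.rpow_one]
        ring
      rw [h4] at h3
      simp only [Pi.sub_apply, zero_add, zero_mul, mul_zero, Real.exp_zero, mul_one, hf0, sub_self,
        sub_zero, smul_eq_mul]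
      have : 0 < t⁻¹ := inv_pos.2 ht.1
      apply mul_nonneg this.le
      linarith
    have h5 : Real.log (f s / p) ≤ -(m / p) * s := by
      have h6 : p * Real.log (f s / p) ≤ -m * s := by linarith
      have h7 : -(m / p) * s = (-m * s) / p := by ring
      rw [h7, le_div_iff₀ hp0]
      linarith
    rw [Real.log_le_iff_le_exp (by positivity), div_le_iff₀ hp0] at h5
    linarith
  have hle : ∫ s in Ioi (0 : ℝ), f s ≤ ∫ s in Ioi (0 : ℝ), p * Real.exp (-(m / p) * s) := by
    apply integral_mono_of_nonneg (Eventually.of_forall fun s => hfnn s)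
    · have : -(m / p) < 0 := by
        have : 0 < m / p := by positivity
        linarith
      exact (integrableOn_exp_mul_Ioi this 0).const_mul p
    · filter_upwards [ae_restrict_mem measurableSet_Ioi] with s hs
      exact hbound s hs
  have hval : ∫ s in Ioi (0 : ℝ), p * Real.exp (-(m / p) * s) = p ^ 2 / m := by
    rw [integral_const_mul, integral_exp_mul_Ioi (by
      have : 0 < m / p := by positivity
      linarith)]
    rw [mul_zero, Real.exp_zero]
    field_simp
  rw [hval] at hle
  calc (∫ s in Ioi (0 : ℝ), f s) * m ≤ p ^ 2 / m * m := mul_le_mul_of_nonneg_right hle hm0.le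
    _ = p ^ 2 := by field_simp

end Crest.Agent.Prop334
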