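import Crest.Agent.S0109C
import Crest.Agent.Prop334.CapB

/-! Propeller inequality (S0334), part PL: Prékopa–Leindler for Gaussian translates. -/

set_option autoImplicit false

open MeasureTheory ProbabilityTheory Filter Topology Set
open scoped RealInnerProductSpace

namespace Crest.Agent.Prop334

open Crest.Agent.S0109

/-- Prékopa–Leindler for bounded functions on a bounded set -/
theorem PL_bounded {n : ℕ} (t : ℝ) (ht : t ∈ Ioo (0 : ℝ) 1) (A : Set (V n)) (hA : MeasurableSet A)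
    (hb : Bornology.IsBounded A) (hconv : Convex ℝ A) (f₀ f₁ h : V n → ℝ) (m₀ : Measurable f₀)
    (m₁ : Measurable f₁) (mh : Measurable h) (p₀ : ∀ x, 0 < f₀ x) (p₁ : ∀ x, 0 < f₁ x)
    (ph : ∀ x, 0 < h x) (B : ℝ) (b₀ : ∀ x, f₀ x ≤ B) (b₁ : ∀ x, f₁ x ≤ B) (bh : ∀ x, h x ≤ B)
    (H : ∀ x ∈ A, ∀ x' ∈ A, (f₀ x) ^ (1 - t) * (f₁ x') ^ t ≤ h ((1 - t) • x + t • x')) :
    (∫ x in A, f₀ x) ^ (1 - t) * (∫ x in A, f₁ x) ^ t ≤ ∫ x in A, h x := by
  have ht0 : 0 < t := ht.1
  have ht1 : 0 < 1 - t := by linarith [ht.2]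
  have hJ : 0 ≤ ∫ x in A, h x := integral_nonneg fun x => (ph x).le
  have hI₀' : 0 ≤ ∫ x in A, f₀ x := integral_nonneg fun x => (p₀ x).le
  have hI₁' : 0 ≤ ∫ x in A, f₁ x := integral_nonneg fun x => (p₁ x).le
  rcases hI₀'.eq_or_lt with h0 | hI₀
  · rw [← h0, Real.zero_rpow ht1.ne', zero_mul]; exact hJ
  rcases hI₁'.eq_or_lt with h1 | hI₁
  · rw [← h1, Real.zero_rpow ht0.ne', mul_zero]; exact hJ
  set I₀ := ∫ x in A, f₀ x with hI₀def
  set I₁ := ∫ x in A, f₁ x with hI₁def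
  set K := I₀ ^ (1 - t) * I₁ ^ t with hK
  have hKpos : 0 < K := by positivity
  have hBpos : 0 < B := lt_of_lt_of_le (p₀ 0) (b₀ 0)
  have key := addPL t ht n
    (fun x => A.indicator (fun x => f₀ x * I₀⁻¹) (WithLp.toLp 2 x))
    (fun x => A.indicator (fun x => f₁ x * I₁⁻¹) (WithLp.toLp 2 x))
    (fun x => A.indicator (fun x => h x * K⁻¹) (WithLp.toLp 2 x))
    (fun _ => 1) (fun _ => 0)
    (nice_indicator A hA hb _ (m₀.mul_const _) (B * |I₀⁻¹|) (fun x _ => by
      rw [abs_mul, abs_of_pos (p₀ x)]; exact mul_le_mul_of_nonneg_right (b₀ x) (abs_nonneg _)))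
    (nice_indicator A hA hb _ (m₁.mul_const _) (B * |I₁⁻¹|) (fun x _ => by
      rw [abs_mul, abs_of_pos (p₁ x)]; exact mul_le_mul_of_nonneg_right (b₁ x) (abs_nonneg _)))
    (nice_indicator A hA hb _ (mh.mul_const _) (B * |K⁻¹|) (fun x _ => by
      rw [abs_mul, abs_of_pos (ph x)]; exact mul_le_mul_of_nonneg_right (bh x) (abs_nonneg _)))
    measurable_const measurable_const 1 (fun _ => by simp) (fun _ => by simp)
    (fun x => indicator_nonneg (fun y _ => mul_nonneg (p₀ y).le (inv_nonneg.mpr hI₀.le)) _)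
    (fun x => indicator_nonneg (fun y _ => mul_nonneg (p₁ y).le (inv_nonneg.mpr hI₁.le)) _)
    (fun x => indicator_nonneg (fun y _ => mul_nonneg (ph y).le (inv_nonneg.mpr hKpos.le)) _)
    (by
      rw [integral_toLp (fun x => A.indicator (fun x => f₀ x * I₀⁻¹) x), integral_indicator hA,
        integral_mul_const, ← hI₀def, mul_inv_cancel₀ hI₀.ne'])
    (by
      rw [integral_toLp (fun x => A.indicator (fun x => f₁ x * I₁⁻¹) x), integral_indicator hA,
        integral_mul_const, ← hI₁def, mul_inv_cancel₀ hI₁.ne'])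
    (by
      intro x x' hx hx'
      have hxV : (WithLp.toLp 2 x : V n) ∈ A := by
        by_contra h
        simp only [indicator_of_notMem h] at hx
        exact lt_irrefl _ hx
      have hxV' : (WithLp.toLp 2 x' : V n) ∈ A := by
        by_contra h
        simp only [indicator_of_notMem h] at hx'
        exact lt_irrefl _ hx'
      have hzz : (WithLp.toLp 2 ((1 - t) • x + t • x') : V n)
          = (1 - t) • (WithLp.toLp 2 x : V n) + t • (WithLp.toLp 2 x' : V n) := rfl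
      have hzV : (1 - t) • (WithLp.toLp 2 x : V n) + t • (WithLp.toLp 2 x' : V n) ∈ A :=
        hconv hxV hxV' ht1.le ht0.le (by ring)
      simp only [indicator_of_mem hxV, indicator_of_mem hxV', hzz, indicator_of_mem hzV]
      have HH := H _ hxV _ hxV'
      have q0 := p₀ (WithLp.toLp 2 x)
      have q1 := p₁ (WithLp.toLp 2 x')
      rw [Real.mul_rpow q0.le (inv_nonneg.mpr hI₀.le), Real.mul_rpow q1.le (inv_nonneg.mpr hI₁.le)]
      have e1 : (I₀⁻¹) ^ (-(1 - t)) = I₀ ^ (1 - t) := by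
        rw [Real.inv_rpow hI₀.le, Real.rpow_neg hI₀.le, inv_inv]
      have e2 : (I₁⁻¹) ^ (-t) = I₁ ^ t := by
        rw [Real.inv_rpow hI₁.le, Real.rpow_neg hI₁.le, inv_inv]
      rw [e1, e2, Real.rpow_neg q0.le, Real.rpow_neg q1.le]
      have e3 : h ((1 - t) • (WithLp.toLp 2 x : V n) + t • (WithLp.toLp 2 x' : V n)) * K⁻¹ *
          (((f₀ (WithLp.toLp 2 x)) ^ (1 - t))⁻¹ * I₀ ^ (1 - t)
            * (((f₁ (WithLp.toLp 2 x')) ^ t)⁻¹ * I₁ ^ t))
          = h ((1 - t) • (WithLp.toLp 2 x : V n) + t • (WithLp.toLp 2 x' : V n)) /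
            ((f₀ (WithLp.toLp 2 x)) ^ (1 - t) * (f₁ (WithLp.toLp 2 x')) ^ t) := by
        rw [hK]
        have w1 : 0 < I₀ ^ (1 - t) := by positivity
        have w2 : 0 < I₁ ^ t := by positivity
        have w3 : 0 < (f₀ (WithLp.toLp 2 x)) ^ (1 - t) := by positivity
        have w4 : 0 < (f₁ (WithLp.toLp 2 x')) ^ t := by positivity
        field_simp
      rw [e3, add_zero, one_le_div (by positivity)]
      exact HH)
  simp only [one_mul, zero_mul, integral_zero, add_zero] at key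
  rw [integral_toLp (fun x => A.indicator (fun x => f₀ x * I₀⁻¹) x), integral_indicator hA,
        integral_mul_const, ← hI₀def, mul_inv_cancel₀ hI₀.ne',
    integral_toLp (fun x => A.indicator (fun x => h x * K⁻¹) x), integral_indicator hA,
    integral_mul_const, ← div_eq_mul_inv, one_le_div hKpos] at key
  exact key

lemma rad_pos (n : ℕ) (r : ℝ) : 0 < rad n r := by
  unfold rad; positivity

lemma rad_le (n : ℕ) (r : ℝ) : rad n r ≤ ((2 * Real.pi) ^ ((n : ℝ) / 2))⁻¹ := by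
  unfold rad
  have : Real.exp (-(r ^ 2) / 2) ≤ 1 := by
    rw [Real.exp_le_one_iff]
    have := sq_nonneg r
    linarith
  have h2 : 0 ≤ ((2 * Real.pi) ^ ((n : ℝ) / 2))⁻¹ := by positivity
  nlinarith

lemma rad_logconcave {n : ℕ} {t : ℝ} (ht : t ∈ Ioo (0 : ℝ) 1) (z₀ z₁ : V n) :
    (rad n ‖z₀‖) ^ (1 - t) * (rad n ‖z₁‖) ^ t ≤ rad n ‖(1 - t) • z₀ + t • z₁‖ := by
  have ht0 : 0 < t := ht.1
  have ht1 : 0 < 1 - t := by linarith [ht.2]
  unfold rad
  have hc : 0 < ((2 * Real.pi) ^ ((n : ℝ) / 2))⁻¹ := by positivity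
  set c := ((2 * Real.pi) ^ ((n : ℝ) / 2))⁻¹ with hcdef
  rw [Real.mul_rpow hc.le (Real.exp_pos _).le, Real.mul_rpow hc.le (Real.exp_pos _).le,
    ← Real.exp_mul, ← Real.exp_mul]
  have e1 : c ^ (1 - t) * c ^ t = c := by
    rw [← Real.rpow_add hc]
    have : 1 - t + t = 1 := by ring
    rw [this, Real.rpow_one]
  have e2 : ‖(1 - t) • z₀ + t • z₁‖ ^ 2 ≤ (1 - t) * ‖z₀‖ ^ 2 + t * ‖z₁‖ ^ 2 := by
    have e3 : ‖(1 - t) • z₀ + t • z₁‖ ^ 2 = (1 - t) * ‖z₀‖ ^ 2 + t * ‖z₁‖ ^ 2
        - t * (1 - t) * ‖z₀ - z₁‖ ^ 2 := by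
      simp only [← real_inner_self_eq_norm_sq, inner_add_left, inner_add_right, inner_sub_left,
        inner_sub_right, real_inner_smul_left, real_inner_smul_right]
      rw [real_inner_comm z₁ z₀]
      ring
    rw [e3]
    have : 0 ≤ t * (1 - t) * ‖z₀ - z₁‖ ^ 2 := by positivity
    linarith
  calc c ^ (1 - t) * Real.exp (-‖z₀‖ ^ 2 / 2 * (1 - t)) * (c ^ t * Real.exp (-‖z₁‖ ^ 2 / 2 * t))
      = (c ^ (1 - t) * c ^ t) * (Real.exp (-‖z₀‖ ^ 2 / 2 * (1 - t)) * Real.exp (-‖z₁‖ ^ 2 / 2 * t)) := by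
        ring
    _ = c * Real.exp (-‖z₀‖ ^ 2 / 2 * (1 - t) + -‖z₁‖ ^ 2 / 2 * t) := by
        rw [e1, Real.exp_add]
    _ ≤ c * Real.exp (-‖(1 - t) • z₀ + t • z₁‖ ^ 2 / 2) := by
        apply mul_le_mul_of_nonneg_left _ hc.le
        apply Real.exp_le_exp.2
        linarith

lemma integrable_rad_add {n : ℕ} (w : V n) : Integrable (fun x : V n => rad n ‖x + w‖) :=
  (integrable_rad n).comp_add_right w

/-- log-concavity of the Gaussian measure of translates of a convex set -/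
theorem translate_logconcave {n : ℕ} (t : ℝ) (ht : t ∈ Ioo (0 : ℝ) 1) (A : Set (V n))
    (hA : MeasurableSet A) (hconv : Convex ℝ A) (w : V n) :
    (∫ x in A, rad n ‖x‖) ^ (1 - t) * (∫ x in A, rad n ‖x + w‖) ^ t
      ≤ ∫ x in A, rad n ‖x + t • w‖ := by
  have ht0 : 0 < t := ht.1
  have ht1 : 0 < 1 - t := by linarith [ht.2]
  have hmeas := measurable_rad n
  set S : ℕ → Set (V n) := fun k => A ∩ Metric.closedBall 0 (k : ℝ) with hS
  have hSm : ∀ k, MeasurableSet (S k) := fun k => hA.inter Metric.isClosed_closedBall.measurableSet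
  have hSmono : Monotone S := by
    intro i j hij
    apply inter_subset_inter_right
    exact Metric.closedBall_subset_closedBall (by exact_mod_cast hij)
  have hSU : ⋃ k, S k = A := by
    rw [hS]; exact Metric.iUnion_inter_closedBall_nat A 0
  have hlim : ∀ f : V n → ℝ, Integrable f →
      Tendsto (fun k => ∫ x in S k, f x) atTop (𝓝 (∫ x in A, f x)) := by
    intro f hf
    have := tendsto_setIntegral_of_monotone (μ := (volume : Measure (V n))) (f := f) hSm hSmono
      (hf.integrableOn)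
    rwa [hSU] at this
  have h1 : ∀ k, (∫ x in S k, rad n ‖x‖) ^ (1 - t) * (∫ x in S k, rad n ‖x + w‖) ^ t
      ≤ ∫ x in S k, rad n ‖x + t • w‖ := by
    intro k
    refine PL_bounded t ht (S k) (hSm k)
      (Metric.isBounded_closedBall.subset inter_subset_right)
      (hconv.inter (convex_closedBall 0 _)) _ _ _ (by fun_prop) (by fun_prop) (by fun_prop)
      (fun x => rad_pos n _) (fun x => rad_pos n _) (fun x => rad_pos n _)
      (((2 * Real.pi) ^ ((n : ℝ) / 2))⁻¹) (fun x => rad_le n _) (fun x => rad_le n _)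
      (fun x => rad_le n _) ?_
    intro x _ x' _
    have h := rad_logconcave ht x (x' + w)
    have e : (1 - t) • x + t • (x' + w) = (1 - t) • x + t • x' + t • w := by
      rw [smul_add]; abel
    rwa [e] at h
  have l0 := (hlim _ (integrable_rad n)).rpow_const (p := 1 - t) (Or.inr ht1.le)
  have l1 := (hlim _ (integrable_rad_add w)).rpow_const (p := t) (Or.inr ht0.le)
  exact le_of_tendsto_of_tendsto' (l0.mul l1) (hlim _ (integrable_rad_add (t • w))) h1

end Crest.Agent.Prop334
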