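import Crest.Agent.Prop334.Defs

/-! Propeller inequality (S0334), part REG4. -/

set_option autoImplicit false

open Real

namespace Crest.Agent.Prop334

/-- transport of the data along a permutation -/
def RegData.perm {k : ℕ} {η : ℝ} (D : RegData k η) (σ : Equiv.Perm (Fin k)) : RegData k η where
  t := fun i => D.t (σ i)
  p := fun i => D.p (σ i)
  r := fun i j => D.r (σ i) (σ j)
  tpos := fun i => D.tpos _
  ppos := fun i => D.ppos _
  rsymm := fun i j => D.rsymm _ _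
  rpos := fun i j h => D.rpos _ _ fun h' => h (σ.injective h')
  rsum := fun i => by
    rw [← D.rsum (σ i)]
    refine Finset.sum_bij (fun j _ => σ j) ?_ ?_ ?_ ?_
    · intro j hj
      rw [Finset.mem_erase] at hj ⊢
      exact ⟨fun h => hj.1 (σ.injective h), Finset.mem_univ _⟩
    · intro a _ b _ h
      exact σ.injective h
    · intro b hb
      rw [Finset.mem_erase] at hb
      refine ⟨σ.symm b, ?_, σ.apply_symm_apply b⟩
      rw [Finset.mem_erase]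
      refine ⟨fun h => hb.1 ?_, Finset.mem_univ _⟩
      rw [← h, σ.apply_symm_apply]
    · intro j _; rfl
  psum := by rw [← D.psum]; exact Equiv.sum_comp σ _
  tsum := by
    have := D.tsum
    rwa [← Equiv.sum_comp σ] at this
  tle := fun i => D.tle _
  PLb := fun i => D.PLb _
  TG := fun o a b c h1 h2 h3 h4 h5 h6 =>
    D.TG _ _ _ _ (fun h => h1 (σ.injective h)) (fun h => h2 (σ.injective h))
      (fun h => h3 (σ.injective h)) (fun h => h4 (σ.injective h)) (fun h => h5 (σ.injective h))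
      (fun h => h6 (σ.injective h))

namespace Reg4

/-- constant bounds -/
theorem c_lo : (0.35809 : ℝ) < 9 / (8 * Real.pi) := by
  rw [lt_div_iff₀ (by positivity)]
  have := Real.pi_lt_d4
  linarith

theorem inv_hi : 1 / (2 * Real.pi) < (0.15916 : ℝ) := by
  rw [div_lt_iff₀ (by positivity)]
  have := Real.pi_gt_d4
  linarith

/-- the final polynomial inequality -/
theorem final_ineq (t0 A R : ℝ) (h0 : 0 < t0) (hA : 0.35809 - t0 ≤ A)
    (hR : 0 ≤ R) (hRA : R ≤ 3 * 0.15916 - 0.35809 + 5/3 * t0) (ht : t0 ≤ 0.008) :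
    t0 ≤ 0.216 * (3/4 * (A - t0/3)^2 - 3 * R^2) := by
  have h1 : (0.35809 - 4/3 * t0)^2 ≤ (A - t0/3)^2 := by
    apply pow_le_pow_left₀ <;> linarith
  have h2 : R^2 ≤ (3 * 0.15916 - 0.35809 + 5/3 * t0)^2 := pow_le_pow_left₀ hR hRA 2
  nlinarith

theorem final_ineq' (t0 A R : ℝ) (h0 : 0 < t0) (hA : 0.35809 - t0 ≤ A)
    (hR : 0 ≤ R) (hRA : R ≤ 3 * 0.14136 - 0.35809 + 5/3 * t0) (ht : t0 ≤ 0.013122) :
    t0 ≤ 0.216 * (3/4 * (A - t0/3)^2 - 3 * R^2) := by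
  have h1 : (0.35809 - 4/3 * t0)^2 ≤ (A - t0/3)^2 := by
    apply pow_le_pow_left₀ <;> linarith
  have h2 : R^2 ≤ (3 * 0.14136 - 0.35809 + 5/3 * t0)^2 := pow_le_pow_left₀ hR hRA 2
  nlinarith

theorem two_thirds {d1 d2 d3 R : ℝ} (h : d1 + d2 + d3 = 0) (h1 : |d1| ≤ R) (h2 : |d2| ≤ R)
    (h3 : |d3| ≤ R) : d1^2 + d2^2 + d3^2 ≤ 2 * R^2 := by
  rw [abs_le] at h1 h2 h3
  have e3 : d3 = -(d1 + d2) := by linarith
  subst e3
  rcases le_total 0 d1 with a | a <;> rcases le_total 0 d2 with b | b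
  · nlinarith [mul_nonneg a b]
  · rcases le_total 0 (d1 + d2) with c | c
    · nlinarith [mul_nonneg (neg_nonneg.2 b) c]
    · nlinarith [mul_nonneg a (neg_nonneg.2 c)]
  · rcases le_total 0 (d1 + d2) with c | c
    · nlinarith [mul_nonneg (neg_nonneg.2 a) c]
    · nlinarith [mul_nonneg b (neg_nonneg.2 c)]
  · nlinarith [mul_nonneg (neg_nonneg.2 a) (neg_nonneg.2 b)]

/-- majorant of the sum of the three other cells -/
theorem f_major {P x : ℝ} (hP : 0 ≤ P) (hP1 : P ≤ 1/4) (hx : P ≤ x) (hx1 : x ≤ 1) :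
    x^2 * (1-x)^2 ≤ ((1-P)/3)^2 * (1-(1-P)/3)^2 +
      2 * ((1-P)/3) * (1-(1-P)/3) * (1 - 2*((1-P)/3)) * (x - (1-P)/3) := by
  set q := (1-P)/3 with hq
  have hPq : P = 1 - 3*q := by rw [hq]; ring
  have hg : (x-q)^2 - 2*(1-2*q)*(x-q) - (6*q-6*q^2-1) ≤ 0 := by
    have h1 : 0 ≤ (x - P) * (1 - x) := mul_nonneg (by linarith) (by linarith)
    rw [hPq] at h1 hx hP hP1
    nlinarith [mul_nonneg (show (0:ℝ) ≤ q by linarith) (show (0:ℝ) ≤ x - (1 - 3*q) by linarith),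
      mul_nonneg (show (0:ℝ) ≤ q by linarith) (show (0:ℝ) ≤ 1 - 3*q by linarith)]
  nlinarith [mul_nonneg_of_nonpos_of_nonpos hg (neg_nonpos.2 (sq_nonneg (x-q)))]

theorem f_major' {P x : ℝ} (hP : 0 ≤ P) (_hP1 : P ≤ 1/4) (hx : 0.38 ≤ x) (hx1 : x ≤ 1) :
    x^2 * (1-x)^2 ≤ ((1-P)/3)^2 * (1-(1-P)/3)^2 +
      2 * ((1-P)/3) * (1-(1-P)/3) * (1 - 2*((1-P)/3)) * (x - (1-P)/3)
      - (6*((1-P)/3)-6*((1-P)/3)^2-1) * (x - (1-P)/3)^2 := by
  set q := (1-P)/3 with hq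
  have hq1 : q ≤ 1/3 := by rw [hq]; linarith
  have hg : 0 ≤ (x-q) * (2*(1-2*q) - (x-q)) := by
    apply mul_nonneg <;> linarith
  have key : x^2 * (1-x)^2 = q^2*(1-q)^2 + 2*q*(1-q)*(1-2*q)*(x-q)
      - (6*q-6*q^2-1) * (x-q)^2 - (x-q)^2 * ((x-q) * (2*(1-2*q) - (x-q))) := by ring
  rw [key]
  nlinarith [mul_nonneg (sq_nonneg (x-q)) hg]

/-- small `P` -/
theorem P_small {P T : ℝ} (hP : 0 ≤ P) (hP1 : P ≤ 1/4) (hT1 : T ≤ P^2*(1-P)^2)
    (hT2 : T ≤ 0.7854 * P^2) (h : 9/64 < T + 3 * (((1-P)/3)^2 * (1-(1-P)/3)^2)) : P < 0.081 := by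
  by_contra hcon
  push Not at hcon
  have e : 3 * (((1-P)/3)^2 * (1-(1-P)/3)^2) = (1-P)^2*(2+P)^2/27 := by ring
  rw [e] at h
  by_cases h1 : P ≤ 0.0918
  · nlinarith [mul_nonneg (sub_nonneg.2 hcon) (sub_nonneg.2 h1),
      mul_nonneg (mul_nonneg (sub_nonneg.2 hcon) (sub_nonneg.2 h1)) hP,
      mul_nonneg (mul_nonneg (sub_nonneg.2 hcon) (sub_nonneg.2 h1)) (mul_nonneg hP hP)]
  · push Not at h1
    have h2 : 28*P^2-38*P+3.25 ≤ 0 := by nlinarith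
    have h3 := mul_nonneg (sq_nonneg (P-1/4)) (neg_nonneg.2 h2)
    nlinarith

theorem x_small {P T x : ℝ} (hP : 0.0632 ≤ P) (hP1 : P ≤ 0.081) (hT2 : T ≤ 0.7854 * P^2)
    (hx : 0.38 ≤ x)
    (h : 9/64 < T + 3 * (((1-P)/3)^2 * (1-(1-P)/3)^2)
      - (6*((1-P)/3)-6*((1-P)/3)^2-1) * (x - (1-P)/3)^2) : False := by
  have e : 3 * (((1-P)/3)^2 * (1-(1-P)/3)^2) = (1-P)^2*(2+P)^2/27 := by ring
  have e2 : (6*((1-P)/3)-6*((1-P)/3)^2-1) = (1-2*P-2*P^2)/3 := by ring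
  rw [e, e2] at h
  have h1 : ((0.14+P)/3)^2 ≤ (x - (1-P)/3)^2 := by
    apply pow_le_pow_left₀ <;> linarith
  have h2 : 0 ≤ (1-2*P-2*P^2)/3 := by nlinarith
  have h3 := mul_le_mul_of_nonneg_left h1 h2
  have h4 : 9/64 < 0.7854 * P^2 + (1-P)^2*(2+P)^2/27 - (1-2*P-2*P^2)/3 * ((0.14+P)/3)^2 := by
    linarith
  nlinarith [mul_nonneg (sub_nonneg.2 hP) (sub_nonneg.2 hP1),
      mul_nonneg (mul_nonneg (sub_nonneg.2 hP) (sub_nonneg.2 hP1)) (show (0:ℝ) ≤ P by linarith)]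

theorem t_of_x {x t : ℝ} (hx0 : 0 ≤ x) (hx : x ≤ 0.38) (h : t ≤ 8 / Real.pi * x^2*(1-x)^2) :
    t ≤ 0.14136 := by
  have h1 : x * (1-x) ≤ 0.2356 := by nlinarith
  have h2 : 0 ≤ x*(1-x) := mul_nonneg hx0 (by linarith)
  have h3 : x^2*(1-x)^2 ≤ 0.2356^2 := by
    rw [← mul_pow]
    exact pow_le_pow_left₀ h2 h1 2
  have h4 : 8 / Real.pi ≤ 8/3.1415 :=
    div_le_div_of_nonneg_left (by norm_num) (by norm_num) Real.pi_gt_d4.le
  calc t ≤ 8 / Real.pi * x^2*(1-x)^2 := h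
    _ = 8 / Real.pi * (x^2*(1-x)^2) := by ring
    _ ≤ 8/3.1415 * 0.2356^2 := by
      apply mul_le_mul h4 h3 (by positivity) (by norm_num)
    _ ≤ 0.14136 := by norm_num

/-- the area through `X` and the differences -/
theorem D2_eq {t0 t1 t2 t3 r01 r02 r03 r12 r13 r23 : ℝ} (h0 : r01 + r02 + r03 = t0)
    (h1 : r01 + r12 + r13 = t1) (h2 : r02 + r12 + r23 = t2) (h3 : r03 + r13 + r23 = t3) :
    t1 * t2 + t2 * t3 + t3 * t1 + 2 * (t1 * r23 + t2 * r13 + t3 * r12)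
    + 2 * (r12 * r23 + r23 * r13 + r13 * r12) - (r12 ^ 2 + r23 ^ 2 + r13 ^ 2) =
    3/4 * ((t1+t2+t3) - t0/3)^2 - 3/2 * (((t1 - 2/3*r01) - (t2 - 2/3*r02))^2 +
      ((t2 - 2/3*r02) - (t3 - 2/3*r03))^2 + ((t3 - 2/3*r03) - (t1 - 2/3*r01))^2) := by
  subst h0 h1 h2 h3
  ring

end Reg4

open Reg4

theorem region_4_real {P x y z t0 t1 t2 t3 r01 r02 r03 : ℝ}
    (hp : P + x + y + z = 1) (ht : 9 / (8 * Real.pi) < t0 + t1 + t2 + t3)
    (pp0 : 0 < P) (pp1 : 0 < x) (pp2 : 0 < y) (pp3 : 0 < z) (m1 : P ≤ x) (m2 : P ≤ y) (m3 : P ≤ z)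
    (t0p : 0 < t0) (h0 : r01 + r02 + r03 = t0)
    (q01 : 0 < r01) (q02 : 0 < r02) (q03 : 0 < r03)
    (TG : 216/1000 * (3/4 * ((t1+t2+t3) - t0/3)^2 - 3/2 * (((t1 - 2/3*r01) - (t2 - 2/3*r02))^2 +
      ((t2 - 2/3*r02) - (t3 - 2/3*r03))^2 + ((t3 - 2/3*r03) - (t1 - 2/3*r01))^2)) < t0)
    (c0 : t0 ≤ 8 / Real.pi * P ^ 2 * (1 - P) ^ 2) (c1 : t1 ≤ 8 / Real.pi * x ^ 2 * (1 - x) ^ 2)
    (c2 : t2 ≤ 8 / Real.pi * y ^ 2 * (1 - y) ^ 2) (c3 : t3 ≤ 8 / Real.pi * z ^ 2 * (1 - z) ^ 2)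
    (PL0 : t0 ≤ 2 * P^2) (l1 : t1 ≤ 1 / (2 * Real.pi)) (l2 : t2 ≤ 1 / (2 * Real.pi))
    (l3 : t3 ≤ 1 / (2 * Real.pi)) : False := by
  have hpi := Real.pi_pos
  have hP14 : P ≤ 1/4 := by linarith
  have hU : ∀ t p : ℝ, t ≤ 8 / Real.pi * p ^ 2 * (1 - p) ^ 2 →
      Real.pi / 8 * t ≤ p^2 * (1 - p)^2 := by
    intro t p h
    have h1 := mul_le_mul_of_nonneg_left h (by positivity : (0:ℝ) ≤ Real.pi / 8)
    have h2 : Real.pi / 8 * (8 / Real.pi * p ^ 2 * (1 - p) ^ 2) = p^2 * (1 - p)^2 := by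
      field_simp
    linarith
  have hS : 9/64 < Real.pi / 8 * t0 + Real.pi / 8 * t1 + Real.pi / 8 * t2 + Real.pi / 8 * t3 := by
    have h1 := mul_lt_mul_of_pos_left ht (by positivity : (0:ℝ) < Real.pi / 8)
    have h2 : Real.pi / 8 * (9 / (8 * Real.pi)) = 9/64 := by
      field_simp
      norm_num
    rw [h2] at h1
    linarith
  have hT1 := hU t0 P c0
  have hT2 : Real.pi / 8 * t0 ≤ 0.7854 * P^2 := by
    have h1 := mul_le_mul_of_nonneg_left PL0 (by positivity : (0:ℝ) ≤ Real.pi / 8)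
    have h2 : Real.pi / 8 * (2 * P^2) ≤ 0.7854 * P^2 := by
      have := Real.pi_lt_d4
      have h3 := mul_le_mul_of_nonneg_right this.le (sq_nonneg P)
      linarith
    exact h1.trans h2
  have a1 := (hU t1 x c1).trans (f_major pp0.le hP14 m1 (by linarith))
  have a2 := (hU t2 y c2).trans (f_major pp0.le hP14 m2 (by linarith))
  have a3 := (hU t3 z c3).trans (f_major pp0.le hP14 m3 (by linarith))
  have hq : ∃ q : ℝ, q = (1-P)/3 := ⟨_, rfl⟩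
  obtain ⟨q, hq⟩ := hq
  rw [← hq] at a1 a2 a3
  have hs2 : 2 * q * (1 - q) * (1 - 2 * q) * (x - q) + 2 * q * (1 - q) * (1 - 2 * q) * (y - q)
      + 2 * q * (1 - q) * (1 - 2 * q) * (z - q) = 0 := by
    have hsum : (x - q) + (y - q) + (z - q) = 0 := by rw [hq]; linarith
    rw [← mul_add, ← mul_add, hsum, mul_zero]
  have hP := P_small pp0.le hP14 hT1 hT2 (by rw [← hq]; linarith)
  have ht0' : t0 ≤ 0.013122 := by
    have : P^2 ≤ 0.081^2 := pow_le_pow_left₀ pp0.le hP.le 2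
    norm_num at this ⊢
    linarith
  have hC := c_lo
  have hI := inv_hi
  -- the final step, for a common bound `b` of `t 1, t 2, t 3`
  have fin : ∀ b : ℝ, t1 ≤ b → t2 ≤ b → t3 ≤ b →
      (∀ A R : ℝ, 0.35809 - t0 ≤ A → 0 ≤ R → R ≤ 3 * b - 0.35809 + 5/3 * t0 →
        t0 ≤ 0.216 * (3/4 * (A - t0/3)^2 - 3 * R^2)) → False := by
    intro b b1 b2 b3 hf
    have d1 : |(t1 - 2/3*r01) - (t2 - 2/3*r02)| ≤ 3 * b - (t1+t2+t3) + 2/3 * t0 := by
      rw [abs_le]; constructor <;> linarith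
    have d2 : |(t2 - 2/3*r02) - (t3 - 2/3*r03)| ≤ 3 * b - (t1+t2+t3) + 2/3 * t0 := by
      rw [abs_le]; constructor <;> linarith
    have d3 : |(t3 - 2/3*r03) - (t1 - 2/3*r01)| ≤ 3 * b - (t1+t2+t3) + 2/3 * t0 := by
      rw [abs_le]; constructor <;> linarith
    have hR0 := (abs_nonneg _).trans d1
    have h3 := two_thirds (by ring) d1 d2 d3
    have h4 := hf (t1+t2+t3) (3 * b - (t1+t2+t3) + 2/3 * t0) (by linarith) hR0 (by linarith)
    linarith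
  by_cases hc : t0 ≤ 0.008
  · exact fin 0.15916 (by linarith) (by linarith) (by linarith)
      fun A R hA hR hRA => final_ineq _ A R t0p hA hR hRA hc
  · push Not at hc
    have hPlo : 0.0632 ≤ P := by
      by_contra hcon
      push Not at hcon
      have : P^2 ≤ 0.0632^2 := pow_le_pow_left₀ pp0.le hcon.le 2
      norm_num at this hc
      linarith
    have hx : ∀ x t : ℝ, 0 ≤ x → x ≤ 1 → t ≤ 8 / Real.pi * x^2*(1-x)^2 →
        (0.38 ≤ x → 9/64 < Real.pi / 8 * t0 + 3 * (((1-P)/3)^2 * (1-(1-P)/3)^2) -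
          (6*((1-P)/3)-6*((1-P)/3)^2-1) * (x - ((1-P)/3))^2) → t ≤ 0.14136 := by
      intro x t hx0 hx1 hxt hh
      by_cases hx38 : x ≤ 0.38
      · exact t_of_x hx0 hx38 hxt
      · push Not at hx38
        exact (x_small hPlo hP.le hT2 hx38.le (hh hx38.le)).elim
    have k1 : t1 ≤ 0.14136 := hx x t1 pp1.le (by linarith) c1 fun h38 => by
      have := (hU t1 x c1).trans (f_major' pp0.le hP14 h38 (by linarith))
      rw [← hq] at this ⊢
      linarith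
    have k2 : t2 ≤ 0.14136 := hx y t2 pp2.le (by linarith) c2 fun h38 => by
      have := (hU t2 y c2).trans (f_major' pp0.le hP14 h38 (by linarith))
      rw [← hq] at this ⊢
      linarith
    have k3 : t3 ≤ 0.14136 := hx z t3 pp3.le (by linarith) c3 fun h38 => by
      have := (hU t3 z c3).trans (f_major' pp0.le hP14 h38 (by linarith))
      rw [← hq] at this ⊢
      linarith
    exact fin 0.14136 k1 k2 k3 fun A R hA hR hRA => final_ineq' _ A R t0p hA hR hRA ht0'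

theorem region_4_aux (D : RegData 4 (216 / 1000))
    (h : ∀ i, D.t i ≤ 8 / Real.pi * (D.p i) ^ 2 * (1 - D.p i) ^ 2)
    (hmin : ∀ i, D.p 0 ≤ D.p i) : False := by
  have hp := D.psum
  have ht := D.tsum
  rw [Fin.sum_univ_four] at hp ht
  -- r sums
  have rs : ∀ i, D.r i 0 + D.r i 1 + D.r i 2 + D.r i 3 - D.r i i = D.t i := by
    intro i
    rw [← D.rsum i, Finset.sum_erase_eq_sub (Finset.mem_univ i), Fin.sum_univ_four]
  have r0 := rs 0
  have r1 := rs 1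
  have r2 := rs 2
  have r3 := rs 3
  rw [D.rsymm 1 0] at r1
  rw [D.rsymm 2 0, D.rsymm 2 1] at r2
  rw [D.rsymm 3 0, D.rsymm 3 1, D.rsymm 3 2] at r3
  have TG := D.TG 0 1 2 3 (by decide) (by decide) (by decide) (by decide) (by decide) (by decide)
  unfold D2 at TG
  rw [D2_eq (t0 := D.t 0) (t1 := D.t 1) (t2 := D.t 2) (t3 := D.t 3) (r01 := D.r 0 1)
    (r02 := D.r 0 2) (r03 := D.r 0 3) (r12 := D.r 1 2) (r13 := D.r 1 3) (r23 := D.r 2 3)
    (by linarith) (by linarith) (by linarith) (by linarith)] at TG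
  exact region_4_real hp ht (D.ppos 0) (D.ppos 1) (D.ppos 2) (D.ppos 3) (hmin 1) (hmin 2) (hmin 3)
    (D.tpos 0) (by linarith) (D.rpos 0 1 (by decide))
    (D.rpos 0 2 (by decide)) (D.rpos 0 3 (by decide)) TG (h 0) (h 1) (h 2) (h 3) (D.PLb 0)
    (D.tle 1) (D.tle 2) (D.tle 3)

/-- Region part, `k = 4`. -/
theorem region_4 (D : RegData 4 (216 / 1000))
    (h : ∀ i, D.t i ≤ 8 / Real.pi * (D.p i) ^ 2 * (1 - D.p i) ^ 2) : False := by
  obtain ⟨o, -, ho⟩ := Finset.exists_min_image (Finset.univ : Finset (Fin 4)) D.p ⟨0, Finset.mem_univ _⟩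
  refine region_4_aux (D.perm (Equiv.swap 0 o)) (fun i => h _) fun i => ?_
  show D.p (Equiv.swap 0 o 0) ≤ _
  rw [Equiv.swap_apply_left]
  exact ho _ (Finset.mem_univ _)

end Crest.Agent.Prop334
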