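import Crest.Agent.Prop334.Reg4

/-! Propeller inequality (S0334), part REG5. -/

set_option autoImplicit false

open Real

namespace Crest.Agent.Prop334

namespace Reg5

/-- `√(1-a) ≤ 1 - a/2 - a²/8` -/
theorem sqrt_up {a : ℝ} (h0 : 0 ≤ a) (h1 : a ≤ 1) : √(1 - a) ≤ 1 - a/2 - a^2/8 := by
  rw [Real.sqrt_le_left (by nlinarith)]
  nlinarith [pow_nonneg h0 3, pow_nonneg h0 4, mul_nonneg (pow_nonneg h0 3) (sub_nonneg.2 h1)]

/-- `1 - a/2 - a²/2 ≤ √(1-a)` -/
theorem sqrt_lo {a : ℝ} (h0 : 0 ≤ a) (h1 : a ≤ 1) : 1 - a/2 - a^2/2 ≤ √(1 - a) := by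
  apply Real.le_sqrt_of_sq_le
  nlinarith [mul_nonneg (sub_nonneg.2 h1) (pow_nonneg h0 2), mul_nonneg (sub_nonneg.2 h1) (pow_nonneg h0 3),
    pow_nonneg h0 2, pow_nonneg h0 3]

/-- the cap function -/
noncomputable def SS (c : ℝ) : ℝ := Real.arccos c - c * √(1 - c ^ 2)

theorem SS_deriv {c : ℝ} (h0 : 0 < c) (h1 : c < 1) : HasDerivAt SS (-2 * √(1 - c^2)) c := by
  have hpos : 0 < 1 - c^2 := by nlinarith
  have hs : 0 < √(1 - c^2) := Real.sqrt_pos.2 hpos
  have d1 := Real.hasDerivAt_arccos (x := c) (by linarith) (by linarith)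
  have d2 : HasDerivAt (fun c : ℝ => 1 - c^2) (-(2*c)) c := by
    have := (hasDerivAt_pow 2 c).const_sub 1
    simpa using this
  have d3 := d2.sqrt hpos.ne'
  have d4 := (hasDerivAt_id c).mul d3
  have d5 := d1.sub d4
  refine (d5.congr_deriv ?_)
  have hsq : √(1 - c^2) * √(1 - c^2) = 1 - c^2 := Real.mul_self_sqrt hpos.le
  have e1 : -(1 / √(1 - c ^ 2)) - (1 * √(1 - c ^ 2) + id c * (-(2 * c) / (2 * √(1 - c ^ 2)))) =
      -(1 - c^2) / √(1 - c^2) - √(1 - c^2) := by
    simp only [id]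
    field_simp
    ring
  rw [e1]
  have e2 : -(1 - c^2) / √(1 - c^2) = - √(1 - c^2) := by
    rw [div_eq_iff hs.ne']
    linarith
  rw [e2]
  ring

theorem SS_cont : Continuous SS := by
  unfold SS
  fun_prop

theorem SS_lo {c : ℝ} (h0 : 0 ≤ c) (h1 : c ≤ 1) :
    π / 2 - 2 * (c - c^3/6 - c^5/40) ≤ SS c := by
  have hmono : MonotoneOn (fun c => SS c + 2 * (c - c^3/6 - c^5/40)) (Set.Icc 0 1) := by
    apply monotoneOn_of_deriv_nonneg (convex_Icc 0 1)
    · exact (SS_cont.add (by fun_prop)).continuousOn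
    · intro x hx
      rw [interior_Icc] at hx
      exact ((SS_deriv hx.1 hx.2).differentiableAt.add (by fun_prop)).differentiableWithinAt
    · intro x hx
      rw [interior_Icc] at hx
      have d1 : HasDerivAt (fun c : ℝ => 2 * (c - c^3/6 - c^5/40)) (2 * (1 - x^2/2 - x^4/8)) x := by
        have h1 := hasDerivAt_id x
        have h2 := (hasDerivAt_pow 3 x).div_const 6
        have h3 := (hasDerivAt_pow 5 x).div_const 40
        refine (((h1.sub h2).sub h3).const_mul 2).congr_deriv ?_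
        norm_num
        ring
      have d := (SS_deriv hx.1 hx.2).add d1
      rw [show deriv (fun c => SS c + 2 * (c - c^3/6 - c^5/40)) x = _ from d.deriv]
      have := sqrt_up (sq_nonneg x) (by nlinarith [hx.1, hx.2] : x^2 ≤ 1)
      have e : (x^2)^2 = x^4 := by ring
      rw [e] at this
      linarith
  have := hmono (Set.left_mem_Icc.2 zero_le_one) ⟨h0, h1⟩ h0
  simp only [SS] at this ⊢
  norm_num at this
  linarith

theorem SS_up {c : ℝ} (h0 : 0 ≤ c) (h1 : c ≤ 1) :
    SS c ≤ π / 2 - 2 * (c - c^3/6 - c^5/10) := by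
  have hmono : AntitoneOn (fun c => SS c + 2 * (c - c^3/6 - c^5/10)) (Set.Icc 0 1) := by
    apply antitoneOn_of_deriv_nonpos (convex_Icc 0 1)
    · exact (SS_cont.add (by fun_prop)).continuousOn
    · intro x hx
      rw [interior_Icc] at hx
      exact ((SS_deriv hx.1 hx.2).differentiableAt.add (by fun_prop)).differentiableWithinAt
    · intro x hx
      rw [interior_Icc] at hx
      have d1 : HasDerivAt (fun c : ℝ => 2 * (c - c^3/6 - c^5/10)) (2 * (1 - x^2/2 - x^4/2)) x := by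
        have h1 := hasDerivAt_id x
        have h2 := (hasDerivAt_pow 3 x).div_const 6
        have h3 := (hasDerivAt_pow 5 x).div_const 10
        refine (((h1.sub h2).sub h3).const_mul 2).congr_deriv ?_
        norm_num
        ring
      have d := (SS_deriv hx.1 hx.2).add d1
      rw [show deriv (fun c => SS c + 2 * (c - c^3/6 - c^5/10)) x = _ from d.deriv]
      have := sqrt_lo (sq_nonneg x) (by nlinarith [hx.1, hx.2] : x^2 ≤ 1)
      have e : (x^2)^2 = x^4 := by ring
      rw [e] at this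
      linarith
  have := hmono (Set.left_mem_Icc.2 zero_le_one) ⟨h0, h1⟩ h0
  simp only [SS] at this ⊢
  norm_num at this
  linarith

/-- polynomial inequality behind `e ≥ 0.0247` -/
theorem poly1 {c : ℝ} (h0 : 0 ≤ c) (h1 : c ≤ 0.6) :
    0 ≤ 0.4723/2 - 0.0247 - 0.31832*(0.9446*(c - c^3/6 - c^5/40) + (1-c^2)^3/2) := by
  have hg : 0 ≤ 1063733823377777/3662109375000000 - 35414855284123/117187500000000 * c
      - 0.3852660319936 * c^2 + 0.1424848068 * c^3 + 0.15916 * c^4 := by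
    nlinarith [mul_nonneg h0 (sub_nonneg.2 h1), pow_nonneg h0 3, pow_nonneg h0 4]
  have key : 0.4723/2 - 0.0247 - 0.31832*(0.9446*(c - c^3/6 - c^5/40) + (1-c^2)^3/2) =
      (c - 0.424)^2 * (1063733823377777/3662109375000000 - 35414855284123/117187500000000 * c
      - 0.3852660319936 * c^2 + 0.1424848068 * c^3 + 0.15916 * c^4) +
      (4029490424793157/57220458984375000000 - 0.000036777132903653376 * c) := by ring
  rw [key]
  have := mul_nonneg (sq_nonneg (c - 0.424)) hg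
  linarith

/-- polynomial inequality behind `e ≥ 0.5 t - 0.0353` -/
theorem poly2 {c : ℝ} (h0 : 0 ≤ c) (h1 : c ≤ 0.6) :
    0 ≤ 0.4723/2 + 0.0353 - 0.31832*(0.9446*(c - c^3/6 - c^5/40) + (1-c^2)^3*3/4) := by
  have hg : 0.01 ≤ 2369155527037023241/3750000000000000000 - 1970380536532663/7500000000000000 * c
      - 0.6759011240528 * c^2 + 0.1159050868 * c^3 + 0.23874 * c^4 := by
    nlinarith [mul_nonneg h0 (sub_nonneg.2 h1), pow_nonneg h0 3, pow_nonneg h0 4]
  have key : 0.4723/2 + 0.0353 - 0.31832*(0.9446*(c - c^3/6 - c^5/40) + (1-c^2)^3*3/4) =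
      (c - 0.227)^2 * (2369155527037023241/3750000000000000000 - 1970380536532663/7500000000000000 * c
      - 0.6759011240528 * c^2 + 0.1159050868 * c^3 + 0.23874 * c^4) +
      (582284847309229414511/3750000000000000000000000 - 0.000321744371118840726 * c) := by ring
  rw [key]
  have := mul_le_mul_of_nonneg_left hg (sq_nonneg (c - 0.227))
  nlinarith

/-- facts about one cell -/
structure Cell (p t : ℝ) : Prop where
  p0 : 0 < p
  t0 : 0 < t
  pl : t ≤ 2 * p^2
  cap : ∃ c : ℝ, 0 ≤ c ∧ c ≤ 1 ∧ p = SS c / π ∧ t ≤ (1 - c^2)^3 / (2*π)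

theorem Cell.dich {p t : ℝ} (h : Cell p t) : p ≤ 0.146 ∨
    (∃ c : ℝ, 0 ≤ c ∧ c ≤ 0.6 ∧ 0.5 - 0.31832 * 2 * (c - c^3/6 - c^5/40) ≤ p ∧
      t ≤ 0.31832 * ((1-c^2)^3/2)) := by
  obtain ⟨c, c0, c1, hp, ht⟩ := h.cap
  have hπ := Real.pi_pos
  have hπ1 : 1 / π ≤ 0.31832 := by
    rw [div_le_iff₀ hπ]
    have := Real.pi_gt_d4
    linarith
  have hπ2 : 0.3183 ≤ 1 / π := by
    rw [le_div_iff₀ hπ]
    have := Real.pi_lt_d4
    linarith
  by_cases hc : c ≤ 0.6
  · right
    refine ⟨c, c0, hc, ?_, ?_⟩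
    · have h1 := SS_lo c0 c1
      have h2 := div_le_div_of_nonneg_right h1 hπ.le
      rw [← hp] at h2
      have h3 : (π / 2 - 2 * (c - c^3/6 - c^5/40)) / π = 0.5 - 1/π * 2 * (c - c^3/6 - c^5/40) := by
        field_simp
        ring
      rw [h3] at h2
      have h4 : 0 ≤ c - c^3/6 - c^5/40 := by
        have h5 : c^3 ≤ c := by
          have := mul_nonneg c0 (mul_nonneg (sub_nonneg.2 c1) (by linarith : (0:ℝ) ≤ 1 + c))
          nlinarith
        have h6 : c^5 ≤ c^3 := by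
          have := mul_nonneg (pow_nonneg c0 3) (mul_nonneg (sub_nonneg.2 c1) (by linarith : (0:ℝ) ≤ 1 + c))
          nlinarith
        linarith
      have h7 := mul_le_mul_of_nonneg_right hπ1 h4
      linarith
    · have h1 : (1 - c^2)^3 / (2*π) = 1/π * ((1-c^2)^3/2) := by
        field_simp
      rw [h1] at ht
      have h2 : 0 ≤ (1-c^2)^3/2 := by
        have : 0 ≤ 1 - c^2 := by nlinarith
        positivity
      exact ht.trans (mul_le_mul_of_nonneg_right hπ1 h2)
  · left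
    push Not at hc
    have h1 := SS_up c0 c1
    have h2 := div_le_div_of_nonneg_right h1 hπ.le
    rw [← hp] at h2
    have h3 : (π / 2 - 2 * (c - c^3/6 - c^5/10)) / π = 0.5 - 1/π * 2 * (c - c^3/6 - c^5/10) := by
      field_simp
      ring
    rw [h3] at h2
    have h4 : 0.5562 ≤ c - c^3/6 - c^5/10 := by
      have h5 : 0 ≤ (c - 0.6) * (1 - c) := mul_nonneg (by linarith) (by linarith)
      nlinarith [mul_nonneg h5 c0, mul_nonneg h5 (pow_nonneg c0 2), mul_nonneg h5 (pow_nonneg c0 3)]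
    have h5 : 0.3183 * 2 * 0.5562 ≤ 1/π * 2 * (c - c^3/6 - c^5/10) := by
      apply mul_le_mul (by linarith) h4 (by norm_num) (by positivity)
    linarith

theorem Cell.big {p t : ℝ} (h : Cell p t) (hp : 0.079 ≤ p) : 0.0247 ≤ 0.4723 * p - t := by
  rcases h.dich with h1 | ⟨c, c0, c1, h2, h3⟩
  · have := h.pl
    nlinarith [mul_nonneg (sub_nonneg.2 hp) (sub_nonneg.2 h1)]
  · have := poly1 c0 c1
    linarith

theorem Cell.lin {p t : ℝ} (h : Cell p t) : 0.5 * t - 0.0353 ≤ 0.4723 * p - t := by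
  rcases h.dich with h1 | ⟨c, c0, c1, h2, h3⟩
  · have := h.pl
    have := h.p0
    nlinarith [mul_nonneg (sub_nonneg.2 h.p0.le) (sub_nonneg.2 h1)]
  · have := poly2 c0 c1
    linarith

/-- a small cell: from a bound for `e` to a bound for `t`. -/
theorem Cell.small {p t E P : ℝ} (h : Cell p t) (hp : p ≤ 0.079) (hE : 0.4723 * p - t ≤ E)
    (hP : P ≤ 0.079) (hP0 : 0 ≤ P) (hPE : E ≤ P * (0.4723 - 2*P)) : t ≤ 2*P^2 := by
  have h1 := h.pl
  have h2 := h.p0
  have h3 : p ≤ P := by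
    by_contra hcon
    push Not at hcon
    nlinarith [mul_nonneg (sub_nonneg.2 hcon.le) (sub_nonneg.2 hp)]
  nlinarith

theorem Cell.pos {p t : ℝ} (h : Cell p t) (hp : p ≤ 0.079) : 0 ≤ 0.4723 * p - t := by
  have h1 := h.pl
  have h2 := h.p0
  nlinarith

/-- the area lemma for sorted cells, `k = 5` -/
theorem area5 {t0 t1 t2 t3 t4 r01 r02 r03 r04 r12 r13 r14 r23 r24 r34 : ℝ}
    (h01 : t1 ≤ t0) (h12 : t2 ≤ t1) (h23 : t3 ≤ t2) (h34 : t4 ≤ t3) (p4 : 0 ≤ t4)
    (a01 : 0 ≤ r01) (a02 : 0 ≤ r02) (_a03 : 0 ≤ r03) (_a04 : 0 ≤ r04) (a12 : 0 ≤ r12) (a13 : 0 ≤ r13)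
    (a14 : 0 ≤ r14) (a23 : 0 ≤ r23) (a24 : 0 ≤ r24) (a34 : 0 ≤ r34)
    (s0 : r01 + r02 + r03 + r04 = t0) (s1 : r01 + r12 + r13 + r14 = t1)
    (s2 : r02 + r12 + r23 + r24 = t2) (s3 : r03 + r13 + r23 + r34 = t3)
    (s4 : r04 + r14 + r24 + r34 = t4) :
    (t0 + t1) * (2 * t2 - t4/2) ≤ t0 * t1 + t1 * t2 + t2 * t0 +
      2 * (t0 * r12 + t1 * r02 + t2 * r01)
      + 2 * (r01 * r12 + r12 * r02 + r02 * r01) - (r01 ^ 2 + r12 ^ 2 + r02 ^ 2) := by
  have hρ : (t0 + t1 - t4)/2 ≤ r01 + r02 + r12 := by linarith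
  have hρ2 : ((t0 + t1 - t4)/2)^2 ≤ (r01 + r02 + r12)^2 := by
    apply pow_le_pow_left₀ _ hρ
    linarith
  have b1 : 0 ≤ r12 * (t0 - r12) := mul_nonneg a12 (by linarith)
  have b2 : 0 ≤ r02 * (t1 - r02) := mul_nonneg a02 (by linarith)
  have b3 : -(t1 * (t1 - t2)) ≤ r01 * (t2 - r01) := by
    have c1 : r01 ≤ t1 := by linarith
    by_cases hc : r01 ≤ t2
    · have := mul_nonneg a01 (sub_nonneg.2 hc)
      have := mul_nonneg (show (0:ℝ) ≤ t1 by linarith) (sub_nonneg.2 h12)
      linarith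
    · push Not at hc
      have := mul_le_mul c1 (show r01 - t2 ≤ t1 - t2 by linarith) (by linarith) (by linarith)
      linarith
  have key : t0 * t1 + t1 * t2 + t2 * t0 + 2 * (t0 * r12 + t1 * r02 + t2 * r01)
      + 2 * (r01 * r12 + r12 * r02 + r02 * r01) - (r01 ^ 2 + r12 ^ 2 + r02 ^ 2) =
      t0 * t1 + t1 * t2 + t2 * t0 + (r01 + r02 + r12)^2 + 2 * (r12 * (t0 - r12)) +
      2 * (r02 * (t1 - r02)) + 2 * (r01 * (t2 - r01)) := by ring
  rw [key]
  have d1 := mul_nonneg (sub_nonneg.2 h01) (sub_nonneg.2 h12)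
  have d2 := mul_nonneg (sub_nonneg.2 h01) (show (0:ℝ) ≤ t0 + 3*t1 by linarith)
  nlinarith [sq_nonneg t4]

theorem numA {x s t4 : ℝ} (h1 : 0.35501 - 2*x ≤ s) (h2 : 2*x ≤ s) (hx : 0.031 ≤ x)
    (ht : t4 ≤ 0.00308) : t4 ≤ 0.18 * (s * (2*x - t4/2)) := by
  have e3 : 0 < 2*x - 0.00154 := by linarith
  have f2 : s * (2*x - 0.00154) ≤ s * (2 * x - t4/2) :=
    mul_le_mul_of_nonneg_left (by linarith) (by linarith)
  have f3 : 0.0172 ≤ s * (2*x - 0.00154) := by
    by_cases hd : x ≤ 0.0887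
    · have f1 := mul_le_mul_of_nonneg_right h1 e3.le
      have f4 : 0.0172 ≤ (0.35501 - 2*x) * (2*x - 0.00154) := by
        nlinarith [mul_nonneg (sub_nonneg.2 hx) (sub_nonneg.2 hd)]
      linarith
    · push Not at hd
      have f1 := mul_le_mul_of_nonneg_right h2 e3.le
      have f4 : 0.0172 ≤ 2*x * (2*x - 0.00154) := by nlinarith
      linarith
  linarith

theorem numB {x s t4 : ℝ} (h1 : 0.33941 - x ≤ s) (h2 : 2*x ≤ s) (hx : 0.068 ≤ x)
    (ht : t4 ≤ 0.00619) : t4 ≤ 0.18 * (s * (2*x - t4/2)) := by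
  have e3 : 0 < 2*x - 0.0031 := by linarith
  have f2 : s * (2*x - 0.0031) ≤ s * (2 * x - t4/2) :=
    mul_le_mul_of_nonneg_left (by linarith) (by linarith)
  have f3 : 0.0345 ≤ s * (2*x - 0.0031) := by
    by_cases hd : x ≤ 0.114
    · have f1 := mul_le_mul_of_nonneg_right h1 e3.le
      have f4 : 0.0345 ≤ (0.33941 - x) * (2*x - 0.0031) := by
        nlinarith [mul_nonneg (sub_nonneg.2 hx) (sub_nonneg.2 hd)]
      linarith
    · push Not at hd
      have f1 := mul_le_mul_of_nonneg_right h2 e3.le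
      have f4 : 0.0345 ≤ 2*x * (2*x - 0.0031) := by nlinarith
      linarith
  linarith

theorem region_5_real {p0 p1 p2 p3 p4 t0 t1 t2 t3 t4 : ℝ}
    (c0 : Cell p0 t0) (c1 : Cell p1 t1) (c2 : Cell p2 t2) (c3 : Cell p3 t3) (c4 : Cell p4 t4)
    (hp : p0 + p1 + p2 + p3 + p4 = 1) (ht : 0.35809 < t0 + t1 + t2 + t3 + t4)
    (h01 : t1 ≤ t0) (h12 : t2 ≤ t1) (h23 : t3 ≤ t2) (h34 : t4 ≤ t3) (l0 : t0 ≤ 0.15916)
    (TG : 0.18 * ((t0 + t1) * (2 * t2 - t4/2)) < t4) : False := by
  have pos4 := c4.t0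
  have small_t : ∀ p t : ℝ, Cell p t → p ≤ 0.079 → t ≤ 0.012482 := by
    intro p t h hp
    have h1 := h.pl
    have h2 := h.p0
    nlinarith
  have t2lo : 0.0132 ≤ t2 := by linarith
  have big0 : 0.0247 ≤ 0.4723 * p0 - t0 := by
    apply c0.big
    by_contra hcon
    push Not at hcon
    have := small_t _ _ c0 hcon.le
    linarith
  have big1 : 0.0247 ≤ 0.4723 * p1 - t1 := by
    apply c1.big
    by_contra hcon
    push Not at hcon
    have := small_t _ _ c1 hcon.le
    linarith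
  have big2 : 0.0247 ≤ 0.4723 * p2 - t2 := by
    apply c2.big
    by_contra hcon
    push Not at hcon
    have := small_t _ _ c2 hcon.le
    linarith
  have lin0 := c0.lin
  have lin1 := c1.lin
  have hE : (0.4723 * p0 - t0) + (0.4723 * p1 - t1) + (0.4723 * p2 - t2) + (0.4723 * p3 - t3) +
      (0.4723 * p4 - t4) < 0.11421 := by linarith
  have caseA : 0.0247 * 4 + (0.4723 * p3 - t3) + (0.4723 * p4 - t4) < 0.11421 + 0.0247 := by linarith
  -- exactly one small cell
  have oneSmall : t4 ≤ 0.00308 → 0.0247 ≤ (0.4723 * p3 - t3) + (0.4723 * p4 - t4) → False := by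
    intro h4 h5
    by_cases hc : t2 ≤ 0.031
    · linarith
    · push Not at hc
      have := numA (x := t2) (s := t0 + t1) (t4 := t4) (by linarith) (by linarith) hc.le h4
      linarith
  by_cases b3 : 0.079 ≤ p3
  · have big3 := c3.big b3
    by_cases b4 : 0.079 ≤ p4
    · have big4 := c4.big b4
      linarith
    · push Not at b4
      have h1 : t4 ≤ 2 * 0.0392^2 := c4.small b4.le (E := 0.01541) (by linarith) (by norm_num)
        (by norm_num) (by norm_num)
      have h2 := c4.pos b4.le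
      exact oneSmall (by norm_num at h1 ⊢; linarith) (by linarith)
  · push Not at b3
    have t3s := small_t _ _ c3 b3.le
    have pos3 := c3.pos b3.le
    by_cases b4 : 0.079 ≤ p4
    · have big4 := c4.big b4
      have h1 : t3 ≤ 2 * 0.0392^2 := c3.small b3.le (E := 0.01541) (by linarith) (by norm_num)
        (by norm_num) (by norm_num)
      exact oneSmall (by norm_num at h1 ⊢; linarith) (by linarith)
    · push Not at b4
      have pos4' := c4.pos b4.le
      have h1 : t4 ≤ 0.00619 := by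
        by_cases hm : 0.4723 * p3 - t3 ≤ 0.4723 * p4 - t4
        · have : t3 ≤ 2 * 0.0556^2 := c3.small b3.le (E := 0.02006) (by linarith) (by norm_num)
            (by norm_num) (by norm_num)
          norm_num at this ⊢
          linarith
        · push Not at hm
          have : t4 ≤ 2 * 0.0556^2 := c4.small b4.le (E := 0.02006) (by linarith) (by norm_num)
            (by norm_num) (by norm_num)
          norm_num at this ⊢
          linarith
      have e0 : 0.33941 ≤ t0 + t1 + t2 := by linarith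
      by_cases hc : 0.068 ≤ t2
      · have := numB (x := t2) (s := t0 + t1) (t4 := t4) (by linarith) (by linarith) hc h1
        linarith
      · push Not at hc
        have e1 : 0.27141 ≤ t0 + t1 := by linarith
        have h2 : t4 ≤ 0.00176 := by
          by_cases hm : 0.4723 * p3 - t3 ≤ 0.4723 * p4 - t4
          · have : t3 ≤ 2 * 0.0296^2 := c3.small b3.le (E := 0.01222) (by linarith) (by norm_num)
              (by norm_num) (by norm_num)
            norm_num at this ⊢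
            linarith
          · push Not at hm
            have : t4 ≤ 2 * 0.0296^2 := c4.small b4.le (E := 0.01222) (by linarith) (by norm_num)
              (by norm_num) (by norm_num)
            norm_num at this ⊢
            linarith
        have e2 : 0.025 ≤ t2 := by linarith
        have f1 : 0.27141 * (0.05 - 0.00088) ≤ (t0 + t1) * (2 * t2 - t4/2) :=
          mul_le_mul e1 (by linarith) (by norm_num) (by linarith)
        norm_num at f1 TG h2
        linarith

end Reg5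

open Reg5

/-- Region part, `k = 5`. -/
theorem region_5 (D : RegData 5 (18 / 100))
    (h : ∀ i, ∃ c : ℝ, 0 ≤ c ∧ c ≤ 1 ∧
      D.p i = (Real.arccos c - c * √(1 - c ^ 2)) / Real.pi ∧
      D.t i ≤ (1 - c ^ 2) ^ 3 / (2 * Real.pi)) : False := by
  -- sort
  let σ := Tuple.sort (fun i => - D.t i)
  have hσ : Monotone ((fun i => - D.t i) ∘ σ) := Tuple.monotone_sort _
  let D' := D.perm σ
  have hanti : ∀ i j : Fin 5, i ≤ j → D'.t j ≤ D'.t i := by
    intro i j hij
    have := hσ hij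
    simp only [Function.comp] at this
    show D.t (σ j) ≤ D.t (σ i)
    linarith
  have hcell : ∀ i, Cell (D'.p i) (D'.t i) := fun i => ⟨D'.ppos i, D'.tpos i, D'.PLb i, h (σ i)⟩
  have hp := D'.psum
  have ht := D'.tsum
  rw [Fin.sum_univ_five] at hp ht
  have rs : ∀ i, D'.r i 0 + D'.r i 1 + D'.r i 2 + D'.r i 3 + D'.r i 4 - D'.r i i = D'.t i := by
    intro i
    rw [← D'.rsum i, Finset.sum_erase_eq_sub (Finset.mem_univ i), Fin.sum_univ_five]
  have r0 := rs 0
  have r1 := rs 1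
  have r2 := rs 2
  have r3 := rs 3
  have r4 := rs 4
  rw [D'.rsymm 1 0] at r1
  rw [D'.rsymm 2 0, D'.rsymm 2 1] at r2
  rw [D'.rsymm 3 0, D'.rsymm 3 1, D'.rsymm 3 2] at r3
  rw [D'.rsymm 4 0, D'.rsymm 4 1, D'.rsymm 4 2, D'.rsymm 4 3] at r4
  have TG := D'.TG 4 0 1 2 (by decide) (by decide) (by decide) (by decide) (by decide) (by decide)
  unfold D2 at TG
  have hA := area5 (t0 := D'.t 0) (t1 := D'.t 1) (t2 := D'.t 2) (t3 := D'.t 3) (t4 := D'.t 4)
    (hanti 0 1 (by decide)) (hanti 1 2 (by decide)) (hanti 2 3 (by decide)) (hanti 3 4 (by decide))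
    (D'.tpos 4).le (D'.rpos 0 1 (by decide)).le (D'.rpos 0 2 (by decide)).le
    (D'.rpos 0 3 (by decide)).le (D'.rpos 0 4 (by decide)).le (D'.rpos 1 2 (by decide)).le
    (D'.rpos 1 3 (by decide)).le (D'.rpos 1 4 (by decide)).le (D'.rpos 2 3 (by decide)).le
    (D'.rpos 2 4 (by decide)).le (D'.rpos 3 4 (by decide)).le (by linarith) (by linarith)
    (by linarith) (by linarith) (by linarith)
  have hC := Reg4.c_lo
  have hI := Reg4.inv_hi
  have hl := D'.tle 0
  exact region_5_real (hcell 0) (hcell 1) (hcell 2) (hcell 3) (hcell 4) hp (by linarith)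
    (hanti 0 1 (by decide)) (hanti 1 2 (by decide)) (hanti 2 3 (by decide)) (hanti 3 4 (by decide))
    (by linarith) (by
      norm_num at TG ⊢
      linarith)

end Crest.Agent.Prop334
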