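import Crest.Agent.Prop334.D2low

/-! Propeller inequality (S0334): the case of six cells (part REG6). -/

set_option autoImplicit false

namespace Crest.Agent.Prop334.Reg6

private theorem capA_0 (c : ℝ) (h1 : 0 ≤ c) (h2 : c ≤ (477 / 2000)) :
    0 ≤ (314159 / 50000) * ((583 / 1250) * (1 / 2 - 3 / 4 * c + 1 / 4 * c ^ 3) + (-213 / 10000)) - (1 - c ^ 2) ^ 4 := by
  obtain ⟨u, hu⟩ : ∃ u, u = c - 0 := ⟨_, rfl⟩
  obtain ⟨v, hv⟩ : ∃ v, v = (477 / 2000) - c := ⟨_, rfl⟩
  have hu0 : 0 ≤ u := by rw [hu]; linarith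
  have hv0 : 0 ≤ v := by rw [hv]; linarith
  have key : ((314159 / 50000) * ((583 / 1250) * (1 / 2 - 3 / 4 * c + 1 / 4 * c ^ 3) + (-213 / 10000)) - (1 - c ^ 2) ^ 4) * (477 / 2000) ^ 8 = (165702921 / 500000000) * (u ^ 0 * v ^ 8) + (1063528996593 / 500000000000) * (u ^ 1 * v ^ 7) + (2918785688151 / 500000000000) * (u ^ 2 * v ^ 6) + (17851753129222621101 / 2000000000000000000) * (u ^ 3 * v ^ 5) + (3318007783138471101 / 400000000000000000) * (u ^ 4 * v ^ 4) + (956887420360321101 / 200000000000000000) * (u ^ 5 * v ^ 3) + (26687680503312444969 / 16000000000000000000) * (u ^ 6 * v ^ 2) + (2564902458779178909 / 8000000000000000000) * (u ^ 7 * v ^ 1) + (6655306315800926919802719 / 256000000000000000000000000) * (u ^ 8 * v ^ 0) := by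
    rw [hu, hv]; ring
  have h0 : 0 ≤ (165702921 / 500000000) * (u ^ 0 * v ^ 8) + (1063528996593 / 500000000000) * (u ^ 1 * v ^ 7) + (2918785688151 / 500000000000) * (u ^ 2 * v ^ 6) + (17851753129222621101 / 2000000000000000000) * (u ^ 3 * v ^ 5) + (3318007783138471101 / 400000000000000000) * (u ^ 4 * v ^ 4) + (956887420360321101 / 200000000000000000) * (u ^ 5 * v ^ 3) + (26687680503312444969 / 16000000000000000000) * (u ^ 6 * v ^ 2) + (2564902458779178909 / 8000000000000000000) * (u ^ 7 * v ^ 1) + (6655306315800926919802719 / 256000000000000000000000000) * (u ^ 8 * v ^ 0) := by positivity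
  rw [← key] at h0
  exact nonneg_of_mul_nonneg_left h0 (by norm_num)

private theorem capA_1 (c : ℝ) (h1 : (477 / 2000) ≤ c) (h2 : c ≤ (1431 / 4000)) :
    0 ≤ (314159 / 50000) * ((583 / 1250) * (1 / 2 - 3 / 4 * c + 1 / 4 * c ^ 3) + (-213 / 10000)) - (1 - c ^ 2) ^ 4 := by
  obtain ⟨u, hu⟩ : ∃ u, u = c - (477 / 2000) := ⟨_, rfl⟩
  obtain ⟨v, hv⟩ : ∃ v, v = (1431 / 4000) - c := ⟨_, rfl⟩
  have hu0 : 0 ≤ u := by rw [hu]; linarith
  have hv0 : 0 ≤ v := by rw [hv]; linarith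
  have key : ((314159 / 50000) * ((583 / 1250) * (1 / 2 - 3 / 4 * c + 1 / 4 * c ^ 3) + (-213 / 10000)) - (1 - c ^ 2) ^ 4) * (477 / 4000) ^ 8 = (6655306315800926919802719 / 256000000000000000000000000) * (u ^ 0 * v ^ 8) + (9706309112286065123408157 / 64000000000000000000000000) * (u ^ 1 * v ^ 7) + (95131406833806119111571297 / 256000000000000000000000000) * (u ^ 2 * v ^ 6) + (126441145710912575362713891 / 256000000000000000000000000) * (u ^ 3 * v ^ 5) + (156961285455422292560141673 / 409600000000000000000000000) * (u ^ 4 * v ^ 4) + (177857672755674893988425019 / 1024000000000000000000000000) * (u ^ 5 * v ^ 3) + (179391192481273149229275057 / 4096000000000000000000000000) * (u ^ 6 * v ^ 2) + (23715175326559464912546453 / 4096000000000000000000000000) * (u ^ 7 * v ^ 1) + (29061695619830967529639359 / 65536000000000000000000000000) * (u ^ 8 * v ^ 0) := by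
    rw [hu, hv]; ring
  have h0 : 0 ≤ (6655306315800926919802719 / 256000000000000000000000000) * (u ^ 0 * v ^ 8) + (9706309112286065123408157 / 64000000000000000000000000) * (u ^ 1 * v ^ 7) + (95131406833806119111571297 / 256000000000000000000000000) * (u ^ 2 * v ^ 6) + (126441145710912575362713891 / 256000000000000000000000000) * (u ^ 3 * v ^ 5) + (156961285455422292560141673 / 409600000000000000000000000) * (u ^ 4 * v ^ 4) + (177857672755674893988425019 / 1024000000000000000000000000) * (u ^ 5 * v ^ 3) + (179391192481273149229275057 / 4096000000000000000000000000) * (u ^ 6 * v ^ 2) + (23715175326559464912546453 / 4096000000000000000000000000) * (u ^ 7 * v ^ 1) + (29061695619830967529639359 / 65536000000000000000000000000) * (u ^ 8 * v ^ 0) := by positivity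
  rw [← key] at h0
  exact nonneg_of_mul_nonneg_left h0 (by norm_num)

private theorem capA_2 (c : ℝ) (h1 : (1431 / 4000) ≤ c) (h2 : c ≤ (477 / 1000)) :
    0 ≤ (314159 / 50000) * ((583 / 1250) * (1 / 2 - 3 / 4 * c + 1 / 4 * c ^ 3) + (-213 / 10000)) - (1 - c ^ 2) ^ 4 := by
  obtain ⟨u, hu⟩ : ∃ u, u = c - (1431 / 4000) := ⟨_, rfl⟩
  obtain ⟨v, hv⟩ : ∃ v, v = (477 / 1000) - c := ⟨_, rfl⟩
  have hu0 : 0 ≤ u := by rw [hu]; linarith
  have hv0 : 0 ≤ v := by rw [hv]; linarith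
  have key : ((314159 / 50000) * ((583 / 1250) * (1 / 2 - 3 / 4 * c + 1 / 4 * c ^ 3) + (-213 / 10000)) - (1 - c ^ 2) ^ 4) * (477 / 4000) ^ 8 = (29061695619830967529639359 / 65536000000000000000000000000) * (u ^ 0 * v ^ 8) + (2673260146635751308546453 / 2048000000000000000000000000) * (u ^ 1 * v ^ 7) + (12702651812064353290275057 / 1024000000000000000000000000) * (u ^ 2 * v ^ 6) + (8216136521151570405425019 / 128000000000000000000000000) * (u ^ 3 * v ^ 5) + (3830294344719585446141673 / 25600000000000000000000000) * (u ^ 4 * v ^ 4) + (1471912866606779394213891 / 8000000000000000000000000) * (u ^ 5 * v ^ 3) + (500199252009119693571297 / 4000000000000000000000000) * (u ^ 6 * v ^ 2) + (22256014572292824908157 / 500000000000000000000000) * (u ^ 7 * v ^ 1) + (6475900416827727802719 / 1000000000000000000000000) * (u ^ 8 * v ^ 0) := by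
    rw [hu, hv]; ring
  have h0 : 0 ≤ (29061695619830967529639359 / 65536000000000000000000000000) * (u ^ 0 * v ^ 8) + (2673260146635751308546453 / 2048000000000000000000000000) * (u ^ 1 * v ^ 7) + (12702651812064353290275057 / 1024000000000000000000000000) * (u ^ 2 * v ^ 6) + (8216136521151570405425019 / 128000000000000000000000000) * (u ^ 3 * v ^ 5) + (3830294344719585446141673 / 25600000000000000000000000) * (u ^ 4 * v ^ 4) + (1471912866606779394213891 / 8000000000000000000000000) * (u ^ 5 * v ^ 3) + (500199252009119693571297 / 4000000000000000000000000) * (u ^ 6 * v ^ 2) + (22256014572292824908157 / 500000000000000000000000) * (u ^ 7 * v ^ 1) + (6475900416827727802719 / 1000000000000000000000000) * (u ^ 8 * v ^ 0) := by positivity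
  rw [← key] at h0
  exact nonneg_of_mul_nonneg_left h0 (by norm_num)

theorem capA (c : ℝ) (h1 : 0 ≤ c) (h2 : c ≤ (477 / 1000)) :
    0 ≤ (314159 / 50000) * ((583 / 1250) * (1 / 2 - 3 / 4 * c + 1 / 4 * c ^ 3) + (-213 / 10000)) - (1 - c ^ 2) ^ 4 := by
  rcases le_total c (477 / 2000) with h | h
  · exact capA_0 c h1 h
  rcases le_total c (1431 / 4000) with h' | h'
  · exact capA_1 c h h'
  clear h
  have h := h'
  clear h'
  exact capA_2 c h h2

private theorem capB_0 (c : ℝ) (h1 : 0 ≤ c) (h2 : c ≤ (1 / 8)) :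
    0 ≤ (314159 / 50000) * ((1913 / 10000) * (1 / 2 - 3 / 4 * c + 1 / 4 * c ^ 3) + (359 / 5000)) - (1 - c ^ 2) ^ 4 := by
  obtain ⟨u, hu⟩ : ∃ u, u = c - 0 := ⟨_, rfl⟩
  obtain ⟨v, hv⟩ : ∃ v, v = (1 / 8) - c := ⟨_, rfl⟩
  have hu0 : 0 ≤ u := by rw [hu]; linarith
  have hv0 : 0 ≤ v := by rw [hv]; linarith
  have key : ((314159 / 50000) * ((1913 / 10000) * (1 / 2 - 3 / 4 * c + 1 / 4 * c ^ 3) + (359 / 5000)) - (1 - c ^ 2) ^ 4) * (1 / 8) ^ 8 = (52118491 / 1000000000) * (u ^ 0 * v ^ 8) + (4868208347 / 16000000000) * (u ^ 1 * v ^ 7) + (11728374461 / 16000000000) * (u ^ 2 * v ^ 6) + (950107508727 / 1024000000000) * (u ^ 3 * v ^ 5) + (26349252939 / 40960000000) * (u ^ 4 * v ^ 4) + (115032783667 / 512000000000) * (u ^ 5 * v ^ 3) + (14095317639 / 512000000000) * (u ^ 6 * v ^ 2) + (265450659 / 1024000000000) * (u ^ 7 * v ^ 1) + (35089307259 / 32768000000000) * (u ^ 8 * v ^ 0) := by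
    rw [hu, hv]; ring
  have h0 : 0 ≤ (52118491 / 1000000000) * (u ^ 0 * v ^ 8) + (4868208347 / 16000000000) * (u ^ 1 * v ^ 7) + (11728374461 / 16000000000) * (u ^ 2 * v ^ 6) + (950107508727 / 1024000000000) * (u ^ 3 * v ^ 5) + (26349252939 / 40960000000) * (u ^ 4 * v ^ 4) + (115032783667 / 512000000000) * (u ^ 5 * v ^ 3) + (14095317639 / 512000000000) * (u ^ 6 * v ^ 2) + (265450659 / 1024000000000) * (u ^ 7 * v ^ 1) + (35089307259 / 32768000000000) * (u ^ 8 * v ^ 0) := by positivity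
  rw [← key] at h0
  exact nonneg_of_mul_nonneg_left h0 (by norm_num)

private theorem capB_1 (c : ℝ) (h1 : (1 / 8) ≤ c) (h2 : c ≤ (1 / 4)) :
    0 ≤ (314159 / 50000) * ((1913 / 10000) * (1 / 2 - 3 / 4 * c + 1 / 4 * c ^ 3) + (359 / 5000)) - (1 - c ^ 2) ^ 4 := by
  obtain ⟨u, hu⟩ : ∃ u, u = c - (1 / 8) := ⟨_, rfl⟩
  obtain ⟨v, hv⟩ : ∃ v, v = (1 / 4) - c := ⟨_, rfl⟩
  have hu0 : 0 ≤ u := by rw [hu]; linarith
  have hv0 : 0 ≤ v := by rw [hv]; linarith
  have key : ((314159 / 50000) * ((1913 / 10000) * (1 / 2 - 3 / 4 * c + 1 / 4 * c ^ 3) + (359 / 5000)) - (1 - c ^ 2) ^ 4) * (1 / 8) ^ 8 = (35089307259 / 32768000000000) * (u ^ 0 * v ^ 8) + (34558405941 / 2048000000000) * (u ^ 1 * v ^ 7) + (294573802917 / 2048000000000) * (u ^ 2 * v ^ 6) + (4509175799 / 8000000000) * (u ^ 3 * v ^ 5) + (30082833409 / 25600000000) * (u ^ 4 * v ^ 4) + (1443970867657 / 1024000000000) * (u ^ 5 * v ^ 3) + (503324060099 / 512000000000) * (u ^ 6 * v ^ 2) + (95075824499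 / 256000000000) * (u ^ 7 * v ^ 1) + (3773931937 / 64000000000) * (u ^ 8 * v ^ 0) := by
    rw [hu, hv]; ring
  have h0 : 0 ≤ (35089307259 / 32768000000000) * (u ^ 0 * v ^ 8) + (34558405941 / 2048000000000) * (u ^ 1 * v ^ 7) + (294573802917 / 2048000000000) * (u ^ 2 * v ^ 6) + (4509175799 / 8000000000) * (u ^ 3 * v ^ 5) + (30082833409 / 25600000000) * (u ^ 4 * v ^ 4) + (1443970867657 / 1024000000000) * (u ^ 5 * v ^ 3) + (503324060099 / 512000000000) * (u ^ 6 * v ^ 2) + (95075824499 / 256000000000) * (u ^ 7 * v ^ 1) + (3773931937 / 64000000000) * (u ^ 8 * v ^ 0) := by positivity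
  rw [← key] at h0
  exact nonneg_of_mul_nonneg_left h0 (by norm_num)

private theorem capB_2 (c : ℝ) (h1 : (1 / 4) ≤ c) (h2 : c ≤ (1 / 2)) :
    0 ≤ (314159 / 50000) * ((1913 / 10000) * (1 / 2 - 3 / 4 * c + 1 / 4 * c ^ 3) + (359 / 5000)) - (1 - c ^ 2) ^ 4 := by
  obtain ⟨u, hu⟩ : ∃ u, u = c - (1 / 4) := ⟨_, rfl⟩
  obtain ⟨v, hv⟩ : ∃ v, v = (1 / 2) - c := ⟨_, rfl⟩
  have hu0 : 0 ≤ u := by rw [hu]; linarith
  have hv0 : 0 ≤ v := by rw [hv]; linarith
  have key : ((314159 / 50000) * ((1913 / 10000) * (1 / 2 - 3 / 4 * c + 1 / 4 * c ^ 3) + (359 / 5000)) - (1 - c ^ 2) ^ 4) * (1 / 4) ^ 8 = (3773931937 / 64000000000) * (u ^ 0 * v ^ 8) + (86072908477 / 128000000000) * (u ^ 1 * v ^ 7) + (102198360467 / 32000000000) * (u ^ 2 * v ^ 6) + (529450780651 / 64000000000) * (u ^ 3 * v ^ 5) + (329109157051 / 25600000000) * (u ^ 4 * v ^ 4) + (1579805570609 / 128000000000) * (u ^ 5 * v ^ 3) + (459758593671 / 64000000000) * (u ^ 6 * v ^ 2) + (74477643807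 / 32000000000) * (u ^ 7 * v ^ 1) + (5160548019 / 16000000000) * (u ^ 8 * v ^ 0) := by
    rw [hu, hv]; ring
  have h0 : 0 ≤ (3773931937 / 64000000000) * (u ^ 0 * v ^ 8) + (86072908477 / 128000000000) * (u ^ 1 * v ^ 7) + (102198360467 / 32000000000) * (u ^ 2 * v ^ 6) + (529450780651 / 64000000000) * (u ^ 3 * v ^ 5) + (329109157051 / 25600000000) * (u ^ 4 * v ^ 4) + (1579805570609 / 128000000000) * (u ^ 5 * v ^ 3) + (459758593671 / 64000000000) * (u ^ 6 * v ^ 2) + (74477643807 / 32000000000) * (u ^ 7 * v ^ 1) + (5160548019 / 16000000000) * (u ^ 8 * v ^ 0) := by positivity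
  rw [← key] at h0
  exact nonneg_of_mul_nonneg_left h0 (by norm_num)

private theorem capB_3 (c : ℝ) (h1 : (1 / 2) ≤ c) (h2 : c ≤ 1) :
    0 ≤ (314159 / 50000) * ((1913 / 10000) * (1 / 2 - 3 / 4 * c + 1 / 4 * c ^ 3) + (359 / 5000)) - (1 - c ^ 2) ^ 4 := by
  obtain ⟨u, hu⟩ : ∃ u, u = c - (1 / 2) := ⟨_, rfl⟩
  obtain ⟨v, hv⟩ : ∃ v, v = 1 - c := ⟨_, rfl⟩
  have hu0 : 0 ≤ u := by rw [hu]; linarith
  have hv0 : 0 ≤ v := by rw [hv]; linarith
  have key : ((314159 / 50000) * ((1913 / 10000) * (1 / 2 - 3 / 4 * c + 1 / 4 * c ^ 3) + (359 / 5000)) - (1 - c ^ 2) ^ 4) * (1 / 2) ^ 8 = (5160548019 / 16000000000) * (u ^ 0 * v ^ 8) + (49375508649 / 16000000000) * (u ^ 1 * v ^ 7) + (12261635907 / 1000000000) * (u ^ 2 * v ^ 6) + (211161520337 / 8000000000) * (u ^ 3 * v ^ 5) + (21614081083 / 640000000) * (u ^ 4 * v ^ 4) + (425249078149 / 16000000000) * (u ^ 5 * v ^ 3) + (102856599077 / 8000000000) * (u ^ 6 * v ^ 2) + (112783081 / 31250000) * (u ^ 7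 * v ^ 1) + (112783081 / 250000000) * (u ^ 8 * v ^ 0) := by
    rw [hu, hv]; ring
  have h0 : 0 ≤ (5160548019 / 16000000000) * (u ^ 0 * v ^ 8) + (49375508649 / 16000000000) * (u ^ 1 * v ^ 7) + (12261635907 / 1000000000) * (u ^ 2 * v ^ 6) + (211161520337 / 8000000000) * (u ^ 3 * v ^ 5) + (21614081083 / 640000000) * (u ^ 4 * v ^ 4) + (425249078149 / 16000000000) * (u ^ 5 * v ^ 3) + (102856599077 / 8000000000) * (u ^ 6 * v ^ 2) + (112783081 / 31250000) * (u ^ 7 * v ^ 1) + (112783081 / 250000000) * (u ^ 8 * v ^ 0) := by positivity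
  rw [← key] at h0
  exact nonneg_of_mul_nonneg_left h0 (by norm_num)

theorem capB (c : ℝ) (h1 : 0 ≤ c) (h2 : c ≤ 1) :
    0 ≤ (314159 / 50000) * ((1913 / 10000) * (1 / 2 - 3 / 4 * c + 1 / 4 * c ^ 3) + (359 / 5000)) - (1 - c ^ 2) ^ 4 := by
  rcases le_total c (1 / 8) with h | h
  · exact capB_0 c h1 h
  rcases le_total c (1 / 4) with h' | h'
  · exact capB_1 c h h'
  clear h
  have h := h'
  clear h'
  rcases le_total c (1 / 2) with h' | h'
  · exact capB_2 c h h'
  clear h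
  have h := h'
  clear h'
  exact capB_3 c h h2


/-- majorant 1 of the cap curve (with the Prekopa–Leindler bound for small `p`) -/
theorem F1 (t p c : ℝ) (hc0 : 0 ≤ c) (hc1 : c ≤ 1) (hp : p = 1 / 2 - 3 / 4 * c + 1 / 4 * c ^ 3)
    (ht : t ≤ (1 - c ^ 2) ^ 4 / (2 * Real.pi)) (hpos : 0 < p) (hPL : t ≤ 2 * p ^ 2)
    (ht0 : 78 / 10000 ≤ t) : t ≤ 4664 / 10000 * p - 213 / 10000 := by
  have hp1 : 624 / 10000 ≤ p := by
    by_contra h
    push Not at h
    nlinarith
  rcases le_total p (17 / 100) with h | h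
  · nlinarith
  · have hc : c ≤ 477 / 1000 := by
      by_contra h'
      push Not at h'
      have h3 : 0 ≤ (c - 477 / 1000) * (1 - c) := mul_nonneg (by linarith) (by linarith)
      have h4 : 0 ≤ c * ((c - 477 / 1000) * (1 - c)) := mul_nonneg hc0 h3
      nlinarith
    have h1 := capA c hc0 (by linarith)
    have hpi : 6.28318 ≤ 2 * Real.pi := by have := Real.pi_gt_d6; linarith
    have h2 : (1 - c ^ 2) ^ 4 / (2 * Real.pi) ≤ (1 - c ^ 2) ^ 4 / 6.28318 :=
      div_le_div_of_nonneg_left (by positivity) (by norm_num) hpi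
    have h3 : (1 - c ^ 2) ^ 4 / 6.28318 ≤ 4664 / 10000 * p - 213 / 10000 := by
      rw [div_le_iff₀ (by norm_num), hp]
      norm_num at h1 ⊢
      linarith
    linarith

/-- majorant 2 of the cap curve -/
theorem F2 (t p c : ℝ) (hc0 : 0 ≤ c) (hc1 : c ≤ 1) (hp : p = 1 / 2 - 3 / 4 * c + 1 / 4 * c ^ 3)
    (ht : t ≤ (1 - c ^ 2) ^ 4 / (2 * Real.pi)) : t ≤ 1913 / 10000 * p + 718 / 10000 := by
  have h1 := capB c hc0 hc1
  have hpi : 6.28318 ≤ 2 * Real.pi := by have := Real.pi_gt_d6; linarith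
  have h2 : (1 - c ^ 2) ^ 4 / (2 * Real.pi) ≤ (1 - c ^ 2) ^ 4 / 6.28318 :=
    div_le_div_of_nonneg_left (by positivity) (by norm_num) hpi
  have h3 : (1 - c ^ 2) ^ 4 / 6.28318 ≤ 1913 / 10000 * p + 718 / 10000 := by
    rw [div_le_iff₀ (by norm_num), hp]
    norm_num at h1 ⊢
    linarith
  linarith

private theorem qb (q e b : ℝ) (hq : q ≤ 63 / 1000) (hb : b ≤ 63 / 1000)
    (h : q * (4664 / 10000 - 2 * q) ≤ e) (he : e < b * (4664 / 10000 - 2 * b)) : q ≤ b := by
  by_contra hc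
  push Not at hc
  have : 0 ≤ (q - b) * (4664 / 10000 - 2 * (q + b)) := mul_nonneg (by linarith) (by linarith)
  nlinarith

private theorem sqb (q b : ℝ) (h0 : 0 ≤ q) (h : q ≤ b) : 2 * q ^ 2 ≤ 2 * b ^ 2 := by
  have := pow_le_pow_left₀ h0 h 2
  linarith

private theorem pc (A B X Y T : ℝ) (hA : A ≤ X) (hB : B ≤ Y) (hA0 : 0 ≤ A) (hB0 : 0 ≤ B)
    (h : 164 / 1000 * (X * Y) < T) : 164 / 1000 * (A * B) < T := by
  have := mul_le_mul hA hB hB0 (hA0.trans hA)
  linarith

/-- the numerical heart: no decreasing `t` -/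
theorem core (t p : Fin 6 → ℝ) (h01 : t 1 ≤ t 0) (h12 : t 2 ≤ t 1) (h23 : t 3 ≤ t 2)
    (h34 : t 4 ≤ t 3) (h45 : t 5 ≤ t 4) (h5 : 0 < t 5) (hp : ∀ i, 0 < p i)
    (hps : p 0 + p 1 + p 2 + p 3 + p 4 + p 5 = 1)
    (hts : 35809 / 100000 < t 0 + t 1 + t 2 + t 3 + t 4 + t 5)
    (htle : ∀ i, t i ≤ 15916 / 100000) (hPL : ∀ i, t i ≤ 2 * p i ^ 2)
    (hF1 : ∀ i, 78 / 10000 ≤ t i → t i ≤ 4664 / 10000 * p i - 213 / 10000)
    (hF2 : ∀ i, t i ≤ 1913 / 10000 * p i + 718 / 10000)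
    (hTG : 164 / 1000 * ((t 0 + t 1) * (2 * t 2 - (t 4 + t 5) / 2)) < t 5) : False := by
  -- the square roots
  obtain ⟨q, hq0, hq⟩ : ∃ q : ℝ, 0 ≤ q ∧ t 5 = 2 * q ^ 2 := by
    refine ⟨√(t 5 / 2), Real.sqrt_nonneg _, ?_⟩
    rw [Real.sq_sqrt (by linarith)]; ring
  have hqb : t 5 ≤ 78 / 10000 → q ≤ 63 / 1000 := by
    intro h
    nlinarith
  -- lower bound of the deficit of a small cell
  have hsmall : ∀ i, t 5 ≤ t i → t i ≤ 78 / 10000 →
      q * (4664 / 10000 - 2 * q) ≤ 4664 / 10000 * p i - t i := by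
    intro i h1 h2
    obtain ⟨s, hs0, hs⟩ : ∃ s : ℝ, 0 ≤ s ∧ t i = 2 * s ^ 2 := by
      refine ⟨√(t i / 2), Real.sqrt_nonneg _, ?_⟩
      rw [Real.sq_sqrt (by linarith)]; ring
    have hsp : s ≤ p i := by
      have := hPL i
      nlinarith [hp i]
    have hqs' : q ≤ s := by nlinarith
    have hs1 : s ≤ 63 / 1000 := by nlinarith
    have : 0 ≤ (s - q) * (4664 / 10000 - 2 * (s + q)) := mul_nonneg (by linarith) (by linarith)
    nlinarith
  have m0 := htle 0
  have m1 := htle 1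
  have f0 := hF2 0
  have f1 := hF2 1
  have g0 := hp 0
  have g1 := hp 1
  have g2 := hp 2
  have g3 := hp 3
  have g4 := hp 4
  have g5 := hp 5
  have hsm3 := hsmall 3
  have hsm4 := hsmall 4
  have hsm5 := hsmall 5
  have e0 := hF1 0
  have e1 := hF1 1
  have e2 := hF1 2
  have e3 := hF1 3
  have e4 := hF1 4
  have e5 := hF1 5
  clear hF1 hF2 hp htle hsmall hPL
  generalize t 0 = t0 at *
  generalize t 1 = t1 at *
  generalize t 2 = t2 at *
  generalize t 3 = t3 at *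
  generalize t 4 = t4 at *
  generalize t 5 = t5 at *
  generalize p 0 = p0 at *
  generalize p 1 = p1 at *
  generalize p 2 = p2 at *
  generalize p 3 = p3 at *
  generalize p 4 = p4 at *
  generalize p 5 = p5 at *
  rcases lt_or_ge t2 (78 / 10000) with hc2 | hc2
  · linarith
  replace e0 := e0 (by linarith)
  replace e1 := e1 (by linarith)
  replace e2 := e2 hc2
  rcases lt_or_ge t3 (78 / 10000) with hc3 | hc3
  · -- three large cells
    clear e3 e4 e5
    replace hsm3 := hsm3 (by linarith) hc3.le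
    replace hsm4 := hsm4 (by linarith) (by linarith)
    replace hsm5 := hsm5 le_rfl (by linarith)
    have hq1 : q ≤ 63 / 1000 := hqb (by linarith)
    have hq2 : q ≤ 39 / 1000 := by
      refine qb q (149 / 10000) _ hq1 (by norm_num) (by linarith) (by norm_num)
    have ht5 : t5 ≤ 2 * (39 / 1000) ^ 2 := by rw [hq]; exact sqb _ _ hq0 hq2
    have hA : 22312 / 100000 ≤ t0 + t1 := by linarith
    have hC : 0 ≤ 2 * t2 - 78 / 10000 := by linarith
    have hD : t2 ≤ 46 / 1000 := by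
      by_contra h
      push Not at h
      have := pc (22312 / 100000) (842 / 10000) _ _ _ hA (by linarith) (by norm_num)
        (by norm_num) hTG
      linarith
    have hE : 2886 / 10000 ≤ t0 + t1 := by linarith
    have hq4 : q ≤ 18 / 1000 := by
      refine qb q (64 / 10000) _ hq1 (by norm_num) (by linarith) (by norm_num)
    have ht5' : t5 ≤ 2 * (18 / 1000) ^ 2 := by rw [hq]; exact sqb _ _ hq0 hq4
    have := pc (2886 / 10000) (249 / 10000) _ _ _ hE (by linarith) (by norm_num)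
        (by norm_num) hTG
    linarith
  replace e3 := e3 hc3
  rcases lt_or_ge t4 (78 / 10000) with hc4 | hc4
  · -- four large cells
    clear e4 e5
    replace hsm4 := hsm4 (by linarith) (by linarith)
    replace hsm5 := hsm5 le_rfl (by linarith)
    have hq1 : q ≤ 63 / 1000 := hqb (by linarith)
    have hq2 : q ≤ 29 / 1000 := by
      refine qb q (116 / 10000) _ hq1 (by norm_num) (by linarith) (by norm_num)
    have ht5 : t5 ≤ 2 * (29 / 1000) ^ 2 := by rw [hq]; exact sqb _ _ hq0 hq2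
    have hA : 1743 / 10000 ≤ t0 + t1 := by linarith
    have hD : t2 ≤ 33 / 1000 := by
      by_contra h
      push Not at h
      have := pc (1743 / 10000) (612 / 10000) _ _ _ hA (by linarith) (by norm_num)
        (by norm_num) hTG
      linarith
    have hA' : 2826 / 10000 ≤ t0 + t1 := by linarith
    have hD' : t2 ≤ 21 / 1000 := by
      by_contra h
      push Not at h
      have := pc (2826 / 10000) (372 / 10000) _ _ _ hA' (by linarith) (by norm_num)
        (by norm_num) hTG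
      linarith
    linarith
  replace e4 := e4 hc4
  rcases lt_or_ge t5 (78 / 10000) with hc5 | hc5
  · replace hsm5 := hsm5 le_rfl (by linarith)
    have hq1 : q ≤ 63 / 1000 := hqb (by linarith)
    have hq2 : q ≤ 5 / 1000 := by
      refine qb q (19 / 10000) _ hq1 (by norm_num) (by linarith) (by norm_num)
    have ht5 : t5 ≤ 2 * (5 / 1000) ^ 2 := by rw [hq]; exact sqb _ _ hq0 hq2
    have hA : 119 / 1000 ≤ t0 + t1 := by linarith
    have := pc (119 / 1000) (78 / 10000) _ _ _ hA (by linarith) (by norm_num)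
        (by norm_num) hTG
    linarith
  · replace e5 := e5 hc5
    linarith

theorem region_6 (D : RegData 6 (164 / 1000))
    (h : ∀ i, ∃ c : ℝ, 0 ≤ c ∧ c ≤ 1 ∧ D.p i = 1 / 2 - 3 / 4 * c + 1 / 4 * c ^ 3 ∧
      D.t i ≤ (1 - c ^ 2) ^ 4 / (2 * Real.pi)) : False := by
  obtain ⟨σ, hσ⟩ := D.exists_perm6_antitone
  have h' : ∀ i, ∃ c : ℝ, 0 ≤ c ∧ c ≤ 1 ∧ (D.perm6 σ).p i = 1 / 2 - 3 / 4 * c + 1 / 4 * c ^ 3 ∧
      (D.perm6 σ).t i ≤ (1 - c ^ 2) ^ 4 / (2 * Real.pi) := fun i => h (σ i)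
  generalize D.perm6 σ = E at hσ h'
  clear h D
  have h01 : E.t 1 ≤ E.t 0 := hσ (by decide)
  have h12 : E.t 2 ≤ E.t 1 := hσ (by decide)
  have h23 : E.t 3 ≤ E.t 2 := hσ (by decide)
  have h34 : E.t 4 ≤ E.t 3 := hσ (by decide)
  have h45 : E.t 5 ≤ E.t 4 := hσ (by decide)
  have hpi1 := Real.pi_gt_d6
  have hpi2 := Real.pi_lt_d6
  have hts := E.tsum
  have hps := E.psum
  simp only [Fin.sum_univ_six] at hts hps
  have hts' : 35809 / 100000 < E.t 0 + E.t 1 + E.t 2 + E.t 3 + E.t 4 + E.t 5 := by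
    refine lt_trans ?_ hts
    rw [div_lt_div_iff₀ (by norm_num) (by positivity)]
    nlinarith
  have htle : ∀ i, E.t i ≤ 15916 / 100000 := by
    intro i
    refine (E.tle i).trans ?_
    rw [div_le_div_iff₀ (by positivity) (by norm_num)]
    nlinarith
  refine core E.t E.p h01 h12 h23 h34 h45 (E.tpos 5) E.ppos hps hts' htle E.PLb ?_ ?_ ?_
  · intro i hi
    obtain ⟨c, hc0, hc1, hc2, hc3⟩ := h' i
    exact F1 _ _ c hc0 hc1 hc2 hc3 (E.ppos i) (E.PLb i) hi
  · intro i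
    obtain ⟨c, hc0, hc1, hc2, hc3⟩ := h' i
    exact F2 _ _ c hc0 hc1 hc2 hc3
  · have hTG := E.TG 5 0 1 2 (by decide) (by decide) (by decide) (by decide) (by decide)
      (by decide)
    refine lt_of_le_of_lt ?_ hTG
    have r0 := E.rsum 0
    have r1 := E.rsum 1
    have r2 := E.rsum 2
    have r3 := E.rsum 3
    have r4 := E.rsum 4
    have r5 := E.rsum 5
    have u0 : (Finset.univ.erase 0 : Finset (Fin 6)) = {1, 2, 3, 4, 5} := by decide
    have u1 : (Finset.univ.erase 1 : Finset (Fin 6)) = {0, 2, 3, 4, 5} := by decide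
    have u2 : (Finset.univ.erase 2 : Finset (Fin 6)) = {0, 1, 3, 4, 5} := by decide
    have u3 : (Finset.univ.erase 3 : Finset (Fin 6)) = {0, 1, 2, 4, 5} := by decide
    have u4 : (Finset.univ.erase 4 : Finset (Fin 6)) = {0, 1, 2, 3, 5} := by decide
    have u5 : (Finset.univ.erase 5 : Finset (Fin 6)) = {0, 1, 2, 3, 4} := by decide
    rw [u0] at r0
    rw [u1] at r1
    rw [u2] at r2
    rw [u3] at r3
    rw [u4] at r4
    rw [u5] at r5
    have rp := E.rpos
    have rs := E.rsymm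
    simp only [Finset.sum_insert, Finset.sum_singleton, Finset.mem_insert, Finset.mem_singleton,
      Fin.reduceEq, or_self, not_false_eq_true] at r0 r1 r2 r3 r4 r5
    have p01 := rp 0 1 (by decide)
    have p02 := rp 0 2 (by decide)
    have p03 := rp 0 3 (by decide)
    have p04 := rp 0 4 (by decide)
    have p05 := rp 0 5 (by decide)
    have p12 := rp 1 2 (by decide)
    have p13 := rp 1 3 (by decide)
    have p14 := rp 1 4 (by decide)
    have p15 := rp 1 5 (by decide)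
    have p23 := rp 2 3 (by decide)
    have p24 := rp 2 4 (by decide)
    have p25 := rp 2 5 (by decide)
    have p34 := rp 3 4 (by decide)
    have p35 := rp 3 5 (by decide)
    have p45 := rp 4 5 (by decide)
    rw [rs 1 0] at r1
    rw [rs 2 0, rs 2 1] at r2
    rw [rs 3 0, rs 3 1, rs 3 2] at r3
    rw [rs 4 0, rs 4 1, rs 4 2, rs 4 3] at r4
    rw [rs 5 0, rs 5 1, rs 5 2, rs 5 3, rs 5 4] at r5
    have key := D2_lower_alg (E.t 0) (E.t 1) (E.t 2) (E.r 0 1) (E.r 0 2) (E.r 1 2)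
      (E.t 4 + E.t 5) h12 h01 (E.tpos 2).le p01.le p02.le p12.le (by linarith) (by linarith)
      (by linarith) (by linarith) (by linarith)
    unfold D2
    nlinarith [key]

end Crest.Agent.Prop334.Reg6
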