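import Crest.Agent.Prop334.Reg9

/-! Region part for `k = 7, 8` cells (the argument works for all `k ≥ 7`). -/

set_option autoImplicit false

open MeasureTheory ProbabilityTheory

namespace Crest.Agent.Prop334

namespace Reg78

/-- the antiderivative of `(1 - c²)²` -/
noncomputable def ff (c : ℝ) : ℝ := c - 2 / 3 * c ^ 3 + 1 / 5 * c ^ 5

lemma ff_mono : Monotone ff := by
  have hd : ∀ x, HasDerivAt ff ((1 - x ^ 2) ^ 2) x := by
    intro x
    have h1 := hasDerivAt_id x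
    have h3 := (hasDerivAt_pow 3 x).const_mul (2 / 3 : ℝ)
    have h5 := (hasDerivAt_pow 5 x).const_mul (1 / 5 : ℝ)
    have := (h1.sub h3).add h5
    refine HasDerivAt.congr_deriv this ?_
    push_cast
    ring
  refine monotone_of_deriv_nonneg (fun x => (hd x).differentiableAt) fun x => ?_
  rw [(hd x).deriv]
  positivity

lemma t_le {t c a : ℝ} (ha : 0 ≤ a) (hac : a ≤ c) (hc : c ≤ 1)
    (ht : t ≤ (1 - c ^ 2) ^ 6 / (2 * Real.pi)) : t ≤ 0.159155 * (1 - a ^ 2) ^ 6 := by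
  have h1 : (1 - c ^ 2) ^ 6 ≤ (1 - a ^ 2) ^ 6 :=
    pow_le_pow_left₀ (by nlinarith) (by nlinarith) 6
  have h0 : 0 ≤ (1 - c ^ 2) ^ 6 := by positivity
  calc t ≤ (1 - c ^ 2) ^ 6 / (2 * Real.pi) := ht
    _ = (1 / (2 * Real.pi)) * (1 - c ^ 2) ^ 6 := by ring
    _ ≤ 0.159155 * (1 - a ^ 2) ^ 6 := by
      have := Reg9.inv_two_pi_le
      exact mul_le_mul this h1 h0 (by norm_num)

/-- one step of the subdivision -/
lemma step {t p c a b lam mu : ℝ} (hp : p = 1 / 2 - 15 / 16 * (c - 2 / 3 * c ^ 3 + 1 / 5 * c ^ 5))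
    (hc1 : c ≤ 1) (ht : t ≤ (1 - c ^ 2) ^ 6 / (2 * Real.pi)) (hlam : 0 ≤ lam)
    (ha : 0 ≤ a) (hac : a ≤ c) (hcb : c ≤ b)
    (h : 0.159155 * (1 - a ^ 2) ^ 6 ≤ lam * (1 / 2 - 15 / 16 * (b - 2 / 3 * b ^ 3 + 1 / 5 * b ^ 5)) + mu)
    (_h1 : (0 : ℝ) ≤ 1) : t ≤ lam * p + mu := by
  have h1 := t_le ha hac hc1 ht
  have h2 : c - 2 / 3 * c ^ 3 + 1 / 5 * c ^ 5 ≤ b - 2 / 3 * b ^ 3 + 1 / 5 * b ^ 5 := ff_mono hcb
  have h3 : 1 / 2 - 15 / 16 * (b - 2 / 3 * b ^ 3 + 1 / 5 * b ^ 5) ≤ p := by rw [hp]; linarith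
  have h4 := mul_le_mul_of_nonneg_left h3 hlam
  linarith

lemma major {t p c : ℝ} (hc0 : 0 ≤ c) (hend : c ≤ 1)
    (hp : p = 1 / 2 - 15 / 16 * (c - 2 / 3 * c ^ 3 + 1 / 5 * c ^ 5))
    (ht : t ≤ (1 - c ^ 2) ^ 6 / (2 * Real.pi)) : t ≤ 0.2757 * p + 0.041 := by
  by_cases h0 : c ≤ 0.0764
  · exact step (a := 0) (b := 0.0764) hp hend ht (by norm_num) (by norm_num) hc0 h0 (by norm_num) (by norm_num)
  push Not at h0
  by_cases h1 : c ≤ 0.098
  · exact step (a := 0.0764) (b := 0.098) hp hend ht (by norm_num) (by norm_num) h0.le h1 (by norm_num) (by norm_num)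
  push Not at h1
  by_cases h2 : c ≤ 0.1117
  · exact step (a := 0.098) (b := 0.1117) hp hend ht (by norm_num) (by norm_num) h1.le h2 (by norm_num) (by norm_num)
  push Not at h2
  by_cases h3 : c ≤ 0.122
  · exact step (a := 0.1117) (b := 0.122) hp hend ht (by norm_num) (by norm_num) h2.le h3 (by norm_num) (by norm_num)
  push Not at h3
  by_cases h4 : c ≤ 0.1306
  · exact step (a := 0.122) (b := 0.1306) hp hend ht (by norm_num) (by norm_num) h3.le h4 (by norm_num) (by norm_num)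
  push Not at h4
  by_cases h5 : c ≤ 0.1383
  · exact step (a := 0.1306) (b := 0.1383) hp hend ht (by norm_num) (by norm_num) h4.le h5 (by norm_num) (by norm_num)
  push Not at h5
  by_cases h6 : c ≤ 0.1456
  · exact step (a := 0.1383) (b := 0.1456) hp hend ht (by norm_num) (by norm_num) h5.le h6 (by norm_num) (by norm_num)
  push Not at h6
  by_cases h7 : c ≤ 0.1528
  · exact step (a := 0.1456) (b := 0.1528) hp hend ht (by norm_num) (by norm_num) h6.le h7 (by norm_num) (by norm_num)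
  push Not at h7
  by_cases h8 : c ≤ 0.1603
  · exact step (a := 0.1528) (b := 0.1603) hp hend ht (by norm_num) (by norm_num) h7.le h8 (by norm_num) (by norm_num)
  push Not at h8
  by_cases h9 : c ≤ 0.1683
  · exact step (a := 0.1603) (b := 0.1683) hp hend ht (by norm_num) (by norm_num) h8.le h9 (by norm_num) (by norm_num)
  push Not at h9
  by_cases h10 : c ≤ 0.1773
  · exact step (a := 0.1683) (b := 0.1773) hp hend ht (by norm_num) (by norm_num) h9.le h10 (by norm_num) (by norm_num)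
  push Not at h10
  by_cases h11 : c ≤ 0.1879
  · exact step (a := 0.1773) (b := 0.1879) hp hend ht (by norm_num) (by norm_num) h10.le h11 (by norm_num) (by norm_num)
  push Not at h11
  by_cases h12 : c ≤ 0.201
  · exact step (a := 0.1879) (b := 0.201) hp hend ht (by norm_num) (by norm_num) h11.le h12 (by norm_num) (by norm_num)
  push Not at h12
  by_cases h13 : c ≤ 0.2179
  · exact step (a := 0.201) (b := 0.2179) hp hend ht (by norm_num) (by norm_num) h12.le h13 (by norm_num) (by norm_num)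
  push Not at h13
  by_cases h14 : c ≤ 0.2412
  · exact step (a := 0.2179) (b := 0.2412) hp hend ht (by norm_num) (by norm_num) h13.le h14 (by norm_num) (by norm_num)
  push Not at h14
  by_cases h15 : c ≤ 0.2758
  · exact step (a := 0.2412) (b := 0.2758) hp hend ht (by norm_num) (by norm_num) h14.le h15 (by norm_num) (by norm_num)
  push Not at h15
  by_cases h16 : c ≤ 0.3326
  · exact step (a := 0.2758) (b := 0.3326) hp hend ht (by norm_num) (by norm_num) h15.le h16 (by norm_num) (by norm_num)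
  push Not at h16
  by_cases h17 : c ≤ 0.441
  · exact step (a := 0.3326) (b := 0.441) hp hend ht (by norm_num) (by norm_num) h16.le h17 (by norm_num) (by norm_num)
  push Not at h17
  by_cases h18 : c ≤ 0.7965
  · exact step (a := 0.441) (b := 0.7965) hp hend ht (by norm_num) (by norm_num) h17.le h18 (by norm_num) (by norm_num)
  push Not at h18
  exact step (a := 0.7965) (b := 1) hp hend ht (by norm_num) (by norm_num) h18.le hend (by norm_num) (by norm_num)

lemma major2 {t p c : ℝ} (hc0 : 0 ≤ c) (hc1 : c ≤ 1) (hend : c ≤ 0.366)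
    (hp : p = 1 / 2 - 15 / 16 * (c - 2 / 3 * c ^ 3 + 1 / 5 * c ^ 5))
    (ht : t ≤ (1 - c ^ 2) ^ 6 / (2 * Real.pi)) : t ≤ 0.47 * p + (-0.018) := by
  by_cases h0 : c ≤ 0.1328
  · exact step (a := 0) (b := 0.1328) hp hc1 ht (by norm_num) (by norm_num) hc0 h0 (by norm_num) (by norm_num)
  push Not at h0
  by_cases h1 : c ≤ 0.1711
  · exact step (a := 0.1328) (b := 0.1711) hp hc1 ht (by norm_num) (by norm_num) h0.le h1 (by norm_num) (by norm_num)
  push Not at h1
  by_cases h2 : c ≤ 0.1951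
  · exact step (a := 0.1711) (b := 0.1951) hp hc1 ht (by norm_num) (by norm_num) h1.le h2 (by norm_num) (by norm_num)
  push Not at h2
  by_cases h3 : c ≤ 0.2126
  · exact step (a := 0.1951) (b := 0.2126) hp hc1 ht (by norm_num) (by norm_num) h2.le h3 (by norm_num) (by norm_num)
  push Not at h3
  by_cases h4 : c ≤ 0.2264
  · exact step (a := 0.2126) (b := 0.2264) hp hc1 ht (by norm_num) (by norm_num) h3.le h4 (by norm_num) (by norm_num)
  push Not at h4
  by_cases h5 : c ≤ 0.2378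
  · exact step (a := 0.2264) (b := 0.2378) hp hc1 ht (by norm_num) (by norm_num) h4.le h5 (by norm_num) (by norm_num)
  push Not at h5
  by_cases h6 : c ≤ 0.2477
  · exact step (a := 0.2378) (b := 0.2477) hp hc1 ht (by norm_num) (by norm_num) h5.le h6 (by norm_num) (by norm_num)
  push Not at h6
  by_cases h7 : c ≤ 0.2564
  · exact step (a := 0.2477) (b := 0.2564) hp hc1 ht (by norm_num) (by norm_num) h6.le h7 (by norm_num) (by norm_num)
  push Not at h7
  by_cases h8 : c ≤ 0.2643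
  · exact step (a := 0.2564) (b := 0.2643) hp hc1 ht (by norm_num) (by norm_num) h7.le h8 (by norm_num) (by norm_num)
  push Not at h8
  by_cases h9 : c ≤ 0.2716
  · exact step (a := 0.2643) (b := 0.2716) hp hc1 ht (by norm_num) (by norm_num) h8.le h9 (by norm_num) (by norm_num)
  push Not at h9
  by_cases h10 : c ≤ 0.2784
  · exact step (a := 0.2716) (b := 0.2784) hp hc1 ht (by norm_num) (by norm_num) h9.le h10 (by norm_num) (by norm_num)
  push Not at h10
  by_cases h11 : c ≤ 0.2849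
  · exact step (a := 0.2784) (b := 0.2849) hp hc1 ht (by norm_num) (by norm_num) h10.le h11 (by norm_num) (by norm_num)
  push Not at h11
  by_cases h12 : c ≤ 0.2911
  · exact step (a := 0.2849) (b := 0.2911) hp hc1 ht (by norm_num) (by norm_num) h11.le h12 (by norm_num) (by norm_num)
  push Not at h12
  by_cases h13 : c ≤ 0.2971
  · exact step (a := 0.2911) (b := 0.2971) hp hc1 ht (by norm_num) (by norm_num) h12.le h13 (by norm_num) (by norm_num)
  push Not at h13
  by_cases h14 : c ≤ 0.303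
  · exact step (a := 0.2971) (b := 0.303) hp hc1 ht (by norm_num) (by norm_num) h13.le h14 (by norm_num) (by norm_num)
  push Not at h14
  by_cases h15 : c ≤ 0.3088
  · exact step (a := 0.303) (b := 0.3088) hp hc1 ht (by norm_num) (by norm_num) h14.le h15 (by norm_num) (by norm_num)
  push Not at h15
  by_cases h16 : c ≤ 0.3146
  · exact step (a := 0.3088) (b := 0.3146) hp hc1 ht (by norm_num) (by norm_num) h15.le h16 (by norm_num) (by norm_num)
  push Not at h16
  by_cases h17 : c ≤ 0.3204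
  · exact step (a := 0.3146) (b := 0.3204) hp hc1 ht (by norm_num) (by norm_num) h16.le h17 (by norm_num) (by norm_num)
  push Not at h17
  by_cases h18 : c ≤ 0.3263
  · exact step (a := 0.3204) (b := 0.3263) hp hc1 ht (by norm_num) (by norm_num) h17.le h18 (by norm_num) (by norm_num)
  push Not at h18
  by_cases h19 : c ≤ 0.3323
  · exact step (a := 0.3263) (b := 0.3323) hp hc1 ht (by norm_num) (by norm_num) h18.le h19 (by norm_num) (by norm_num)
  push Not at h19
  by_cases h20 : c ≤ 0.3384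
  · exact step (a := 0.3323) (b := 0.3384) hp hc1 ht (by norm_num) (by norm_num) h19.le h20 (by norm_num) (by norm_num)
  push Not at h20
  by_cases h21 : c ≤ 0.3446
  · exact step (a := 0.3384) (b := 0.3446) hp hc1 ht (by norm_num) (by norm_num) h20.le h21 (by norm_num) (by norm_num)
  push Not at h21
  by_cases h22 : c ≤ 0.351
  · exact step (a := 0.3446) (b := 0.351) hp hc1 ht (by norm_num) (by norm_num) h21.le h22 (by norm_num) (by norm_num)
  push Not at h22
  by_cases h23 : c ≤ 0.3577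
  · exact step (a := 0.351) (b := 0.3577) hp hc1 ht (by norm_num) (by norm_num) h22.le h23 (by norm_num) (by norm_num)
  push Not at h23
  by_cases h24 : c ≤ 0.3646
  · exact step (a := 0.3577) (b := 0.3646) hp hc1 ht (by norm_num) (by norm_num) h23.le h24 (by norm_num) (by norm_num)
  push Not at h24
  exact step (a := 0.3646) (b := 0.366) hp hc1 ht (by norm_num) (by norm_num) h24.le hend (by norm_num) (by norm_num)

/-- large cells -/
lemma e_large {t p : ℝ} (ht : 0 < t) (hp : 0 < p) (hPL : t ≤ 2 * p ^ 2)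
    (h : ∃ c : ℝ, 0 ≤ c ∧ c ≤ 1 ∧
      p = 1 / 2 - 15 / 16 * (c - 2 / 3 * c ^ 3 + 1 / 5 * c ^ 5) ∧
      t ≤ (1 - c ^ 2) ^ 6 / (2 * Real.pi))
    (hτ : 0.00466489 ≤ t) : 0.018 ≤ 0.47 * p - t := by
  have hp1 : 0.04829 ≤ p := by
    by_contra h'
    push Not at h'
    nlinarith
  by_cases h1 : p ≤ 0.1868
  · nlinarith
  push Not at h1
  obtain ⟨c, hc0, hc1, hpc, htc⟩ := h
  have hc : c ≤ 0.366 := by
    by_contra h'
    push Not at h'
    have h2 : ff 0.366 ≤ ff c := ff_mono h'.le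
    have h3 : p ≤ 1 / 2 - 15 / 16 * ff 0.366 := by
      rw [hpc]; unfold ff at h2 ⊢; linarith
    unfold ff at h3
    norm_num at h3
    linarith
  have := major2 hc0 hc1 hc hpc htc
  linarith

lemma small_cell {t p y : ℝ} (ht : 0 < t) (hp : 0 < p) (hPL : t ≤ 2 * p ^ 2)
    (hyt : y ^ 2 ≤ t) (hτ : t < 0.00466489) :
    y * (0.3323 - y) ≤ 0.47 * p - t ∧ t ≤ 0.259 * (0.47 * p - t) := by
  have hs := Real.sqrt_nonneg t
  have hsq := Real.sq_sqrt ht.le
  set z := √t with hz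
  have h1 := Reg9.p_ge hp hsq.symm hPL
  have h2 : z < 0.0683 := by
    have h1 : z ^ 2 < (0.0683 : ℝ) ^ 2 := by
      rw [hsq]; refine hτ.trans_le ?_; norm_num
    exact lt_of_pow_lt_pow_left₀ 2 (by norm_num) h1
  have h3 : y ≤ z := by
    rw [hz]; exact Real.le_sqrt_of_sq_le hyt
  have h4 : z * (0.3323 - z) ≤ 0.47 * p - t := by
    rw [← hsq]; nlinarith
  have h5 : 0 ≤ (z - y) * (0.3323 - z - y) := mul_nonneg (by linarith) (by linarith)
  constructor
  · nlinarith
  · have h6 : t ≤ 0.259 * (z * (0.3323 - z)) := by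
      rw [← hsq]; nlinarith
    linarith

lemma below_line {t p : ℝ} (ht : 0 < t) (hp : 0 < p) (hPL : t ≤ 2 * p ^ 2) (h3 : t < 0.038) :
    t ≤ 0.2757 * p := by
  have hs := Real.sqrt_nonneg t
  have hsq := Real.sq_sqrt ht.le
  set z := √t with hz
  have h1 := Reg9.p_ge hp hsq.symm hPL
  have h2 : z < 0.19494 := by
    have h1 : z ^ 2 < (0.19494 : ℝ) ^ 2 := by
      rw [hsq]; refine h3.trans_le ?_; norm_num
    exact lt_of_pow_lt_pow_left₀ 2 (by norm_num) h1
  nlinarith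

lemma ybound {y a g : ℝ} (hy : y < 0.0683) (h : y * (0.3323 - y) ≤ g) (_ha : a ≤ 0.0683)
    (hg : g < a * (0.3323 - a)) : y ≤ a := by
  by_contra h'
  push Not at h'
  have : 0 ≤ (y - a) * (0.3323 - a - y) := mul_nonneg (by linarith) (by linarith)
  nlinarith

set_option maxHeartbeats 4000000 in
/-- the final case analysis -/
lemma fin7 {t0 t1 t2 t3 t4 t5 t6 T e0 e1 e2 e3 e4 e5 E y : ℝ}
    (h01 : t1 ≤ t0) (h12 : t2 ≤ t1) (h23 : t3 ≤ t2) (h34 : t4 ≤ t3) (h45 : t5 ≤ t4)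
    (h56 : t6 ≤ t5) (hy : 0 < y) (hy6 : y ^ 2 ≤ t6)
    (hS : 0.358098 < t0 + t1 + t2 + t3 + t4 + t5 + T)
    (hE : e0 + e1 + e2 + e3 + e4 + e5 + E =
      0.47 - (t0 + t1 + t2 + t3 + t4 + t5 + T))
    (c0 : 0.00466489 ≤ t0 → 0.018 ≤ e0) (c1 : 0.00466489 ≤ t1 → 0.018 ≤ e1)
    (c2 : 0.00466489 ≤ t2 → 0.018 ≤ e2) (c3 : 0.00466489 ≤ t3 → 0.018 ≤ e3)
    (c4 : 0.00466489 ≤ t4 → 0.018 ≤ e4) (c5 : 0.00466489 ≤ t5 → 0.018 ≤ e5)
    (cT : 0.00466489 ≤ t6 → 0.018 ≤ E)
    (s3 : t3 < 0.00466489 → y * (0.3323 - y) ≤ e3 ∧ t3 ≤ 0.259 * e3)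
    (s4 : t4 < 0.00466489 → y * (0.3323 - y) ≤ e4 ∧ t4 ≤ 0.259 * e4)
    (s5 : t5 < 0.00466489 → y * (0.3323 - y) ≤ e5 ∧ t5 ≤ 0.259 * e5)
    (sT : t6 < 0.00466489 → y * (0.3323 - y) ≤ E ∧ T ≤ 0.259 * E)
    (ht2 : 0.038 ≤ t2)
    (hTG : 0.146 * ((t0 + t1) * (2 * t2 - (t4 + t5 + T) / 2)) < y ^ 2) : False := by
  have b0 := c0 (by linarith)
  have b1 := c1 (by linarith)
  have b2 := c2 (by linarith)
  clear c0 c1 c2
  have hylt : t6 < 0.00466489 → y < 0.0683 := by
    intro h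
    have h1 : y ^ 2 < (0.0683 : ℝ) ^ 2 := by
      refine hy6.trans_lt (h.trans_le ?_); norm_num
    exact lt_of_pow_lt_pow_left₀ 2 (by norm_num) h1
  by_cases k3 : t3 < 0.00466489
  · -- three large cells
    obtain ⟨g3, l3⟩ := s3 k3
    obtain ⟨g4, l4⟩ := s4 (by linarith)
    obtain ⟨g5, l5⟩ := s5 (by linarith)
    obtain ⟨gE, lE⟩ := sT (by linarith)
    have hy54 := hylt (by linarith)
    clear c3 c4 c5 cT s3 s4 s5 sT hylt
    have hy1 : y ≤ 0.0516 := ybound hy54 (g := 0.0144755) (by linarith) (by norm_num) (by norm_num)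
    have hy2 : y ^ 2 ≤ 0.00266256 := Reg9.sq_le hy hy1 (by norm_num)
    have h3 : 0 ≤ t3 := by linarith [sq_nonneg y]
    have hw1 : 0.0685 ≤ 2 * t2 - (t4 + t5 + T) / 2 := by linarith
    have hw2 : 0.67869 - 2 * (t0 + t1) ≤ 2 * t2 - (t4 + t5 + T) / 2 := by linarith
    have hs : 0.2287 ≤ t0 + t1 := by linarith
    have := Reg9.prod_lin (c := 0.0183) (hi := 0.3) hs hw1 hw2 (by norm_num) (by norm_num)
      (by norm_num) (by norm_num) (by norm_num) (by norm_num) (by norm_num)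
    linarith
  push Not at k3
  have b3 := c3 k3
  clear c3 s3
  by_cases k4 : t4 < 0.00466489
  · obtain ⟨g4, l4⟩ := s4 (by linarith)
    obtain ⟨g5, l5⟩ := s5 (by linarith)
    obtain ⟨gE, lE⟩ := sT (by linarith)
    have hy54 := hylt (by linarith)
    clear c4 c5 cT s4 s5 sT hylt
    have hy1 : y ≤ 0.0466 := ybound hy54 (g := 0.0133007) (by linarith) (by norm_num) (by norm_num)
    have hy2 : y ^ 2 ≤ 0.00217156 := Reg9.sq_le hy hy1 (by norm_num)
    have hw1 : 0.07082 ≤ 2 * t2 - (t4 + t5 + T) / 2 := by linarith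
    have hw2 : 0.34258 - 1 * (t0 + t1) ≤ 2 * t2 - (t4 + t5 + T) / 2 := by linarith
    have hs : 0.1738 ≤ t0 + t1 := by linarith
    have := Reg9.prod_lin (c := 0.0149) (hi := 0.24) hs hw1 hw2 (by norm_num) (by norm_num)
      (by norm_num) (by norm_num) (by norm_num) (by norm_num) (by norm_num)
    linarith
  push Not at k4
  have b4 := c4 k4
  clear c4 s4
  by_cases k5 : t5 < 0.00466489
  · obtain ⟨g5, l5⟩ := s5 (by linarith)
    obtain ⟨gE, lE⟩ := sT (by linarith)
    have hy54 := hylt (by linarith)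
    clear c5 cT s5 sT hylt
    have hy1 : y ≤ 0.0372 := ybound hy54 (g := 0.010952) (by linarith) (by norm_num) (by norm_num)
    have hy2 : y ^ 2 ≤ 0.00138384 := Reg9.sq_le hy hy1 (by norm_num)
    have hw1 : 0.05416 ≤ 2 * t2 - (t4 + t5 + T) / 2 := by linarith
    have hw2 : 0.17337 - (1/2) * (t0 + t1) ≤ 2 * t2 - (t4 + t5 + T) / 2 := by linarith
    have hs : 0.1409 ≤ t0 + t1 := by linarith
    have := Reg9.prod_lin (c := 0.0095) (hi := 0.2) hs hw1 hw2 (by norm_num) (by norm_num)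
      (by norm_num) (by norm_num) (by norm_num) (by norm_num) (by norm_num)
    linarith
  push Not at k5
  have b5 := c5 k5
  clear c5 s5
  by_cases k6 : t6 < 0.00466489
  · obtain ⟨gE, lE⟩ := sT (by linarith)
    have hy54 := hylt (by linarith)
    clear cT sT hylt
    have hy1 : y ≤ 0.0123 := ybound hy54 (g := 0.003903) (by linarith) (by norm_num) (by norm_num)
    have hy2 : y ^ 2 ≤ 0.00015129 := Reg9.sq_le hy hy1 (by norm_num)
    have hw1 : 0.0374 ≤ 2 * t2 - (t4 + t5 + T) / 2 := by linarith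
    have hs : 0.076 ≤ t0 + t1 := by linarith
    have : 0.076 * 0.0374 ≤ (t0 + t1) * (2 * t2 - (t4 + t5 + T) / 2) :=
      mul_le_mul hs hw1 (by norm_num) (by linarith)
    linarith
  push Not at k6
  have b6 := cT k6
  linarith

lemma aux {m : ℕ} (D : RegData (6 + (m + 1)) (146 / 1000)) (hs : Antitone D.t)
    (h : ∀ i, ∃ c : ℝ, 0 ≤ c ∧ c ≤ 1 ∧
      D.p i = 1 / 2 - 15 / 16 * (c - 2 / 3 * c ^ 3 + 1 / 5 * c ^ 5) ∧
      D.t i ≤ (1 - c ^ 2) ^ 6 / (2 * Real.pi)) : False := by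
  set c : Fin 6 → Fin (6 + (m + 1)) := Fin.castAdd (m + 1) with hc
  set d : Fin (m + 1) → Fin (6 + (m + 1)) := Fin.natAdd 6 with hd
  have hsum : ∀ f : Fin (6 + (m + 1)) → ℝ, ∑ i, f i = f (c 0) + f (c 1) + f (c 2) + f (c 3) +
      f (c 4) + f (c 5) + ∑ j, f (d j) := by
    intro f
    rw [Fin.sum_univ_add, Fin.sum_univ_six]
  have hcc : ∀ i j : Fin 6, i ≤ j → D.t (c j) ≤ D.t (c i) := fun i j hij => hs (by
    rw [Fin.le_def]; simpa [hc] using hij)
  have hcd : ∀ (i : Fin 6) (j : Fin (m + 1)), D.t (d j) ≤ D.t (c i) := fun i j => hs (by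
    rw [Fin.le_def]; simp [hc, hd]; omega)
  have hdd : ∀ (j : Fin (m + 1)), D.t (d j) ≤ D.t (d 0) := fun j => hs (by
    rw [Fin.le_def]; simp [hd])
  set o := d (Fin.last m) with ho
  have hoall : ∀ i, D.t o ≤ D.t i := fun i => hs (by
    rw [Fin.le_def]; simp [ho, hd]; omega)
  set y := √(D.t o) with hy
  have hy0 : 0 < y := Real.sqrt_pos.mpr (D.tpos o)
  have hysq : y ^ 2 = D.t o := Real.sq_sqrt (D.tpos o).le
  set e : Fin (6 + (m + 1)) → ℝ := fun i => 0.47 * D.p i - D.t i with he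
  have hlarge : ∀ i, 0.00466489 ≤ D.t i → 0.018 ≤ e i := fun i hi =>
    e_large (D.tpos i) (D.ppos i) (D.PLb i) (h i) hi
  have hsmall : ∀ i, D.t i < 0.00466489 → y * (0.3323 - y) ≤ e i ∧ D.t i ≤ 0.259 * e i :=
    fun i hi => small_cell (D.tpos i) (D.ppos i) (D.PLb i) (hysq.trans_le (hoall i)) hi
  have he0 : ∀ i, 0 ≤ e i := by
    intro i
    by_cases hi : 0.00466489 ≤ D.t i
    · exact le_trans (by norm_num) (hlarge i hi)
    · push Not at hi
      have := (hsmall i hi).2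
      have := D.tpos i
      linarith
  have hS : (0.358098 : ℝ) < ∑ i, D.t i := Reg9.C2_ge.trans_lt D.tsum
  have hEsum : ∑ i, e i = 0.47 - ∑ i, D.t i := by
    simp only [he]
    rw [Finset.sum_sub_distrib, ← Finset.mul_sum, D.psum, mul_one]
  -- lower bound for the third cell
  have ht2 : 0.038 ≤ D.t (c 2) := by
    by_contra hlt
    push Not at hlt
    have hb : ∀ i, D.t i ≤ D.t (c 2) → D.t i ≤ 0.2757 * D.p i := fun i hi =>
      below_line (D.tpos i) (D.ppos i) (D.PLb i) (hi.trans_lt hlt)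
    have hM : ∀ i, D.t i ≤ 0.2757 * D.p i + 0.041 := fun i => by
      obtain ⟨x, hx0, hx1, hpx, htx⟩ := h i
      exact major hx0 hx1 hpx htx
    have m0 := hM (c 0)
    have m1 := hM (c 1)
    have m2 := hb _ (hcc 2 2 le_rfl)
    have m3 := hb _ (hcc 2 3 (by decide))
    have m4 := hb _ (hcc 2 4 (by decide))
    have m5 := hb _ (hcc 2 5 (by decide))
    have mT : ∑ j, D.t (d j) ≤ 0.2757 * ∑ j, D.p (d j) := by
      rw [Finset.mul_sum]
      exact Finset.sum_le_sum fun j _ => hb _ (hcd 2 j)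
    have hP := D.psum
    rw [hsum] at hP hS
    linarith
  -- the triangle condition
  have hne : ∀ i j : Fin 6, i ≠ j → c i ≠ c j := fun i j hij h' => hij (by
    simpa [hc] using h')
  have hod : ∀ i : Fin 6, o ≠ c i := fun i h' => by
    have := congrArg Fin.val h'
    simp [ho, hc, hd] at this
    omega
  have hTG := D.TG o (c 0) (c 1) (c 2) (hod 0) (hod 1) (hod 2) (hne 0 1 (by decide))
    (hne 0 2 (by decide)) (hne 1 2 (by decide))
  have hD2 := D.D2_lower (hne 0 1 (by decide)) (hne 0 2 (by decide)) (hne 1 2 (by decide))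
    (hne 0 3 (by decide)) (hne 1 3 (by decide)) (hne 2 3 (by decide)) (hcc 0 1 (by decide))
    (hcc 1 2 (by decide)) (hcc 2 3 (by decide))
  rw [Reg9.sum_rest D.t (hne 0 1 (by decide)) (hne 0 2 (by decide)) (hne 1 2 (by decide))
    (hne 0 3 (by decide)) (hne 1 3 (by decide)) (hne 2 3 (by decide)), hsum D.t] at hD2
  rw [hsum] at hS hEsum
  rw [hsum D.t] at hEsum
  have hR : (D.t (c 0) + D.t (c 1) + D.t (c 2) + D.t (c 3) + D.t (c 4) + D.t (c 5)
      + ∑ j, D.t (d j) - D.t (c 0) - D.t (c 1) - D.t (c 2) - D.t (c 3)) =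
      D.t (c 4) + D.t (c 5) + ∑ j, D.t (d j) := by ring
  rw [hR] at hD2
  refine fin7 (hcc 0 1 (by decide)) (hcc 1 2 (by decide)) (hcc 2 3 (by decide))
    (hcc 3 4 (by decide)) (hcc 4 5 (by decide)) (hcd 5 0) hy0
    (hysq.trans_le (hoall _)) hS hEsum (hlarge _) (hlarge _) (hlarge _) (hlarge _) (hlarge _)
    (hlarge _) ?_ (hsmall _) (hsmall _) (hsmall _) ?_ ht2 ?_
  · intro h6
    refine (hlarge _ h6).trans ?_
    exact Finset.single_le_sum (f := fun j => e (d j)) (fun j _ => he0 _) (Finset.mem_univ 0)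
  · intro h6
    have h7' : ∀ j, D.t (d j) < 0.00466489 := fun j => (hdd j).trans_lt h6
    constructor
    · refine (hsmall _ (h7' (Fin.last m))).1.trans ?_
      exact Finset.single_le_sum (f := fun j => e (d j)) (fun j _ => he0 _)
        (Finset.mem_univ (Fin.last m))
    · rw [Finset.mul_sum]
      exact Finset.sum_le_sum fun j _ => (hsmall _ (h7' j)).2
  · rw [hysq]
    have hmul := mul_le_mul_of_nonneg_left hD2 (show (0 : ℝ) ≤ 146 / 1000 by norm_num)
    have e11 : (0.146 : ℝ) = 146 / 1000 := by norm_num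
    rw [e11]
    exact lt_of_le_of_lt hmul hTG

end Reg78

theorem region_7_8 (k : ℕ) (hk : k = 7 ∨ k = 8) (D : RegData k (146 / 1000))
    (h : ∀ i, ∃ c : ℝ, 0 ≤ c ∧ c ≤ 1 ∧
      D.p i = 1 / 2 - 15 / 16 * (c - 2 / 3 * c ^ 3 + 1 / 5 * c ^ 5) ∧
      D.t i ≤ (1 - c ^ 2) ^ 6 / (2 * Real.pi)) : False := by
  obtain ⟨m, rfl⟩ : ∃ m, k = 6 + (m + 1) := ⟨k - 7, by omega⟩
  obtain ⟨σ, hσ⟩ := D.relabel_sorted
  exact Reg78.aux (D.relabel σ) hσ (fun i => h (σ i))

end Crest.Agent.Prop334
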