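import Crest.Agent.Prop334.RegCommon
import Crest.Agent.Prop334.GaussTail

/-! Region part for `k ≥ 9` cells. -/

set_option autoImplicit false

open MeasureTheory ProbabilityTheory

namespace Crest.Agent.Prop334

namespace Reg9

lemma inv_two_pi_le : 1 / (2 * Real.pi) ≤ 0.159155 := by
  have h := Real.pi_gt_d6
  rw [div_le_iff₀ (by positivity)]
  nlinarith

lemma C2_ge : (0.358098 : ℝ) ≤ 9 / (8 * Real.pi) := by
  have h := Real.pi_lt_d6
  rw [le_div_iff₀ (by positivity)]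
  nlinarith

lemma p_ge {t p y : ℝ} (hp : 0 < p) (hty : t = y ^ 2) (hPL : t ≤ 2 * p ^ 2) :
    0.7071 * y ≤ p := by
  by_contra h
  push Not at h
  have h1 : p ^ 2 < (0.7071 * y) ^ 2 := pow_lt_pow_left₀ h hp.le (by norm_num)
  nlinarith [sq_nonneg y]

/-- large cells -/
lemma e_large {t p : ℝ} (ht : 0 < t) (hp : 0 < p) (hPL : t ≤ 2 * p ^ 2)
    (hle : t ≤ 1 / (2 * Real.pi))
    (h : ∀ s : ℝ, √t ≤ Real.exp (-s ^ 2 / 2) / √(2 * Real.pi)
      + s * (p - (gaussianReal 0 1).real (Set.Ioi s)))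
    (hτ : 0.00293764 ≤ t) : 0.015 ≤ 0.47 * p - t := by
  have hp1 : 0.0383 ≤ p := by
    by_contra h'
    push Not at h'
    nlinarith
  have hle' := hle.trans inv_two_pi_le
  have hs := Real.sqrt_nonneg t
  have hsq := Real.sq_sqrt ht.le
  by_cases h1 : p ≤ 0.1969
  · nlinarith
  push Not at h1
  by_cases h2 : p ≤ 0.243
  · have h80 := (h 0.8).trans (GaussTail.line_80 p)
    have h3 : t ≤ (0.1203 + 0.8 * p) ^ 2 := by
      rw [← hsq]; exact pow_le_pow_left₀ hs h80 2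
    nlinarith
  push Not at h2
  by_cases h3 : p ≤ 0.3706
  · have h60 := (h 0.6).trans (GaussTail.line_60 p)
    have h4 : t ≤ (0.1688 + 0.6 * p) ^ 2 := by
      rw [← hsq]; exact pow_le_pow_left₀ hs h60 2
    nlinarith
  push Not at h3
  linarith

/-- linear majorant -/
lemma t_major {t p : ℝ} (ht : 0 < t) (hp : 0 < p) (hPL : t ≤ 2 * p ^ 2)
    (hle : t ≤ 1 / (2 * Real.pi))
    (h : ∀ s : ℝ, √t ≤ Real.exp (-s ^ 2 / 2) / √(2 * Real.pi)
      + s * (p - (gaussianReal 0 1).real (Set.Ioi s))) :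
    t ≤ 0.245 * p + 0.0539 := by
  have hle' := hle.trans inv_two_pi_le
  have hs := Real.sqrt_nonneg t
  have hsq := Real.sq_sqrt ht.le
  by_cases h1 : p ≤ 0.235
  · nlinarith
  push Not at h1
  by_cases h2 : p ≤ 0.43
  · have h35 := (h 0.35).trans (GaussTail.line_35 p)
    have h3 : t ≤ (0.2482 + 0.35 * p) ^ 2 := by
      rw [← hsq]; exact pow_le_pow_left₀ hs h35 2
    nlinarith
  push Not at h2
  linarith

lemma ybound {y a g : ℝ} (hy : y < 0.0542) (h : y * (0.3323 - y) ≤ g) (_ha : a ≤ 0.0542)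
    (hg : g < a * (0.3323 - a)) : y ≤ a := by
  by_contra h'
  push Not at h'
  have : 0 ≤ (y - a) * (0.3323 - a - y) := mul_nonneg (by linarith) (by linarith)
  nlinarith

lemma prod_lin {s w p q lo hi w1 c : ℝ} (hlo : lo ≤ s) (hw1 : w1 ≤ w) (hw2 : p - q * s ≤ w)
    (hq : 0 ≤ q) (hw0 : 0 ≤ w1) (h1 : c ≤ hi * w1) (h2 : c ≤ lo * (p - q * lo))
    (h3 : c ≤ hi * (p - q * hi)) (hlt : lo < hi) (hlo0 : 0 ≤ lo) : c ≤ s * w := by
  by_cases hc : hi ≤ s
  · calc c ≤ hi * w1 := h1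
      _ ≤ s * w := mul_le_mul hc hw1 hw0 (by linarith)
  · push Not at hc
    have key : (hi - lo) * (s * (p - q * s)) = (hi - s) * (lo * (p - q * lo)) +
        (s - lo) * (hi * (p - q * hi)) + q * (hi - lo) * ((s - lo) * (hi - s)) := by ring
    have k1 : (hi - s) * c ≤ (hi - s) * (lo * (p - q * lo)) :=
      mul_le_mul_of_nonneg_left h2 (by linarith)
    have k2 : (s - lo) * c ≤ (s - lo) * (hi * (p - q * hi)) :=
      mul_le_mul_of_nonneg_left h3 (by linarith)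
    have k3 : 0 ≤ q * (hi - lo) * ((s - lo) * (hi - s)) :=
      mul_nonneg (mul_nonneg hq (by linarith)) (mul_nonneg (by linarith) (by linarith))
    have k4 : (hi - lo) * c ≤ (hi - lo) * (s * (p - q * s)) := by
      rw [key]; linarith
    have k5 : c ≤ s * (p - q * s) := le_of_mul_le_mul_left k4 (by linarith)
    exact k5.trans (mul_le_mul_of_nonneg_left hw2 (by linarith))

lemma sq_le {y a b : ℝ} (hy : 0 < y) (h : y ≤ a) (hb : a ^ 2 ≤ b) : y ^ 2 ≤ b :=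
  (pow_le_pow_left₀ hy.le h 2).trans hb

set_option maxHeartbeats 4000000 in
/-- the final case analysis -/
lemma fin9 {t0 t1 t2 t3 t4 t5 t6 t7 T e0 e1 e2 e3 e4 e5 e6 e7 E y : ℝ}
    (h01 : t1 ≤ t0) (h12 : t2 ≤ t1) (h23 : t3 ≤ t2) (h34 : t4 ≤ t3) (h45 : t5 ≤ t4)
    (h56 : t6 ≤ t5) (h67 : t7 ≤ t6) (hy : 0 < y) (hy7 : y ^ 2 ≤ t7)
    (hS : 0.358098 < t0 + t1 + t2 + t3 + t4 + t5 + t6 + t7 + T)
    (hE : e0 + e1 + e2 + e3 + e4 + e5 + e6 + e7 + E =
      0.47 - (t0 + t1 + t2 + t3 + t4 + t5 + t6 + t7 + T))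
    (c0 : 0.00293764 ≤ t0 → 0.015 ≤ e0) (c1 : 0.00293764 ≤ t1 → 0.015 ≤ e1)
    (c2 : 0.00293764 ≤ t2 → 0.015 ≤ e2) (c3 : 0.00293764 ≤ t3 → 0.015 ≤ e3)
    (c4 : 0.00293764 ≤ t4 → 0.015 ≤ e4) (c5 : 0.00293764 ≤ t5 → 0.015 ≤ e5)
    (c6 : 0.00293764 ≤ t6 → 0.015 ≤ e6) (c7 : 0.00293764 ≤ t7 → 0.015 ≤ e7)
    (s3 : t3 < 0.00293764 → y * (0.3323 - y) ≤ e3 ∧ t3 ≤ 0.195 * e3)
    (s4 : t4 < 0.00293764 → y * (0.3323 - y) ≤ e4 ∧ t4 ≤ 0.195 * e4)
    (s5 : t5 < 0.00293764 → y * (0.3323 - y) ≤ e5 ∧ t5 ≤ 0.195 * e5)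
    (s6 : t6 < 0.00293764 → y * (0.3323 - y) ≤ e6 ∧ t6 ≤ 0.195 * e6)
    (s7 : t7 < 0.00293764 → y * (0.3323 - y) ≤ e7 ∧ t7 ≤ 0.195 * e7)
    (sT : t7 < 0.00293764 → y * (0.3323 - y) ≤ E ∧ T ≤ 0.195 * E) (hE0 : 0 ≤ E)
    (ht2 : 0.03 ≤ t2)
    (hTG : 0.11 * ((t0 + t1) * (2 * t2 - (t4 + t5 + t6 + t7 + T) / 2)) < y ^ 2) : False := by
  have b0 := c0 (by linarith)
  have b1 := c1 (by linarith)
  have b2 := c2 (by linarith)
  clear c0 c1 c2
  have hylt : t7 < 0.00293764 → y < 0.0542 := by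
    intro h
    have h1 : y ^ 2 < (0.0542 : ℝ) ^ 2 := by
      refine hy7.trans_lt (h.trans_le ?_); norm_num
    exact lt_of_pow_lt_pow_left₀ 2 (by norm_num) h1
  by_cases k3 : t3 < 0.00293764
  · -- three large cells
    obtain ⟨g3, l3⟩ := s3 k3
    obtain ⟨g4, l4⟩ := s4 (by linarith)
    obtain ⟨g5, l5⟩ := s5 (by linarith)
    obtain ⟨g6, l6⟩ := s6 (by linarith)
    obtain ⟨g7, l7⟩ := s7 (by linarith)
    obtain ⟨gE, lE⟩ := sT (by linarith)
    have hy54 := hylt (by linarith)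
    clear c3 c4 c5 c6 c7 s3 s4 s5 s6 s7 sT hylt
    have hy1 : y ≤ 0.038 := ybound hy54 (g := 0.0111504) (by linarith) (by norm_num) (by norm_num)
    have hy2 : y ^ 2 ≤ 0.001444 := sq_le hy hy1 (by norm_num)
    have h3 : 0 ≤ t3 := by linarith [sq_nonneg y]
    have hw1 : 0.05347 ≤ 2 * t2 - (t4 + t5 + t6 + t7 + T) / 2 := by linarith
    have hw2 : 0.68354 - 2 * (t0 + t1) ≤ 2 * t2 - (t4 + t5 + t6 + t7 + T) / 2 := by linarith
    have hs : 0.23 ≤ t0 + t1 := by linarith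
    have := prod_lin (c := 0.0165) (hi := 0.315) hs hw1 hw2 (by norm_num) (by norm_num)
      (by norm_num) (by norm_num) (by norm_num) (by norm_num) (by norm_num)
    linarith
  push Not at k3
  have b3 := c3 k3
  clear c3 s3
  by_cases k4 : t4 < 0.00293764
  · obtain ⟨g4, l4⟩ := s4 (by linarith)
    obtain ⟨g5, l5⟩ := s5 (by linarith)
    obtain ⟨g6, l6⟩ := s6 (by linarith)
    obtain ⟨g7, l7⟩ := s7 (by linarith)
    obtain ⟨gE, lE⟩ := sT (by linarith)
    have hy54 := hylt (by linarith)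
    clear c4 c5 c6 c7 s4 s5 s6 s7 sT hylt
    have hy1 : y ≤ 0.0351 := ybound hy54 (g := 0.0103804) (by linarith) (by norm_num) (by norm_num)
    have hy2 : y ^ 2 ≤ 0.00123202 := sq_le hy hy1 (by norm_num)
    have hw1 : 0.05493 ≤ 2 * t2 - (t4 + t5 + t6 + t7 + T) / 2 := by linarith
    have hw2 : 0.3429 - 1 * (t0 + t1) ≤ 2 * t2 - (t4 + t5 + t6 + t7 + T) / 2 := by linarith
    have hs : 0.1739 ≤ t0 + t1 := by linarith
    have := prod_lin (c := 0.0125) (hi := 0.28) hs hw1 hw2 (by norm_num) (by norm_num)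
      (by norm_num) (by norm_num) (by norm_num) (by norm_num) (by norm_num)
    linarith
  push Not at k4
  have b4 := c4 k4
  clear c4 s4
  by_cases k5 : t5 < 0.00293764
  · obtain ⟨g5, l5⟩ := s5 (by linarith)
    obtain ⟨g6, l6⟩ := s6 (by linarith)
    obtain ⟨g7, l7⟩ := s7 (by linarith)
    obtain ⟨gE, lE⟩ := sT (by linarith)
    have hy54 := hylt (by linarith)
    clear c5 c6 c7 s5 s6 s7 sT hylt
    have hy1 : y ≤ 0.0308 := ybound hy54 (g := 0.0092255) (by linarith) (by norm_num) (by norm_num)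
    have hy2 : y ^ 2 ≤ 0.00094864 := sq_le hy hy1 (by norm_num)
    have hw1 : 0.0414 ≤ 2 * t2 - (t4 + t5 + t6 + t7 + T) / 2 := by linarith
    have hw2 : 0.1718 - (1/2) * (t0 + t1) ≤ 2 * t2 - (t4 + t5 + t6 + t7 + T) / 2 := by linarith
    have hs : 0.14 ≤ t0 + t1 := by linarith
    have := prod_lin (c := 0.0087) (hi := 0.22) hs hw1 hw2 (by norm_num) (by norm_num)
      (by norm_num) (by norm_num) (by norm_num) (by norm_num) (by norm_num)
    linarith
  push Not at k5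
  have b5 := c5 k5
  clear c5 s5
  by_cases k6 : t6 < 0.00293764
  · obtain ⟨g6, l6⟩ := s6 (by linarith)
    obtain ⟨g7, l7⟩ := s7 (by linarith)
    obtain ⟨gE, lE⟩ := sT (by linarith)
    have hy54 := hylt (by linarith)
    clear c6 c7 s6 s7 sT hylt
    have hy1 : y ≤ 0.024 := ybound hy54 (g := 0.0073007) (by linarith) (by norm_num) (by norm_num)
    have hy2 : y ^ 2 ≤ 0.000576 := sq_le hy hy1 (by norm_num)
    have hw1 : 0.02786 ≤ 2 * t2 - (t4 + t5 + t6 + t7 + T) / 2 := by linarith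
    have hw2 : 0.0863 - (1/4) * (t0 + t1) ≤ 2 * t2 - (t4 + t5 + t6 + t7 + T) / 2 := by linarith
    have hs : 0.1179 ≤ t0 + t1 := by linarith
    have := prod_lin (c := 0.00525) (hi := 0.19) hs hw1 hw2 (by norm_num) (by norm_num)
      (by norm_num) (by norm_num) (by norm_num) (by norm_num) (by norm_num)
    linarith
  push Not at k6
  have b6 := c6 k6
  clear c6 s6
  by_cases k7 : t7 < 0.00293764
  · obtain ⟨g7, l7⟩ := s7 (by linarith)
    obtain ⟨gE, lE⟩ := sT (by linarith)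
    have hy54 := hylt (by linarith)
    clear c7 s7 sT hylt
    have hy1 : y ≤ 0.0108 := ybound hy54 (g := 0.003451) (by linarith) (by norm_num) (by norm_num)
    have hy2 : y ^ 2 ≤ 0.00011664 := sq_le hy hy1 (by norm_num)
    have hw1 : 0.01432 ≤ 2 * t2 - (t4 + t5 + t6 + t7 + T) / 2 := by linarith
    have hs : 0.1018 ≤ t0 + t1 := by linarith
    have : 0.1018 * 0.01432 ≤ (t0 + t1) * (2 * t2 - (t4 + t5 + t6 + t7 + T) / 2) :=
      mul_le_mul hs hw1 (by norm_num) (by linarith)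
    linarith
  push Not at k7
  have b7 := c7 k7
  linarith

lemma small_cell {t p y : ℝ} (ht : 0 < t) (hp : 0 < p) (hPL : t ≤ 2 * p ^ 2) (_hy : 0 < y)
    (hyt : y ^ 2 ≤ t) (hτ : t < 0.00293764) :
    y * (0.3323 - y) ≤ 0.47 * p - t ∧ t ≤ 0.195 * (0.47 * p - t) := by
  have hs := Real.sqrt_nonneg t
  have hsq := Real.sq_sqrt ht.le
  set z := √t with hz
  have h1 := p_ge hp hsq.symm hPL
  have h2 : z < 0.0542 := by
    have h1 : z ^ 2 < (0.0542 : ℝ) ^ 2 := by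
      rw [hsq]; refine hτ.trans_le ?_; norm_num
    exact lt_of_pow_lt_pow_left₀ 2 (by norm_num) h1
  have h3 : y ≤ z := by
    rw [hz]; exact Real.le_sqrt_of_sq_le hyt
  have h4 : z * (0.3323 - z) ≤ 0.47 * p - t := by
    rw [← hsq]; nlinarith
  have h5 : 0 ≤ (z - y) * (0.3323 - z - y) := mul_nonneg (by linarith) (by linarith)
  constructor
  · nlinarith
  · have h6 : t ≤ 0.195 * (z * (0.3323 - z)) := by
      rw [← hsq]; nlinarith
    linarith

lemma below_line {t p : ℝ} (ht : 0 < t) (hp : 0 < p) (hPL : t ≤ 2 * p ^ 2) (h3 : t < 0.03) :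
    t ≤ 0.245 * p := by
  have hs := Real.sqrt_nonneg t
  have hsq := Real.sq_sqrt ht.le
  set z := √t with hz
  have h1 := p_ge hp hsq.symm hPL
  have h2 : z < 0.17322 := by
    have h1 : z ^ 2 < (0.17322 : ℝ) ^ 2 := by
      rw [hsq]; refine h3.trans_le ?_; norm_num
    exact lt_of_pow_lt_pow_left₀ 2 (by norm_num) h1
  nlinarith

lemma sum_rest {k : ℕ} (f : Fin k → ℝ) {a b c d : Fin k} (hab : a ≠ b) (hac : a ≠ c) (hbc : b ≠ c)
    (had : a ≠ d) (hbd : b ≠ d) (hcd : c ≠ d) :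
    ∑ j ∈ Finset.univ \ {a, b, c, d}, f j = ∑ j, f j - f a - f b - f c - f d := by
  have h := Finset.sum_sdiff (Finset.subset_univ ({a, b, c, d} : Finset (Fin k))) (f := f)
  rw [Finset.sum_insert (by simp [hab, hac, had]), Finset.sum_insert (by simp [hbc, hbd]),
    Finset.sum_insert (by simp [hcd]), Finset.sum_singleton] at h
  linarith

lemma aux {m : ℕ} (D : RegData (8 + (m + 1)) (11 / 100)) (hs : Antitone D.t)
    (h : ∀ i, ∀ s : ℝ, √(D.t i) ≤ Real.exp (-s ^ 2 / 2) / √(2 * Real.pi)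
      + s * (D.p i - (gaussianReal 0 1).real (Set.Ioi s))) : False := by
  set c : Fin 8 → Fin (8 + (m + 1)) := Fin.castAdd (m + 1) with hc
  set d : Fin (m + 1) → Fin (8 + (m + 1)) := Fin.natAdd 8 with hd
  have hsum : ∀ f : Fin (8 + (m + 1)) → ℝ, ∑ i, f i = f (c 0) + f (c 1) + f (c 2) + f (c 3) +
      f (c 4) + f (c 5) + f (c 6) + f (c 7) + ∑ j, f (d j) := by
    intro f
    rw [Fin.sum_univ_add, Fin.sum_univ_eight]
  have hcc : ∀ i j : Fin 8, i ≤ j → D.t (c j) ≤ D.t (c i) := fun i j hij => hs (by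
    rw [Fin.le_def]; simpa [hc] using hij)
  have hcd : ∀ (i : Fin 8) (j : Fin (m + 1)), D.t (d j) ≤ D.t (c i) := fun i j => hs (by
    rw [Fin.le_def]; simp [hc, hd]; omega)
  set o := d (Fin.last m) with ho
  have hoall : ∀ i, D.t o ≤ D.t i := fun i => hs (by
    rw [Fin.le_def]; simp [ho, hd]; omega)
  set y := √(D.t o) with hy
  have hy0 : 0 < y := Real.sqrt_pos.mpr (D.tpos o)
  have hysq : y ^ 2 = D.t o := Real.sq_sqrt (D.tpos o).le
  set e : Fin (8 + (m + 1)) → ℝ := fun i => 0.47 * D.p i - D.t i with he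
  have hlarge : ∀ i, 0.00293764 ≤ D.t i → 0.015 ≤ e i := fun i hi =>
    e_large (D.tpos i) (D.ppos i) (D.PLb i) (D.tle i) (h i) hi
  have hsmall : ∀ i, D.t i < 0.00293764 → y * (0.3323 - y) ≤ e i ∧ D.t i ≤ 0.195 * e i :=
    fun i hi => small_cell (D.tpos i) (D.ppos i) (D.PLb i) hy0 (hysq.trans_le (hoall i)) hi
  have he0 : ∀ i, 0 ≤ e i := by
    intro i
    by_cases hi : 0.00293764 ≤ D.t i
    · exact le_trans (by norm_num) (hlarge i hi)
    · push Not at hi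
      have := (hsmall i hi).2
      have := D.tpos i
      linarith
  have hS : (0.358098 : ℝ) < ∑ i, D.t i := C2_ge.trans_lt D.tsum
  have hEsum : ∑ i, e i = 0.47 - ∑ i, D.t i := by
    simp only [he]
    rw [Finset.sum_sub_distrib, ← Finset.mul_sum, D.psum, mul_one]
  -- lower bound for the third cell
  have ht2 : 0.03 ≤ D.t (c 2) := by
    by_contra hlt
    push Not at hlt
    have hb : ∀ i, D.t i ≤ D.t (c 2) → D.t i ≤ 0.245 * D.p i := fun i hi =>
      below_line (D.tpos i) (D.ppos i) (D.PLb i) (hi.trans_lt hlt)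
    have m0 := t_major (D.tpos (c 0)) (D.ppos _) (D.PLb _) (D.tle _) (h _)
    have m1 := t_major (D.tpos (c 1)) (D.ppos _) (D.PLb _) (D.tle _) (h _)
    have m2 := hb _ (hcc 2 2 le_rfl)
    have m3 := hb _ (hcc 2 3 (by decide))
    have m4 := hb _ (hcc 2 4 (by decide))
    have m5 := hb _ (hcc 2 5 (by decide))
    have m6 := hb _ (hcc 2 6 (by decide))
    have m7 := hb _ (hcc 2 7 (by decide))
    have mT : ∑ j, D.t (d j) ≤ 0.245 * ∑ j, D.p (d j) := by
      rw [Finset.mul_sum]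
      exact Finset.sum_le_sum fun j _ => hb _ (hcd 2 j)
    have hP := D.psum
    rw [hsum] at hP hS
    linarith
  -- the triangle condition
  have hne : ∀ i j : Fin 8, i ≠ j → c i ≠ c j := fun i j hij h' => hij (by
    simpa [hc] using h')
  have hod : ∀ i : Fin 8, o ≠ c i := fun i h' => by
    have := congrArg Fin.val h'
    simp [ho, hc, hd] at this
    omega
  have hTG := D.TG o (c 0) (c 1) (c 2) (hod 0) (hod 1) (hod 2) (hne 0 1 (by decide))
    (hne 0 2 (by decide)) (hne 1 2 (by decide))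
  have hD2 := D.D2_lower (hne 0 1 (by decide)) (hne 0 2 (by decide)) (hne 1 2 (by decide))
    (hne 0 3 (by decide)) (hne 1 3 (by decide)) (hne 2 3 (by decide)) (hcc 0 1 (by decide))
    (hcc 1 2 (by decide)) (hcc 2 3 (by decide))
  rw [sum_rest D.t (hne 0 1 (by decide)) (hne 0 2 (by decide)) (hne 1 2 (by decide))
    (hne 0 3 (by decide)) (hne 1 3 (by decide)) (hne 2 3 (by decide)), hsum D.t] at hD2
  rw [hsum] at hS hEsum
  rw [hsum D.t] at hEsum
  have hR : (D.t (c 0) + D.t (c 1) + D.t (c 2) + D.t (c 3) + D.t (c 4) + D.t (c 5) + D.t (c 6) +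
      D.t (c 7) + ∑ j, D.t (d j) - D.t (c 0) - D.t (c 1) - D.t (c 2) - D.t (c 3)) =
      D.t (c 4) + D.t (c 5) + D.t (c 6) + D.t (c 7) + ∑ j, D.t (d j) := by ring
  rw [hR] at hD2
  refine fin9 (hcc 0 1 (by decide)) (hcc 1 2 (by decide)) (hcc 2 3 (by decide))
    (hcc 3 4 (by decide)) (hcc 4 5 (by decide)) (hcc 5 6 (by decide)) (hcc 6 7 (by decide)) hy0
    (hysq.trans_le (hoall _)) hS hEsum (hlarge _) (hlarge _) (hlarge _) (hlarge _) (hlarge _)
    (hlarge _) (hlarge _) (hlarge _) (hsmall _) (hsmall _) (hsmall _) (hsmall _) (hsmall _)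
    ?_ (Finset.sum_nonneg fun j _ => he0 _) ht2 ?_
  · intro h7
    have h7' : ∀ j, D.t (d j) < 0.00293764 := fun j => (hcd 7 j).trans_lt h7
    constructor
    · refine (hsmall _ (h7' (Fin.last m))).1.trans ?_
      exact Finset.single_le_sum (f := fun j => e (d j)) (fun j _ => he0 _)
        (Finset.mem_univ (Fin.last m))
    · rw [Finset.mul_sum]
      exact Finset.sum_le_sum fun j _ => (hsmall _ (h7' j)).2
  · rw [hysq]
    have hmul := mul_le_mul_of_nonneg_left hD2 (show (0 : ℝ) ≤ 11 / 100 by norm_num)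
    have e11 : (0.11 : ℝ) = 11 / 100 := by norm_num
    rw [e11]
    exact lt_of_le_of_lt hmul hTG

end Reg9

theorem region_ge9 (k : ℕ) (hk : 9 ≤ k) (D : RegData k (11 / 100))
    (h : ∀ i, ∀ s : ℝ, √(D.t i) ≤ Real.exp (-s ^ 2 / 2) / √(2 * Real.pi)
      + s * (D.p i - (gaussianReal 0 1).real (Set.Ioi s))) : False := by
  obtain ⟨m, rfl⟩ : ∃ m, k = 8 + (m + 1) := ⟨k - 9, by omega⟩
  obtain ⟨σ, hσ⟩ := D.relabel_sorted
  exact Reg9.aux (D.relabel σ) hσ (fun i => h (σ i))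

end Crest.Agent.Prop334
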