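import Crest.Agent.Prop334.Defs

/-! Common lemmas for the region parts: sorting, lower bound for `D2`. -/

set_option autoImplicit false

open MeasureTheory ProbabilityTheory

namespace Crest.Agent.Prop334

/-- relabelling of the cells -/
def RegData.relabel {k : ℕ} {η : ℝ} (D : RegData k η) (σ : Equiv.Perm (Fin k)) : RegData k η where
  t := fun i => D.t (σ i)
  p := fun i => D.p (σ i)
  r := fun i j => D.r (σ i) (σ j)
  tpos := fun i => D.tpos _
  ppos := fun i => D.ppos _
  rsymm := fun i j => D.rsymm _ _
  rpos := fun i j h => D.rpos _ _ (fun h' => h (σ.injective h'))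
  rsum := fun i => by
    rw [← D.rsum (σ i)]
    refine Finset.sum_bij (fun j _ => σ j) ?_ ?_ ?_ ?_
    · intro j hj
      simp only [Finset.mem_erase, Finset.mem_univ, and_true] at hj ⊢
      exact fun h => hj (σ.injective h)
    · intro a _ b _ h; exact σ.injective h
    · intro b hb
      simp only [Finset.mem_erase, Finset.mem_univ, and_true] at hb
      refine ⟨σ.symm b, ?_, by simp⟩
      simp only [Finset.mem_erase, Finset.mem_univ, and_true]
      intro h; apply hb; rw [← h]; simp
    · intro _ _; rfl
  psum := by rw [← D.psum]; exact Equiv.sum_comp σ D.p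
  tsum := by
    have := Equiv.sum_comp σ D.t
    rw [this]; exact D.tsum
  tle := fun i => D.tle _
  PLb := fun i => D.PLb _
  TG := fun o a b c h1 h2 h3 h4 h5 h6 => D.TG _ _ _ _
    (fun h => h1 (σ.injective h)) (fun h => h2 (σ.injective h)) (fun h => h3 (σ.injective h))
    (fun h => h4 (σ.injective h)) (fun h => h5 (σ.injective h)) (fun h => h6 (σ.injective h))

lemma RegData.relabel_sorted {k : ℕ} {η : ℝ} (D : RegData k η) :
    ∃ σ : Equiv.Perm (Fin k), Antitone (D.relabel σ).t := by
  refine ⟨Tuple.sort (fun i => - D.t i), ?_⟩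
  have h := Tuple.monotone_sort (fun i => - D.t i)
  intro i j hij
  have := h hij
  simp only [Function.comp] at this
  exact neg_le_neg_iff.mp this

variable {k : ℕ} {η : ℝ} (D : RegData k η)

lemma RegData.rle_left {i j : Fin k} (h : i ≠ j) : D.r i j ≤ D.t i := by
  rw [← D.rsum i]
  refine Finset.single_le_sum (f := fun j => D.r i j) (fun l hl => ?_) ?_
  · simp only [Finset.mem_erase, Finset.mem_univ, and_true] at hl
    exact (D.rpos i l hl.symm).le
  · simp [h.symm]

lemma RegData.rle_right {i j : Fin k} (h : i ≠ j) : D.r i j ≤ D.t j := by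
  rw [D.rsymm]; exact D.rle_left h.symm

/-- lower bound for `ρ = r_ab + r_ac + r_bc` -/
lemma RegData.rho_lower {a b c : Fin k} (hab : a ≠ b) (hac : a ≠ c) (hbc : b ≠ c) :
    D.t a + D.t b + D.t c - ∑ j ∈ Finset.univ \ {a, b, c}, D.t j ≤
      2 * (D.r a b + D.r a c + D.r b c) := by
  classical
  have key : ∀ x y z : Fin k, x ≠ y → x ≠ z → y ≠ z →
      D.t x = D.r x y + D.r x z + ∑ j ∈ Finset.univ \ {x, y, z}, D.r x j := by
    intro x y z h1 h2 h3
    rw [← D.rsum x]
    have : Finset.univ.erase x = insert y (insert z (Finset.univ \ {x, y, z})) := by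
      ext j
      simp only [Finset.mem_erase, Finset.mem_univ, and_true, Finset.mem_insert, Finset.mem_sdiff,
        true_and, Finset.mem_singleton]
      constructor
      · intro h
        by_cases hy : j = y
        · exact Or.inl hy
        · by_cases hz : j = z
          · exact Or.inr (Or.inl hz)
          · right; right; tauto
      · rintro (rfl | rfl | h)
        · exact h1.symm
        · exact h2.symm
        · tauto
    rw [this, Finset.sum_insert, Finset.sum_insert]
    · ring
    · simp
    · simp [h3]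
  have e1 := key a b c hab hac hbc
  have e2 := key b a c hab.symm hbc hac
  have e3 := key c a b hac.symm hbc.symm hab
  have s2 : (Finset.univ \ {b, a, c} : Finset (Fin k)) = Finset.univ \ {a, b, c} := by
    ext; simp; tauto
  have s3 : (Finset.univ \ {c, a, b} : Finset (Fin k)) = Finset.univ \ {a, b, c} := by
    ext; simp; tauto
  rw [s2] at e2
  rw [s3] at e3
  have hj : ∑ j ∈ Finset.univ \ {a, b, c}, (D.r a j + D.r b j + D.r c j) ≤
      ∑ j ∈ Finset.univ \ {a, b, c}, D.t j := by
    refine Finset.sum_le_sum fun j hj => ?_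
    simp only [Finset.mem_sdiff, Finset.mem_univ, true_and, Finset.mem_insert,
      Finset.mem_singleton, not_or] at hj
    obtain ⟨ja, jb, jc⟩ := hj
    rw [← D.rsum j]
    have hsub : ({a, b, c} : Finset (Fin k)) ⊆ Finset.univ.erase j := by
      intro x hx
      simp only [Finset.mem_insert, Finset.mem_singleton] at hx
      simp only [Finset.mem_erase, Finset.mem_univ, and_true]
      rcases hx with rfl | rfl | rfl
      · exact fun h => ja h.symm
      · exact fun h => jb h.symm
      · exact fun h => jc h.symm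
    have h1 := Finset.sum_le_sum_of_subset_of_nonneg (f := fun l => D.r j l) hsub
      (fun l hl _ => by
        simp only [Finset.mem_erase, Finset.mem_univ, and_true] at hl
        exact (D.rpos j l hl.symm).le)
    rw [Finset.sum_insert (by simp [hab, hac]), Finset.sum_insert (by simp [hbc]),
      Finset.sum_singleton] at h1
    rw [D.rsymm a j, D.rsymm b j, D.rsymm c j]
    linarith
  rw [Finset.sum_add_distrib, Finset.sum_add_distrib] at hj
  rw [D.rsymm b a] at e2
  rw [D.rsymm c a, D.rsymm c b] at e3
  linarith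

lemma D2_alg_lower {A B C E R x y z : ℝ} (hA : B ≤ A) (hB : C ≤ B) (hE : E ≤ C) (hC : 0 < C)
    (hx : 0 < x) (hy : 0 < y) (hz : 0 < z) (hxB : x ≤ B) (hyC : y ≤ C) (hzC : z ≤ C)
    (hrho : A + B + C - (E + R) ≤ 2 * (x + y + z)) :
    (A + B) * (2 * C - R / 2) ≤ A * B + B * C + C * A + 2 * (A * z + B * y + C * x)
      + 2 * (x * z + z * y + y * x) - (x ^ 2 + z ^ 2 + y ^ 2) := by
  have h1 : 0 ≤ z * (A - z) := mul_nonneg hz.le (by linarith)
  have h2 : 0 ≤ y * (B - y) := mul_nonneg hy.le (by linarith)
  have h3 : 0 ≤ (B - x) * (x + B - C) := mul_nonneg (by linarith) (by linarith)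
  have h4 : (A + B) * (A + B - 2 * R) / 4 ≤ (x + y + z) ^ 2 := by
    by_cases h : A + B ≤ 2 * R
    · have : (A + B) * (A + B - 2 * R) ≤ 0 :=
        mul_nonpos_of_nonneg_of_nonpos (by linarith) (by linarith)
      have := sq_nonneg (x + y + z)
      linarith
    · push Not at h
      have h5 : (A + B - R) / 2 ≤ x + y + z := by linarith
      by_cases hR : 0 ≤ A + B - R
      · have h6 : ((A + B - R) / 2) ^ 2 ≤ (x + y + z) ^ 2 :=
          pow_le_pow_left₀ (by linarith) h5 2
        nlinarith [sq_nonneg R]
      · push Not at hR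
        have h7 : A + B < 0 := by linarith
        linarith
  have h5 : 0 ≤ (A - B) * (A / 4 + 7 * B / 4 - C) := mul_nonneg (by linarith) (by linarith)
  nlinarith [h1, h2, h3, h4, h5]

/-- the area lemma: `D2 ≥ (t_a + t_b)(2 t_c - R'/2)` -/
lemma RegData.D2_lower {a b c d : Fin k} (hab : a ≠ b) (hac : a ≠ c) (hbc : b ≠ c) (had : a ≠ d)
    (hbd : b ≠ d) (hcd : c ≠ d) (h1 : D.t b ≤ D.t a) (h2 : D.t c ≤ D.t b) (h3 : D.t d ≤ D.t c) :
    (D.t a + D.t b) * (2 * D.t c - (∑ j ∈ Finset.univ \ {a, b, c, d}, D.t j) / 2) ≤
      D2 D.t D.r a b c := by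
  classical
  set R : ℝ := ∑ j ∈ Finset.univ \ {a, b, c, d}, D.t j with hR
  have hR0 : 0 ≤ R := Finset.sum_nonneg fun j _ => (D.tpos j).le
  have hsum : ∑ j ∈ Finset.univ \ {a, b, c}, D.t j = D.t d + R := by
    have : (Finset.univ \ {a, b, c} : Finset (Fin k)) = insert d (Finset.univ \ {a, b, c, d}) := by
      ext j
      simp only [Finset.mem_sdiff, Finset.mem_univ, true_and, Finset.mem_insert,
        Finset.mem_singleton]
      constructor
      · intro h
        by_cases hj : j = d
        · exact Or.inl hj
        · right; tauto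
      · rintro (rfl | h)
        · rintro (h | h | h)
          · exact had h.symm
          · exact hbd h.symm
          · exact hcd h.symm
        · tauto
    rw [this, Finset.sum_insert (by simp)]
  have hrho := D.rho_lower hab hac hbc
  rw [hsum] at hrho
  have pa := D.tpos a
  have pb := D.tpos b
  have pc := D.tpos c
  have q1 := D.rle_right hab
  have q2 := D.rle_right hac
  have q3 := D.rle_right hbc
  have w1 := D.rpos a b hab
  have w2 := D.rpos a c hac
  have w3 := D.rpos b c hbc
  unfold D2
  have key := D2_alg_lower h1 h2 h3 pc w1 w2 w3 q1 q2 q3 hrho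
  refine key.trans (le_of_eq ?_)
  ring

end Crest.Agent.Prop334
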