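import Crest.Agent.Prop334.Defs

/-! Propeller inequality (S0334): the Gaussian integral behind the triangle gauge. -/

set_option autoImplicit false

open MeasureTheory ProbabilityTheory Set
open scoped RealInnerProductSpace ENNReal

namespace Crest.Agent.Prop334.TGI

/-- The law of the coordinates of a standard Gaussian vector along an orthonormal family. -/
theorem law_orthonormal {n : ℕ} {ι : Type} [Fintype ι] (e : ι → V n) (he : Orthonormal ℝ e) :
    (gam n).map (fun x (i : ι) => ⟪x, e i⟫) = Measure.pi (fun _ : ι => gaussianReal 0 1) := by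
  have hm : Measurable (fun (x : V n) (i : ι) => ⟪x, e i⟫) := by fun_prop
  have h1 : (gam n).map (fun x => WithLp.toLp 2 (fun (i : ι) => ⟪x, e i⟫))
      = stdGaussian (EuclideanSpace ℝ ι) := by
    have : IsProbabilityMeasure
        ((gam n).map (fun x => (WithLp.toLp 2 (fun (i : ι) => ⟪x, e i⟫) : EuclideanSpace ℝ ι))) :=
      Measure.isProbabilityMeasure_map (by fun_prop)
    apply Measure.ext_of_charFun (E := EuclideanSpace ℝ ι)
    ext t
    rw [charFun_stdGaussian, charFun_apply, integral_map (by fun_prop)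
      (Measurable.aestronglyMeasurable (by fun_prop))]
    have h2 : ∀ x : V n, ⟪(WithLp.toLp 2 (fun (i : ι) => ⟪x, e i⟫) : EuclideanSpace ℝ ι), t⟫
        = ⟪x, ∑ i, t i • e i⟫ := by
      intro x
      rw [inner_sum, PiLp.inner_apply]
      refine Finset.sum_congr rfl fun i _ => ?_
      simp [real_inner_smul_right]
    simp_rw [h2]
    have h3 := charFun_stdGaussian (E := V n) (∑ i, t i • e i)
    rw [charFun_apply] at h3
    rw [h3]
    congr 3
    have h4 : ‖∑ i, t i • e i‖ ^ 2 = ‖t‖ ^ 2 := by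
      rw [← real_inner_self_eq_norm_sq, he.inner_sum, EuclideanSpace.real_norm_sq_eq]
      simp [sq]
    exact_mod_cast h4
  have h2 : (gam n).map (fun x (i : ι) => ⟪x, e i⟫)
      = ((gam n).map (fun x => (WithLp.toLp 2 (fun (i : ι) => ⟪x, e i⟫) : EuclideanSpace ℝ ι))).map
        (WithLp.ofLp) := by
    rw [Measure.map_map (by fun_prop) (by fun_prop)]
    rfl
  rw [h2, h1, ← map_pi_eq_stdGaussian, Measure.map_map (by fun_prop) (by fun_prop)]
  exact Measure.map_id

theorem gauss_le (f : ℝ → ℝ≥0∞) :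
    ∫⁻ x, f x ∂(gaussianReal 0 1) ≤ ENNReal.ofReal (1 / √(2 * Real.pi)) * ∫⁻ x, f x := by
  rw [gaussianReal_of_var_ne_zero _ (by simp),
    lintegral_withDensity_eq_lintegral_mul_non_measurable _ (measurable_gaussianPDF 0 1)
      (Filter.Eventually.of_forall fun x => gaussianPDF_lt_top),
    ← lintegral_const_mul' _ _ ENNReal.ofReal_ne_top]
  refine lintegral_mono fun x => ?_
  simp only [Pi.mul_apply]
  gcongr
  rw [gaussianPDF, gaussianPDFReal]
  apply ENNReal.ofReal_le_ofReal
  simp only [sub_zero, NNReal.coe_one, mul_one]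
  rw [one_div]
  calc (√(2 * Real.pi))⁻¹ * Real.exp (-x ^ 2 / 2) ≤ (√(2 * Real.pi))⁻¹ * 1 := by
        gcongr
        rw [Real.exp_le_one_iff]
        nlinarith [sq_nonneg x]
    _ = _ := mul_one _

theorem gauss_mul (f : ℝ → ℝ≥0∞) :
    ∫⁻ x, f x ∂(gaussianReal 0 1) = ∫⁻ x, gaussianPDF 0 1 x * f x := by
  rw [gaussianReal_of_var_ne_zero _ (by simp),
    lintegral_withDensity_eq_lintegral_mul_non_measurable _ (measurable_gaussianPDF 0 1)
      (Filter.Eventually.of_forall fun x => gaussianPDF_lt_top)]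
  rfl

theorem cube_moment :
    ∫⁻ s, ENNReal.ofReal (s ^ 3) ∂(gaussianReal 0 1) = ENNReal.ofReal (√(2 / Real.pi)) := by
  rw [gauss_mul]
  have h1 : ∀ x : ℝ, gaussianPDF 0 1 x * ENNReal.ofReal (x ^ 3)
      = (Ioi (0 : ℝ)).indicator (fun x => ENNReal.ofReal
        (1 / √(2 * Real.pi) * (x ^ (3 : ℝ) * Real.exp (-(1 / 2) * x ^ (2 : ℝ))))) x := by
    intro x
    by_cases hx : 0 < x
    · rw [indicator_of_mem (show x ∈ Ioi (0 : ℝ) from hx), gaussianPDF, gaussianPDFReal,
        ← ENNReal.ofReal_mul (by positivity)]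
      congr 1
      simp only [sub_zero, NNReal.coe_one, mul_one, one_div]
      rw [show (3 : ℝ) = ((3 : ℕ) : ℝ) by norm_num, show (2 : ℝ) = ((2 : ℕ) : ℝ) by norm_num,
        Real.rpow_natCast, Real.rpow_natCast]
      push_cast
      rw [show -x ^ 2 / 2 = -(2 : ℝ)⁻¹ * x ^ 2 by ring]
      ring
    · rw [indicator_of_notMem (show x ∉ Ioi (0 : ℝ) from hx), ENNReal.ofReal_of_nonpos, mul_zero]
      push Not at hx
      nlinarith [sq_nonneg x, mul_nonneg (neg_nonneg.mpr hx) (sq_nonneg x)]
  simp_rw [h1]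
  rw [lintegral_indicator measurableSet_Ioi]
  have h2 := integral_rpow_mul_exp_neg_mul_rpow (p := 2) (q := 3) (b := 1 / 2) (by norm_num)
    (by norm_num) (by norm_num)
  have h3 : IntegrableOn (fun x : ℝ => x ^ (3 : ℝ) * Real.exp (-(1 / 2) * x ^ (2 : ℝ)))
      (Ioi 0) := by
    exact integrableOn_rpow_mul_exp_neg_mul_rpow (by norm_num) (by norm_num) (by norm_num)
  rw [← ofReal_integral_eq_lintegral_ofReal (h3.const_mul _)]
  · congr 1
    rw [integral_const_mul, h2]
    norm_num
    have hs : √(2 : ℝ) * √2 = 2 := Real.mul_self_sqrt (by norm_num)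
    have h2 : (0 : ℝ) < √2 := by positivity
    field_simp
    nlinarith
  · rw [Filter.EventuallyLE, ae_restrict_iff' measurableSet_Ioi]
    refine Filter.Eventually.of_forall fun x hx => ?_
    have : (0 : ℝ) < x := hx
    simp only [Pi.zero_apply]
    positivity

theorem scale (f : ℝ → ℝ≥0∞) (hf : Measurable f) (b c : ℝ) (hc : 0 < c) :
    ∫⁻ z, f (b + c * z) = ENNReal.ofReal c⁻¹ * ∫⁻ w, f w := by
  have h1 : ∫⁻ w, f w = ∫⁻ w, f (b + w) := (lintegral_add_left_eq_self f b).symm
  rw [h1]
  have h2 := Real.smul_map_volume_mul_left (a := c) hc.ne'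
  conv_rhs => rw [← h2]
  rw [lintegral_smul_measure, lintegral_map (by fun_prop) (by fun_prop), abs_of_pos hc,
    smul_eq_mul, ← mul_assoc, ← ENNReal.ofReal_mul (by positivity), inv_mul_cancel₀ hc.ne']
  simp

/-- `∫ (A + B w)_+ 1_[a,b]` for a linear function nonnegative on `[a,b]` -/
theorem lin_int (a b A B : ℝ) (hab : a ≤ b) (hpos : ∀ w ∈ Icc a b, 0 ≤ A + B * w) :
    ∫⁻ w, (Icc a b).indicator (fun w => ENNReal.ofReal (A + B * w)) w
      = ENNReal.ofReal (A * (b - a) + B * (b ^ 2 - a ^ 2) / 2) := by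
  rw [lintegral_indicator measurableSet_Icc, ← ofReal_integral_eq_lintegral_ofReal]
  · congr 1
    rw [integral_Icc_eq_integral_Ioc, ← intervalIntegral.integral_of_le hab,
      intervalIntegral.integral_add (by simp) (Continuous.intervalIntegrable (by fun_prop) _ _),
      intervalIntegral.integral_const_mul, integral_id]
    simp
    ring
  · exact (ContinuousOn.integrableOn_Icc (by fun_prop))
  · rw [Filter.EventuallyLE, ae_restrict_iff' measurableSet_Icc]
    exact Filter.Eventually.of_forall fun x hx => hpos x hx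

theorem inner_neg_part (h v : ℝ) (hv1 : -2 * h ≤ v) (_hv2 : v ≤ 0) :
    ∫⁻ w, ENNReal.ofReal (h - max v (max w (-v - w))) ≤ ENNReal.ofReal ((h + v / 2) ^ 2) := by
  have key : ∀ w, ENNReal.ofReal (h - max v (max w (-v - w)))
      ≤ (Icc (-h - v) (-v / 2)).indicator (fun w => ENNReal.ofReal ((h + v) + 1 * w)) w
        + (Icc (-v / 2) h).indicator (fun w => ENNReal.ofReal (h + (-1) * w)) w := by
    intro w
    have e1 : max v (max w (-v - w)) ≥ w := le_trans (le_max_left _ _) (le_max_right _ _)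
    have e2 : max v (max w (-v - w)) ≥ -v - w := le_trans (le_max_right _ _) (le_max_right _ _)
    by_cases hw1 : w ∈ Icc (-h - v) (-v / 2)
    · rw [indicator_of_mem hw1]
      refine le_trans ?_ (le_add_right le_rfl)
      apply ENNReal.ofReal_le_ofReal
      linarith
    · by_cases hw2 : w ∈ Icc (-v / 2) h
      · rw [indicator_of_mem hw2]
        refine le_trans ?_ (le_add_left le_rfl)
        apply ENNReal.ofReal_le_ofReal
        linarith
      · rw [ENNReal.ofReal_of_nonpos]
        · exact zero_le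
        · rw [mem_Icc, not_and_or] at hw1 hw2
          push Not at hw1 hw2
          rcases hw1 with hw1 | hw1
          · linarith
          · rcases hw2 with hw2 | hw2
            · linarith
            · linarith
  refine le_trans (lintegral_mono key) ?_
  rw [lintegral_add_left (Measurable.indicator (by fun_prop) measurableSet_Icc),
    lin_int _ _ _ _ (by linarith) (by intro w hw; have := hw.1; linarith),
    lin_int _ _ _ _ (by linarith) (by intro w hw; have := hw.2; linarith),
    ← ENNReal.ofReal_add]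
  · apply ENNReal.ofReal_le_ofReal
    apply le_of_eq
    ring
  · have : (h + v) * (-v / 2 - (-h - v)) + 1 * ((-v / 2) ^ 2 - (-h - v) ^ 2) / 2
        = (h + v / 2) ^ 2 / 2 := by ring
    rw [this]; positivity
  · have : h * (h - -v / 2) + -1 * (h ^ 2 - (-v / 2) ^ 2) / 2 = (h + v / 2) ^ 2 / 2 := by ring
    rw [this]; positivity

theorem inner_pos_part (h v : ℝ) (hv1 : 0 ≤ v) (hv2 : v ≤ h) :
    ∫⁻ w, ENNReal.ofReal (h - max v (max w (-v - w)))
      ≤ ENNReal.ofReal ((h - v) * (h + 2 * v)) := by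
  have key : ∀ w, ENNReal.ofReal (h - max v (max w (-v - w)))
      ≤ (Icc (-h - v) (-2 * v)).indicator (fun w => ENNReal.ofReal ((h + v) + 1 * w)) w
        + ((Icc (-2 * v) v).indicator (fun w => ENNReal.ofReal ((h - v) + 0 * w)) w
        + (Icc v h).indicator (fun w => ENNReal.ofReal (h + (-1) * w)) w) := by
    intro w
    have e0 : max v (max w (-v - w)) ≥ v := le_max_left _ _
    have e1 : max v (max w (-v - w)) ≥ w := le_trans (le_max_left _ _) (le_max_right _ _)
    have e2 : max v (max w (-v - w)) ≥ -v - w := le_trans (le_max_right _ _) (le_max_right _ _)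
    by_cases hw1 : w ∈ Icc (-h - v) (-2 * v)
    · rw [indicator_of_mem hw1]
      refine le_trans ?_ (le_add_right le_rfl)
      apply ENNReal.ofReal_le_ofReal
      linarith
    · by_cases hw2 : w ∈ Icc (-2 * v) v
      · rw [indicator_of_mem hw2]
        refine le_trans ?_ (le_add_left (le_add_right le_rfl))
        apply ENNReal.ofReal_le_ofReal
        linarith
      · by_cases hw3 : w ∈ Icc v h
        · rw [indicator_of_mem hw3]
          refine le_trans ?_ (le_add_left (le_add_left le_rfl))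
          apply ENNReal.ofReal_le_ofReal
          linarith
        · rw [ENNReal.ofReal_of_nonpos]
          · exact zero_le
          · rw [mem_Icc, not_and_or] at hw1 hw2 hw3
            push Not at hw1 hw2 hw3
            rcases hw1 with hw1 | hw1
            · linarith
            · rcases hw2 with hw2 | hw2
              · linarith
              · rcases hw3 with hw3 | hw3
                · linarith
                · linarith
  refine le_trans (lintegral_mono key) ?_
  rw [lintegral_add_left (Measurable.indicator (by fun_prop) measurableSet_Icc),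
    lintegral_add_left (Measurable.indicator (by fun_prop) measurableSet_Icc),
    lin_int _ _ _ _ (by linarith) (by intro w hw; have := hw.1; linarith),
    lin_int _ _ _ _ (by linarith) (by intro w hw; linarith),
    lin_int _ _ _ _ (by linarith) (by intro w hw; have := hw.2; linarith)]
  have i1 : (h + v) * (-2 * v - (-h - v)) + 1 * ((-2 * v) ^ 2 - (-h - v) ^ 2) / 2
      = (h - v) ^ 2 / 2 := by ring
  have i2 : (h - v) * (v - -2 * v) + 0 * (v ^ 2 - (-2 * v) ^ 2) / 2 = 3 * v * (h - v) := by ring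
  have i3 : h * (h - v) + -1 * (h ^ 2 - v ^ 2) / 2 = (h - v) ^ 2 / 2 := by ring
  have hh : 0 ≤ h - v := by linarith
  rw [i1, i2, i3, ← ENNReal.ofReal_add (by positivity) (by positivity),
    ← ENNReal.ofReal_add (by positivity) (by positivity)]
  apply ENNReal.ofReal_le_ofReal
  apply le_of_eq
  ring

theorem inner_zero_part (h v : ℝ) (hv : v < -2 * h ∨ h < v) :
    ∫⁻ w, ENNReal.ofReal (h - max v (max w (-v - w))) = 0 := by
  have : ∀ w, ENNReal.ofReal (h - max v (max w (-v - w))) = 0 := by
    intro w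
    have e0 : max v (max w (-v - w)) ≥ v := le_max_left _ _
    have e1 : max v (max w (-v - w)) ≥ w := le_trans (le_max_left _ _) (le_max_right _ _)
    have e2 : max v (max w (-v - w)) ≥ -v - w := le_trans (le_max_right _ _) (le_max_right _ _)
    apply ENNReal.ofReal_of_nonpos
    rcases hv with hv | hv <;> linarith
  simp [this]

theorem triangle (h : ℝ) :
    ∫⁻ v, ∫⁻ w, ENNReal.ofReal (h - max v (max w (-v - w)))
      ≤ ENNReal.ofReal (3 / 2 * h ^ 3) := by
  rcases le_or_gt h 0 with hh | hh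
  · have : ∀ v w : ℝ, ENNReal.ofReal (h - max v (max w (-v - w))) = 0 := by
      intro v w
      have e0 : max v (max w (-v - w)) ≥ v := le_max_left _ _
      have e1 : max v (max w (-v - w)) ≥ w := le_trans (le_max_left _ _) (le_max_right _ _)
      have e2 : max v (max w (-v - w)) ≥ -v - w := le_trans (le_max_right _ _) (le_max_right _ _)
      apply ENNReal.ofReal_of_nonpos
      linarith
    simp [this]
  have key : ∀ v, ∫⁻ w, ENNReal.ofReal (h - max v (max w (-v - w)))
      ≤ (Icc (-2 * h) 0).indicator (fun v => ENNReal.ofReal ((h + v / 2) ^ 2)) v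
        + (Icc 0 h).indicator (fun v => ENNReal.ofReal ((h - v) * (h + 2 * v))) v := by
    intro v
    by_cases h1 : v ∈ Icc (-2 * h) 0
    · rw [indicator_of_mem h1]
      exact le_trans (inner_neg_part h v h1.1 h1.2) (le_add_right le_rfl)
    · by_cases h2 : v ∈ Icc 0 h
      · rw [indicator_of_mem h2]
        exact le_trans (inner_pos_part h v h2.1 h2.2) (le_add_left le_rfl)
      · rw [inner_zero_part]
        · exact zero_le
        · rw [mem_Icc, not_and_or] at h1 h2
          push Not at h1 h2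
          rcases h1 with h1 | h1
          · left; exact h1
          · right
            rcases h2 with h2 | h2
            · linarith
            · exact h2
  refine le_trans (lintegral_mono key) ?_
  rw [lintegral_add_left (Measurable.indicator (by fun_prop) measurableSet_Icc),
    lintegral_indicator measurableSet_Icc, lintegral_indicator measurableSet_Icc,
    ← ofReal_integral_eq_lintegral_ofReal, ← ofReal_integral_eq_lintegral_ofReal]
  · rw [integral_Icc_eq_integral_Ioc, ← intervalIntegral.integral_of_le (by linarith),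
      integral_Icc_eq_integral_Ioc, ← intervalIntegral.integral_of_le hh.le]
    have f1 : ∫ v in (-2 * h)..0, (h + v / 2) ^ 2 = 2 / 3 * h ^ 3 := by
      have := intervalIntegral.integral_eq_sub_of_hasDerivAt (a := -2 * h) (b := 0)
        (f := fun v => 2 / 3 * (h + v / 2) ^ 3) (f' := fun v => (h + v / 2) ^ 2)
        (fun v _ => by
          have h1 : HasDerivAt (fun y : ℝ => h + y / 2) (1 / 2) v :=
            ((hasDerivAt_id' v).div_const 2).const_add h
          have h2 : HasDerivAt (fun y : ℝ => (h + y / 2) ^ 3)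
            ((3 : ℕ) * (h + v / 2) ^ (3 - 1) * (1 / 2)) v := h1.pow 3
          have h3 := h2.const_mul (2 / 3 : ℝ)
          refine h3.congr_deriv ?_
          norm_num
          ring) (Continuous.intervalIntegrable (by fun_prop) _ _)
      rw [this]
      ring
    have f2 : ∫ v in (0 : ℝ)..h, (h - v) * (h + 2 * v) = 5 / 6 * h ^ 3 := by
      have := intervalIntegral.integral_eq_sub_of_hasDerivAt (a := 0) (b := h)
        (f := fun v => h ^ 2 * v + h / 2 * v ^ 2 - 2 / 3 * v ^ 3)
        (f' := fun v => (h - v) * (h + 2 * v))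
        (fun v _ => by
          have h1 : HasDerivAt (fun y : ℝ => h ^ 2 * y) (h ^ 2 * 1) v :=
            (hasDerivAt_id' v).const_mul (h ^ 2)
          have h2 : HasDerivAt (fun y : ℝ => h / 2 * y ^ 2) (h / 2 * ((2 : ℕ) * v ^ (2 - 1))) v :=
            (hasDerivAt_pow 2 v).const_mul (h / 2)
          have h3 : HasDerivAt (fun y : ℝ => 2 / 3 * y ^ 3) (2 / 3 * ((3 : ℕ) * v ^ (3 - 1))) v :=
            (hasDerivAt_pow 3 v).const_mul (2 / 3)
          have h4 : HasDerivAt (fun v => h ^ 2 * v + h / 2 * v ^ 2 - 2 / 3 * v ^ 3)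
            (h ^ 2 * 1 + h / 2 * ((2 : ℕ) * v ^ (2 - 1)) - 2 / 3 * ((3 : ℕ) * v ^ (3 - 1))) v :=
            (h1.add h2).sub h3
          refine h4.congr_deriv ?_
          norm_num
          ring) (Continuous.intervalIntegrable (by fun_prop) _ _)
      rw [this]
      ring
    rw [f1, f2, ← ENNReal.ofReal_add (by positivity) (by positivity)]
    apply ENNReal.ofReal_le_ofReal
    apply le_of_eq
    ring
  · exact (ContinuousOn.integrableOn_Icc (by fun_prop))
  · rw [Filter.EventuallyLE, ae_restrict_iff' measurableSet_Icc]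
    refine Filter.Eventually.of_forall fun x hx => ?_
    have h1 := hx.1
    have h2 := hx.2
    exact mul_nonneg (by linarith) (by linarith)
  · exact (ContinuousOn.integrableOn_Icc (by fun_prop))
  · rw [Filter.EventuallyLE, ae_restrict_iff' measurableSet_Icc]
    refine Filter.Eventually.of_forall fun x hx => ?_
    simp only [Pi.zero_apply]
    positivity

theorem triple (f : ℝ → ℝ → ℝ → ℝ≥0∞) (hf : Measurable (fun p : ℝ × ℝ × ℝ => f p.1 p.2.1 p.2.2))
    (μ : Measure ℝ) [SigmaFinite μ] :
    ∫⁻ x : Fin 3 → ℝ, f (x 0) (x 1) (x 2) ∂(Measure.pi (fun _ => μ))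
      = ∫⁻ s, ∫⁻ y, ∫⁻ z, f s y z ∂μ ∂μ ∂μ := by
  have h1 := ((measurePreserving_piFinSuccAbove (fun _ : Fin 3 => μ) 0).symm)
  rw [← h1.lintegral_comp_emb (MeasurableEquiv.measurableEmbedding _)]
  rw [lintegral_prod]
  · refine lintegral_congr fun s => ?_
    have h2 := ((measurePreserving_piFinTwo (fun _ : Fin 2 => μ)).symm)
    have h3 : (Measure.pi fun j : Fin 2 => (fun _ : Fin 3 => μ) (Fin.succAbove 0 j))
        = Measure.pi (fun _ : Fin 2 => μ) := rfl
    rw [h3, ← h2.lintegral_comp_emb (MeasurableEquiv.measurableEmbedding _)]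
    rw [lintegral_prod]
    · rfl
    · apply Measurable.aemeasurable
      have : Measurable (fun p : ℝ × ℝ => (s, p.1, p.2)) := by fun_prop
      exact hf.comp this
  · apply Measurable.aemeasurable
    have : Measurable (fun p : ℝ × (Fin 2 → ℝ) => (p.1, p.2 0, p.2 1)) := by fun_prop
    exact hf.comp this

theorem core (α β c lam : ℝ) (hα : 0 < α) (hc : 0 < c) (hlam : 0 ≤ lam) :
    ∫⁻ s, ∫⁻ y, ∫⁻ z, ENNReal.ofReal
      (lam * s - max (α * y) (max (β * y + c * z) (-(α * y) - (β * y + c * z))))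
      ∂(gaussianReal 0 1) ∂(gaussianReal 0 1) ∂(gaussianReal 0 1)
      ≤ ENNReal.ofReal (3 * lam ^ 3 / (4 * Real.pi * (α * c)) * √(2 / Real.pi)) := by
  set K := ENNReal.ofReal (1 / √(2 * Real.pi)) with hK
  have h1 : ∀ s : ℝ, ∫⁻ y, ∫⁻ z, ENNReal.ofReal
      (lam * s - max (α * y) (max (β * y + c * z) (-(α * y) - (β * y + c * z))))
      ∂(gaussianReal 0 1) ∂(gaussianReal 0 1)
      ≤ K * K * (ENNReal.ofReal c⁻¹ * ENNReal.ofReal α⁻¹)
        * ENNReal.ofReal (3 / 2 * (lam * s) ^ 3) := by
    intro s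
    calc _ ≤ K * ∫⁻ y, ∫⁻ z, ENNReal.ofReal
          (lam * s - max (α * y) (max (β * y + c * z) (-(α * y) - (β * y + c * z))))
          ∂(gaussianReal 0 1) := gauss_le _
      _ ≤ K * ∫⁻ y, K * ∫⁻ z, ENNReal.ofReal
          (lam * s - max (α * y) (max (β * y + c * z) (-(α * y) - (β * y + c * z)))) := by
          gcongr with y
          exact gauss_le _
      _ = K * ∫⁻ y, K * (ENNReal.ofReal c⁻¹ * ∫⁻ w, ENNReal.ofReal
          (lam * s - max (α * y) (max w (-(α * y) - w)))) := by
          congr 1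
          refine lintegral_congr fun y => ?_
          congr 1
          exact scale (fun w => ENNReal.ofReal
            (lam * s - max (α * y) (max w (-(α * y) - w)))) (by fun_prop) (β * y) c hc
      _ = K * (K * (ENNReal.ofReal c⁻¹ * ∫⁻ y, ∫⁻ w, ENNReal.ofReal
          (lam * s - max (α * y) (max w (-(α * y) - w))))) := by
          rw [lintegral_const_mul' _ _ ENNReal.ofReal_ne_top,
            lintegral_const_mul' _ _ ENNReal.ofReal_ne_top]
      _ = K * (K * (ENNReal.ofReal c⁻¹ * (ENNReal.ofReal α⁻¹ * ∫⁻ v, ∫⁻ w, ENNReal.ofReal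
          (lam * s - max v (max w (-v - w)))))) := by
          have hm : Measurable (fun v : ℝ => ∫⁻ w, ENNReal.ofReal
              (lam * s - max v (max w (-v - w)))) := by
            apply Measurable.lintegral_prod_right
            fun_prop
          have h2 := scale (fun v : ℝ => ∫⁻ w, ENNReal.ofReal
              (lam * s - max v (max w (-v - w)))) hm 0 α hα
          simp only [zero_add] at h2
          rw [h2]
      _ ≤ K * (K * (ENNReal.ofReal c⁻¹ * (ENNReal.ofReal α⁻¹
          * ENNReal.ofReal (3 / 2 * (lam * s) ^ 3)))) := by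
          gcongr
          exact triangle _
      _ = _ := by ring
  refine le_trans (lintegral_mono h1) ?_
  have hKt : K ≠ ⊤ := ENNReal.ofReal_ne_top
  rw [lintegral_const_mul' _ _ (by
    refine ENNReal.mul_ne_top (ENNReal.mul_ne_top hKt hKt)
      (ENNReal.mul_ne_top ENNReal.ofReal_ne_top ENNReal.ofReal_ne_top))]
  have h3 : ∀ s : ℝ, ENNReal.ofReal (3 / 2 * (lam * s) ^ 3)
      = ENNReal.ofReal (3 / 2 * lam ^ 3) * ENNReal.ofReal (s ^ 3) := by
    intro s
    rw [← ENNReal.ofReal_mul (by positivity)]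
    congr 1
    ring
  simp_rw [h3]
  rw [lintegral_const_mul' _ _ ENNReal.ofReal_ne_top, cube_moment, hK,
    ← ENNReal.ofReal_mul (by positivity), ← ENNReal.ofReal_mul (by positivity),
    ← ENNReal.ofReal_mul (by positivity), ← ENNReal.ofReal_mul (by positivity),
    ← ENNReal.ofReal_mul (by positivity)]
  apply ENNReal.ofReal_le_ofReal
  apply le_of_eq
  have hs : 1 / √(2 * Real.pi) * (1 / √(2 * Real.pi)) = 1 / (2 * Real.pi) := by
    rw [div_mul_div_comm, Real.mul_self_sqrt (by positivity), one_mul]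
  rw [hs]
  field_simp
  ring

end Crest.Agent.Prop334.TGI

namespace Crest.Agent.Prop334

/-- Part TGI (Gaussian integral behind the triangle gauge). -/
theorem tgauge_integral {n : ℕ} (u q1 q2 : V n) (hu : ‖u‖ = 1) (h1 : ⟪u, q1⟫ = 0)
    (h2 : ⟪u, q2⟫ = 0) (g : ℝ) (hg : 0 < g)
    (hg2 : g ^ 2 = ‖q1‖ ^ 2 * ‖q2‖ ^ 2 - ⟪q1, q2⟫ ^ 2) (lam : ℝ) (hlam : 0 ≤ lam) :
    ∫ x, max 0 (lam * ⟪x, u⟫ - max ⟪x, q1⟫ (max ⟪x, q2⟫ (-⟪x, q1⟫ - ⟪x, q2⟫))) ∂(gam n)
      ≤ 3 * lam ^ 3 / (4 * Real.pi * g) * √(2 / Real.pi) := by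
  have hq1 : 0 < ‖q1‖ := by
    rcases (norm_nonneg q1).lt_or_eq with h | h
    · exact h
    · exfalso
      rw [← h] at hg2
      nlinarith [sq_nonneg ⟪q1, q2⟫, pow_pos hg 2]
  set α := ‖q1‖ with hα
  set β := ⟪q1, q2⟫ / α with hβ
  set c := g / α with hc
  have hcpos : 0 < c := by positivity
  have hαc : α * c = g := by rw [hc]; field_simp
  set e2 : V n := α⁻¹ • q1 with he2
  set e3 : V n := c⁻¹ • (q2 - β • e2) with he3
  have n2 : ‖e2‖ = 1 := by
    rw [he2, norm_smul, Real.norm_eq_abs, abs_of_pos (by positivity), ← hα]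
    field_simp
  have i12 : ⟪e2, q2⟫ = β := by
    rw [he2, real_inner_smul_left, hβ]; field_simp
  have n3' : ‖q2 - β • e2‖ ^ 2 = c ^ 2 := by
    rw [norm_sub_sq_real, real_inner_smul_right, real_inner_comm, i12, norm_smul, n2,
      Real.norm_eq_abs, mul_one, sq_abs]
    have : c ^ 2 * α ^ 2 = α ^ 2 * ‖q2‖ ^ 2 - ⟪q1, q2⟫ ^ 2 := by
      rw [← hg2, ← hαc]; ring
    have hb : β ^ 2 * α ^ 2 = ⟪q1, q2⟫ ^ 2 := by
      rw [hβ]; field_simp
    have hα2 : α ^ 2 ≠ 0 := by positivity
    apply mul_right_cancel₀ hα2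
    linarith
  have n3 : ‖e3‖ = 1 := by
    have : ‖q2 - β • e2‖ = c := by
      exact (pow_left_inj₀ (norm_nonneg _) hcpos.le (by norm_num : (2 : ℕ) ≠ 0)).mp n3'
    rw [he3, norm_smul, Real.norm_eq_abs, abs_of_pos (by positivity), this]
    field_simp
  have o12 : ⟪u, e2⟫ = 0 := by rw [he2, real_inner_smul_right, h1, mul_zero]
  have o13 : ⟪u, e3⟫ = 0 := by
    rw [he3, real_inner_smul_right, inner_sub_right, real_inner_smul_right, h2, o12]; simp
  have o23 : ⟪e2, e3⟫ = 0 := by
    rw [he3, real_inner_smul_right, inner_sub_right, real_inner_smul_right, i12,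
      real_inner_self_eq_norm_sq, n2]; simp
  have hon : Orthonormal ℝ ![u, e2, e3] := by
    constructor
    · intro i; fin_cases i <;> simp [hu, n2, n3]
    · intro i j hij
      fin_cases i <;> fin_cases j <;> simp_all [real_inner_comm]
  have x1 : ∀ x : V n, ⟪x, q1⟫ = α * ⟪x, e2⟫ := by
    intro x
    rw [he2, real_inner_smul_right]; field_simp
  have x2 : ∀ x : V n, ⟪x, q2⟫ = β * ⟪x, e2⟫ + c * ⟪x, e3⟫ := by
    intro x
    have h3 : ⟪x, e3⟫ = c⁻¹ * (⟪x, q2⟫ - β * ⟪x, e2⟫) := by
      rw [he3, real_inner_smul_right, inner_sub_right, real_inner_smul_right]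
    rw [h3]; field_simp; ring
  have law := TGI.law_orthonormal ![u, e2, e3] hon
  rw [integral_eq_lintegral_of_nonneg_ae (Filter.Eventually.of_forall fun x => by
      simp only [Pi.zero_apply]; exact le_max_left _ _)
    (Measurable.aestronglyMeasurable (by fun_prop))]
  refine ENNReal.toReal_le_of_le_ofReal (by positivity) ?_
  have e1 : ∀ x : V n, ENNReal.ofReal
      (max 0 (lam * ⟪x, u⟫ - max ⟪x, q1⟫ (max ⟪x, q2⟫ (-⟪x, q1⟫ - ⟪x, q2⟫))))
      = (fun y : Fin 3 → ℝ => ENNReal.ofReal (lam * y 0 - max (α * y 1)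
        (max (β * y 1 + c * y 2) (-(α * y 1) - (β * y 1 + c * y 2)))))
        (fun i => ⟪x, ![u, e2, e3] i⟫) := by
    intro x
    rw [ENNReal.ofReal_max, ENNReal.ofReal_zero, max_eq_right zero_le, x1, x2]
    rfl
  simp_rw [e1]
  rw [← lintegral_map (μ := gam n) (g := fun x (i : Fin 3) => ⟪x, ![u, e2, e3] i⟫)
    (f := fun y : Fin 3 → ℝ => ENNReal.ofReal (lam * y 0 - max (α * y 1)
        (max (β * y 1 + c * y 2) (-(α * y 1) - (β * y 1 + c * y 2))))) (by fun_prop)
    (by fun_prop), law,
    TGI.triple (fun s y z => ENNReal.ofReal (lam * s - max (α * y)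
        (max (β * y + c * z) (-(α * y) - (β * y + c * z))))) (by fun_prop), ← hαc]
  exact TGI.core α β c lam hq1 hcpos hlam

end Crest.Agent.Prop334
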